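import Vale.Agent.P257.Z.Pol

/-!
# P257, block Z: the reduced permutation representation, charts, transfers

* `RA ι = FA ι False (card ι - 1)` the sphere of the reduced permutation representation,
  `AA ι = FA ι True (card ι - 1)` its unit sphere, `VA ι` the sphere of the permutation
  representation; `spl : RA ι ⊗ ℝ ≅ VA ι`;
* `chart T : (T → ℝ) → St False j`, the component of `St False j` with support `T`;
* `trIso : ι × RA ≅ St False (card ι - 1)`, the transfer `tr : RA ⟶ ι × RA`, `homotopic_tr`.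
-/

open CategoryTheory MonoidalCategory Limits Topology OnePoint Filter
open scoped NNReal

namespace Vale.Agent.P257.Z

open Vale.Agent.P257.E
open Vale.Agent.P251.G (LC)
open Vale.Agent.P251.G.LC (RR II HH app smash incl expHH)
open Equiv (Perm)

theorem ofOpen_comp {X Y Z : LC} (j : Y → X) (hj : IsOpenEmbedding j) (k : Z → Y)
    (hk : IsOpenEmbedding k) : LC.ofOpen j hj ≫ LC.ofOpen k hk = LC.ofOpen (j ∘ k) (hj.comp hk) := by
  refine LC.hom_ext fun x => ?_
  rw [LC.app_comp]
  by_cases h : x ∈ Set.range (j ∘ k)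
  · obtain ⟨z, rfl⟩ := h
    rw [LC.app_ofOpen_coe (j ∘ k), Function.comp_apply, LC.app_ofOpen_coe, LC.app_ofOpen_coe]
  · rw [LC.app_ofOpen_of_notMem _ _ h]
    by_cases h' : x ∈ Set.range j
    · obtain ⟨y, rfl⟩ := h'
      rw [LC.app_ofOpen_coe, LC.app_ofOpen_of_notMem _ _ fun ⟨z, hz⟩ => h ⟨z, congrArg j hz⟩]
    · rw [LC.app_ofOpen_of_notMem _ _ h', LC.app_infty]

theorem ofHomeo_hom_eq {X Y : LC} (e : X ≃ₜ Y) :
    (LC.ofHomeo e).hom = LC.ofOpen e.symm e.symm.isOpenEmbedding := by
  refine LC.hom_ext fun x => ?_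
  have h := LC.app_ofOpen_coe e.symm e.symm.isOpenEmbedding (e x)
  rw [e.symm_apply_apply] at h
  rw [h, LC.app_ofHomeo_hom_coe]

theorem ofHomeo_inv_eq {X Y : LC} (e : X ≃ₜ Y) :
    (LC.ofHomeo e).inv = LC.ofOpen e e.isOpenEmbedding := ofHomeo_hom_eq e.symm

theorem ofOpen_congr {X Y : LC} {j k : Y → X} (hj : IsOpenEmbedding j) (hk : IsOpenEmbedding k)
    (h : j = k) : LC.ofOpen j hj = LC.ofOpen k hk := by
  subst h
  rfl

variable {ι : Type} [Finite ι] {j : ℕ} {c : Prop}

section charts

theorem eventually_supp_eq (x : St ι c j) : ∀ᶠ y in 𝓝 x, supp y.1 = supp x.1 := by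
  filter_upwards [continuous_subtype_val.continuousAt.eventually (eventually_supp_subset x.1)]
    with y hy
  exact (Set.eq_of_subset_of_ncard_le hy (y.2.2.trans x.2.2.symm).le (Set.toFinite _)).symm

theorem isLocallyConstant_supp : IsLocallyConstant fun x : St ι c j => supp x.1 :=
  (IsLocallyConstant.iff_eventually_eq _).2 eventually_supp_eq

theorem isClopen_supp (T : Set ι) : IsClopen {x : St ι c j | supp x.1 = T} :=
  isLocallyConstant_supp.isClopen_fiber T

theorem continuous_log_St (i : ι) : Continuous fun x : St ι c j => Real.log (x.1 i) := by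
  refine continuous_iff_continuousAt.2 fun x => ?_
  by_cases h : x.1 i = 0
  · refine (continuousAt_const (y := Real.log (x.1 i))).congr ?_
    filter_upwards [eventually_supp_eq x] with y hy
    have h' : y.1 i = 0 := by
      by_contra h'
      exact (hy ▸ h' : i ∈ supp x.1) h
    rw [h, h']
  · exact (NNReal.continuous_coe.comp ((Fn.continuous_ap i).comp
      continuous_subtype_val)).continuousAt.log (NNReal.coe_ne_zero.2 h)

open scoped Classical in
/-- the point with support `T` and the given logarithms -/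
noncomputable def chf (T : Set ι) (w : T → ℝ) : Fn ι ℝ≥0 :=
  fun i => if h : i ∈ T then expHH (w ⟨i, h⟩) else 0

omit [Finite ι] in
theorem chf_of_mem {T : Set ι} (w : T → ℝ) {i : ι} (h : i ∈ T) : chf T w i = expHH (w ⟨i, h⟩) :=
  dif_pos h

omit [Finite ι] in
theorem chf_of_notMem {T : Set ι} (w : T → ℝ) {i : ι} (h : i ∉ T) : chf T w i = 0 := dif_neg h

omit [Finite ι] in
theorem supp_chf (T : Set ι) (w : T → ℝ) : supp (chf T w) = T := by
  ext i
  by_cases h : i ∈ T
  · exact iff_of_true ((chf_of_mem w h).trans_ne (expHH_ne_zero _)) h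
  · exact iff_of_false (fun h' => h' (chf_of_notMem w h)) h

omit [Finite ι] in
theorem continuous_chf (T : Set ι) : Continuous (chf T) :=
  Fn.continuous_mk fun i => by
    by_cases h : i ∈ T
    · simp only [chf_of_mem _ h]
      exact continuous_expHH.comp (continuous_apply _)
    · simp only [chf_of_notMem _ h]
      exact continuous_const

omit [Finite ι] in
theorem chf_log {T : Set ι} {x : Fn ι ℝ≥0} (h : supp x = T) :
    chf T (fun i => Real.log (x i.1)) = x :=
  Fn.ext fun i => by
    by_cases hi : i ∈ T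
    · rw [chf_of_mem _ hi]
      exact expHH_log (h ▸ hi : i ∈ supp x)
    · rw [chf_of_notMem _ hi]
      by_contra h'
      exact hi (h ▸ Ne.symm h')

/-- the component of the stratum with support `T` -/
noncomputable def chart {T : Set ι} (h : T.ncard = j) (w : T → ℝ) : St ι False j :=
  ⟨chf T w, False.elim, by rw [ns, supp_chf, h]⟩

/-- the component of the stratum with support `T` -/
noncomputable def chartHomeo {T : Set ι} (h : T.ncard = j) :
    (T → ℝ) ≃ₜ {x : St ι False j // supp x.1 = T} where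
  toFun w := ⟨chart h w, supp_chf T w⟩
  invFun x i := Real.log (x.1.1 i.1)
  left_inv w := funext fun i =>
    (congrArg (fun t : ℝ≥0 => Real.log t) (chf_of_mem w i.2)).trans (log_expHH _)
  right_inv x := Subtype.ext (Subtype.ext (chf_log x.2))
  continuous_toFun := ((continuous_chf T).subtype_mk _).subtype_mk _
  continuous_invFun := continuous_pi fun i => (continuous_log_St i.1).comp continuous_subtype_val

theorem isOpenEmbedding_chart {T : Set ι} (h : T.ncard = j) : IsOpenEmbedding (chart h) :=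
  (isClopen_supp T).isOpen.isOpenEmbedding_subtypeVal.comp (chartHomeo h).isOpenEmbedding

theorem isClosedEmbedding_chart {T : Set ι} (h : T.ncard = j) : IsClosedEmbedding (chart h) :=
  (isClopen_supp T).isClosed.isClosedEmbedding_subtypeVal.comp (chartHomeo h).isClosedEmbedding

theorem range_chart {T : Set ι} (h : T.ncard = j) :
    Set.range (chart h) = {x : St ι False j | supp x.1 = T} := by
  ext x
  exact ⟨by rintro ⟨w, rfl⟩; exact supp_chf T w,
    fun hx => ⟨(chartHomeo h).symm ⟨x, hx⟩,
      congrArg Subtype.val ((chartHomeo h).apply_symm_apply _)⟩⟩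

/-- the inclusion of a component -/
noncomputable def chι {T : Set ι} (h : T.ncard = j) : LC.of (T → ℝ) ⟶ (SA ι False j).V :=
  LC.ofClosed (X := LC.of (T → ℝ)) (Y := LC.of (St ι False j)) _ (isClosedEmbedding_chart h)

/-- the collapse onto a component -/
noncomputable def chπ {T : Set ι} (h : T.ncard = j) : (SA ι False j).V ⟶ LC.of (T → ℝ) :=
  LC.ofOpen (X := LC.of (St ι False j)) (Y := LC.of (T → ℝ)) _ (isOpenEmbedding_chart h)

variable (c j) in
/-- the idempotent of the components with support `T` -/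
noncomputable def es (T : Set ι) : (SA ι c j).V ⟶ (SA ι c j).V :=
  rs (K := LC.of (St ι c j)) (isClopen_supp T)

theorem es_eq {T : Set ι} (h : T.ncard = j) : es j False T = chπ h ≫ chι h :=
  rs_eq_of_chart _ _ _ _ (range_chart h)

theorem es_eq_zero {T : Set ι} (h : T.ncard ≠ j) : es j c T = 0 :=
  LC.hom_ext fun x => app_rs_of_notMem (K := LC.of (St ι c j)) _ fun hx => h (by
    rw [← show supp x.1 = T from hx]
    exact x.2.2)

theorem app_es_of_eq {T : Set ι} {x : St ι c j} (h : supp x.1 = T) :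
    app (es j c T) (x : OnePoint (St ι c j)) = x := app_rs_of_mem (K := LC.of (St ι c j)) _ h

theorem app_es_of_ne {T : Set ι} {x : St ι c j} (h : supp x.1 ≠ T) :
    app (es j c T) (x : OnePoint (St ι c j)) = ∞ := app_rs_of_notMem (K := LC.of (St ι c j)) _ h

theorem act_es {T : Set ι} {g : Perm ι} (h : g.symm ⁻¹' T = T) :
    act (SA ι c j) g ≫ es j c T = es j c T ≫ act (SA ι c j) g := by
  refine LC.hom_ext fun x => ?_
  rw [LC.app_comp, LC.app_comp, app_act_gsp]
  by_cases hx : supp x.1 = T
  · rw [app_es_of_eq hx, app_act_gsp]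
    exact app_es_of_eq ((congrArg (g.symm ⁻¹' ·) hx).trans h)
  · rw [app_es_of_ne hx, LC.app_infty]
    exact app_es_of_ne fun h' => hx (g.symm.surjective.preimage_injective (h'.trans h.symm))

theorem es_act_of_fix {T : Set ι} {g : Perm ι} (h : ∀ i ∈ T, g i = i) :
    es j c T ≫ act (SA ι c j) g = es j c T := by
  refine LC.hom_ext fun x => ?_
  rw [LC.app_comp]
  by_cases hx : supp x.1 = T
  · rw [app_es_of_eq hx, app_act_gsp]
    refine congrArg OnePoint.some (Subtype.ext (Fn.ext fun i => ?_))
    change x.1 (g.symm i) = x.1 i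
    by_cases hi : i ∈ T
    · rw [g.symm_apply_eq.2 (h i hi).symm]
    · have h1 : x.1 i = 0 := by
        by_contra h'
        exact hi (hx ▸ h')
      rw [h1]
      by_contra h'
      have h2 : g.symm i ∈ T := hx ▸ h'
      exact hi (by rw [← g.apply_symm_apply i, h _ h2]; exact h2)
  · rw [app_es_of_ne hx, LC.app_infty]

/-- a permutation of the coordinates -/
def permLC {κ : Type} [Finite κ] (σ : Perm κ) : LC.of (κ → ℝ) ⟶ LC.of (κ → ℝ) :=
  act (gsp (Perm κ) (Fn κ ℝ)) σ⁻¹

theorem app_permLC {κ : Type} [Finite κ] (σ : Perm κ) (x : κ → ℝ) :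
    app (permLC σ) (x : OnePoint (κ → ℝ)) = ((x ∘ σ : κ → ℝ) : OnePoint (κ → ℝ)) := rfl

theorem chι_swap [DecidableEq ι] {T : Set ι} (h : T.ncard = j) (a b : T) :
    chι h ≫ act (SA ι False j) (Equiv.swap a.1 b.1) = permLC (Equiv.swap a b) ≫ chι h := by
  refine LC.hom_ext fun w => congrArg OnePoint.some (Subtype.ext (Fn.ext fun i => ?_))
  change chf T w (Equiv.swap a.1 b.1 i) = chf T (w ∘ Equiv.swap a b) i
  by_cases hi : i ∈ T
  · have h1 : Equiv.swap a.1 b.1 i = (Equiv.swap a b ⟨i, hi⟩).1 :=
      Function.Injective.swap_apply Subtype.val_injective a b ⟨i, hi⟩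
    rw [h1, chf_of_mem _ (Equiv.swap a b ⟨i, hi⟩).2, chf_of_mem _ hi]
    rfl
  · rw [Equiv.swap_apply_of_ne_of_ne (x := i) (fun h => hi (h.symm ▸ a.2))
      (fun h => hi (h.symm ▸ b.2)), chf_of_notMem _ hi, chf_of_notMem _ hi]

end charts

variable (ι) in
/-- the dimension of the reduced permutation representation -/
noncomputable abbrev pd : ℕ := Nat.card ι - 1

variable (ι) in
/-- the sphere of the reduced permutation representation -/
noncomputable abbrev RA : Action LC (Perm ι) := FA ι False (pd ι)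

variable (ι) in
/-- the unit sphere of the reduced permutation representation -/
noncomputable abbrev AA : Action LC (Perm ι) := FA ι True (pd ι)

variable (ι) in
/-- the sphere of the permutation representation -/
abbrev VA : Action LC (Perm ι) := gsp (Perm ι) (Fn ι ℝ)

theorem ncard_compl_singleton (i : ι) : ({i}ᶜ : Set ι).ncard = pd ι := by
  rw [Set.ncard_compl, Set.ncard_singleton]

theorem ns_le_pd {x : Fn ι ℝ≥0} {i : ι} (h : x i = 0) : ns x ≤ pd ι := by
  rw [← ncard_compl_singleton i]
  exact Set.ncard_le_ncard (fun l hl hi => hl (by rw [show l = i from hi, h])) (Set.toFinite _)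

variable [Nonempty ι]

theorem exists_zero {x : Fn ι ℝ≥0} (h : ns x ≤ pd ι) : ∃ i, x i = 0 := by
  by_contra h'
  push Not at h'
  have h1 : supp x = Set.univ := Set.eq_univ_of_forall h'
  rw [ns, h1, Set.ncard_univ] at h
  have h2 : 0 < Nat.card ι := Nat.card_pos
  unfold pd at h
  omega

/-- the minimum of the coordinates -/
noncomputable def low (v : Fn ι ℝ) : ℝ := ⨅ i, v i

omit [Nonempty ι] in
theorem low_le (v : Fn ι ℝ) (i : ι) : low v ≤ v i :=
  ciInf_le (f := fun i => v i) (Set.finite_range _).bddBelow i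

theorem exists_eq_low (v : Fn ι ℝ) : ∃ i, v i = low v := exists_eq_ciInf_of_finite

theorem continuous_low : Continuous (low : Fn ι ℝ → ℝ) := by
  have := Fintype.ofFinite ι
  have h : (low : Fn ι ℝ → ℝ) = fun x => Finset.univ.inf' Finset.univ_nonempty fun i => x i :=
    funext fun x => (Finset.inf'_univ_eq_ciInf _).symm
  rw [h]
  exact Continuous.finset_inf'_apply _ fun i _ => Fn.continuous_ap i

theorem low_eq {v : Fn ι ℝ} {x : Fl ι c (pd ι)} {t : ℝ} (h : ∀ i, v i = x.1 i + t) :
    low v = t := by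
  obtain ⟨i, hi⟩ := exists_zero x.2.2
  obtain ⟨l, hl⟩ := exists_eq_low v
  refine le_antisymm ((low_le v i).trans ?_) ?_
  · rw [h, hi, NNReal.coe_zero, zero_add]
  · rw [← hl, h]
    exact le_add_of_nonneg_left (x.1 l).2

omit [Finite ι] [Nonempty ι] in
theorem low_smul (g : Perm ι) (v : Fn ι ℝ) : low (g • v) = low v :=
  g.symm.surjective.iInf_comp (fun i => v i)

/-- the normalization -/
noncomputable def nrm (v : Fn ι ℝ) : Fl ι False (pd ι) :=
  ⟨fun i => ⟨v i - low v, sub_nonneg.2 (low_le v i)⟩, False.elim,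
    ns_le_pd (i := (exists_eq_low v).choose)
      (NNReal.coe_injective (sub_eq_zero.2 (exists_eq_low v).choose_spec))⟩

theorem coe_nrm (v : Fn ι ℝ) (i : ι) : ((nrm v).1 i : ℝ) = v i - low v := rfl

theorem continuous_nrm : Continuous (nrm : Fn ι ℝ → Fl ι False (pd ι)) :=
  (Fn.continuous_mk fun i => ((Fn.continuous_ap i).sub continuous_low).subtype_mk _).subtype_mk _

theorem nrm_eq {v : Fn ι ℝ} {x : Fl ι False (pd ι)} {t : ℝ} (h : ∀ i, v i = x.1 i + t) :
    nrm v = x :=
  Subtype.ext (Fn.ext fun i => NNReal.coe_injective (by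
    rw [coe_nrm, low_eq h, h, add_sub_cancel_right]))

/-- the splitting of the permutation representation -/
noncomputable def splHomeo : Fl ι False (pd ι) × ℝ ≃ₜ Fn ι ℝ where
  toFun p i := p.1.1 i + p.2
  invFun v := (nrm v, low v)
  left_inv _ := Prod.ext (nrm_eq fun _ => rfl) (low_eq fun _ => rfl)
  right_inv v := Fn.ext fun i => sub_add_cancel (v i) (low v)
  continuous_toFun := Fn.continuous_mk fun i => (NNReal.continuous_coe.comp
    ((Fn.continuous_ap i).comp (continuous_subtype_val.comp continuous_fst))).add continuous_snd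
  continuous_invFun := continuous_nrm.prodMk continuous_low

variable (ι) in
/-- the splitting of the permutation representation -/
noncomputable def spl : RA ι ⊗ (triv _).obj RR ≅ VA ι :=
  mkIsoT (LC.ofHomeo (X := LC.of (Fl ι False (pd ι)) ⊗ RR) (Y := LC.of (Fn ι ℝ)) splHomeo)
    fun _ => LC.tensor_ext fun _ _ => rfl

theorem app_spl (x : Fl ι False (pd ι)) (t : ℝ) :
    app (spl ι).hom.hom (smash (x : OnePoint (Fl ι False (pd ι))) (t : OnePoint ℝ)) =
      (splHomeo (x, t) : OnePoint (Fn ι ℝ)) := rfl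

theorem splHomeo_apply (x : Fl ι False (pd ι)) (t : ℝ) (i : ι) :
    splHomeo (x, t) i = x.1 i + t := rfl

open scoped Classical in
/-- the chart of the reduced representation given by `i` -/
noncomputable def chi (i : ι) : Fl ι False (pd ι) ≃ₜ (({i}ᶜ : Set ι) → ℝ) where
  toFun y l := (y.1 l.1 : ℝ) - y.1 i
  invFun w := nrm fun l => if h : l = i then 0 else w ⟨l, h⟩
  left_inv y := nrm_eq (t := -(y.1 i : ℝ)) fun l => by
    by_cases h : l = i
    · rw [dif_pos h, h, add_neg_cancel]
    · rw [dif_neg h]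
      exact sub_eq_add_neg _ _
  right_inv w := funext fun l => by
    refine (congrArg₂ (· - ·) (coe_nrm _ _) (coe_nrm _ _)).trans ?_
    rw [sub_sub_sub_cancel_right]
    exact (congrArg₂ (· - ·) (dif_neg l.2) (dif_pos rfl)).trans (sub_zero _)
  continuous_toFun := continuous_pi fun l =>
    (NNReal.continuous_coe.comp ((Fn.continuous_ap l.1).comp continuous_subtype_val)).sub
      (NNReal.continuous_coe.comp ((Fn.continuous_ap i).comp continuous_subtype_val))
  continuous_invFun := continuous_nrm.comp (Fn.continuous_mk fun l => by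
    by_cases h : l = i
    · simp only [dif_pos h]
      exact continuous_const
    · simp only [dif_neg h]
      exact continuous_apply _)

theorem chi_apply (i : ι) (y : Fl ι False (pd ι)) (l : ({i}ᶜ : Set ι)) :
    chi i y l = (y.1 l.1 : ℝ) - y.1 i := rfl

/-- the top stratum -/
noncomputable def trF (p : Ds ι × Fl ι False (pd ι)) : St ι False (pd ι) :=
  chart (ncard_compl_singleton p.1.val) (chi p.1.val p.2)

theorem trF_self (p : Ds ι × Fl ι False (pd ι)) : (trF p).1 p.1.val = 0 :=
  chf_of_notMem _ fun h => h rfl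

theorem trF_ne (p : Ds ι × Fl ι False (pd ι)) {l : ι} (h : l ≠ p.1.val) :
    (trF p).1 l = expHH ((p.2.1 l : ℝ) - p.2.1 p.1.val) := chf_of_mem (T := {p.1.val}ᶜ) _ h

theorem supp_trF (p : Ds ι × Fl ι False (pd ι)) : supp (trF p).1 = {p.1.val}ᶜ := supp_chf _ _

theorem trF_smul (g : Perm ι) (p : Ds ι × Fl ι False (pd ι)) : trF (g • p) = g • trF p := by
  refine Subtype.ext (Fn.ext fun l => ?_)
  change _ = (trF p).1 (g.symm l)
  by_cases h : l = g p.1.val
  · rw [h, g.symm_apply_apply, trF_self]
    exact trF_self (g • p)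
  · rw [trF_ne (g • p) h, trF_ne p fun h' => h (g.symm_apply_eq.1 h')]
    change expHH ((p.2.1 (g.symm l) : ℝ) - p.2.1 (g.symm (g p.1.val))) = _
    rw [g.symm_apply_apply]

theorem isOpenEmbedding_trF (i : ι) :
    IsOpenEmbedding fun y : Fl ι False (pd ι) => trF (Ds.mk i, y) :=
  (isOpenEmbedding_chart (ncard_compl_singleton i)).comp (chi i).isOpenEmbedding

theorem isHomeomorph_trF : IsHomeomorph (trF : Ds ι × Fl ι False (pd ι) → _) := by
  refine ⟨continuous_prod_of_discrete_left.2 fun i => (isOpenEmbedding_trF i.val).continuous,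
    isOpenMap_prod_of_discrete_left.2 fun i => (isOpenEmbedding_trF i.val).isOpenMap, ?_, ?_⟩
  · rintro ⟨i, y⟩ ⟨i', y'⟩ h
    have h1 : supp (trF (i, y)).1 = supp (trF (i', y')).1 := by rw [h]
    rw [supp_trF, supp_trF] at h1
    obtain rfl : i = i' := Set.singleton_injective (compl_injective h1)
    exact Prod.ext rfl ((isOpenEmbedding_trF i.val).injective h)
  · intro x
    obtain ⟨i, hi⟩ := exists_zero x.2.2.le
    have h1 : supp x.1 = {i}ᶜ := Set.eq_of_subset_of_ncard_le
      (fun l hl h => hl (by rw [show l = i from h, hi]))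
      ((ncard_compl_singleton i).trans x.2.2.symm).le (Set.toFinite _)
    obtain ⟨w, hw⟩ : x ∈ Set.range (chart (ncard_compl_singleton i)) := by
      rw [range_chart]
      exact h1
    exact ⟨(Ds.mk i, (chi i).symm w),
      (congrArg (chart (ncard_compl_singleton i)) ((chi i).apply_symm_apply w)).trans hw⟩

variable (ι) in
/-- the top stratum of the reduced representation sphere -/
noncomputable def trIso : DA ι ⊗ RA ι ≅ SA ι False (pd ι) :=
  gspTensor _ _ _ ≪≫ gHomeo ((isHomeomorph_trF (ι := ι)).homeomorph trF) trF_smul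

theorem app_trIso (i : Ds ι) (y : Fl ι False (pd ι)) :
    app (trIso ι).hom.hom (smash (i : OnePoint (Ds ι)) (y : OnePoint (Fl ι False (pd ι)))) =
      (trF (i, y) : OnePoint (St ι False (pd ι))) := rfl

variable (ι) in
/-- the transfer -/
noncomputable def tr : RA ι ⟶ DA ι ⊗ RA ι := gπ ι False (pd ι) ≫ (trIso ι).inv

omit [Finite ι] [Nonempty ι] in
theorem isOpenEmbedding_dsMk (i : ι) (K : LC) : IsOpenEmbedding fun y : K => (Ds.mk i, y) :=
  IsOpenEmbedding.of_continuous_injective_isOpenMap (continuous_const.prodMk continuous_id)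
    (fun _ _ h => congrArg Prod.snd h)
    (isOpenMap_prod_of_discrete_left.1 (IsOpenMap.id (X := Ds ι × K)) _)

/-- the projection onto the `i`-th summand -/
noncomputable def dpr (i : ι) (K : LC) : (DA ι).V ⊗ K ⟶ K :=
  LC.ofOpen (X := LC.of (Ds ι) ⊗ K) (Y := K) _ (isOpenEmbedding_dsMk i K)

/-- the components of the transfer are homotopic to the identity -/
theorem homotopic_tr (i : ι) : LC.Homotopic (𝟙 _) ((tr ι).hom ≫ dpr i (RA ι).V) := by
  let e := LC.ofHomeo (X := LC.of (Fl ι False (pd ι))) (Y := LC.of (({i}ᶜ : Set ι) → ℝ)) (chi i)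
  have h := (LC.Homotopic.comp_left e.hom (homotopic_ofOpen_mono (ι := ({i}ᶜ : Set ι))
    (fun _ => Real.exp) (fun _ => Real.continuous_exp) fun _ => Real.exp_strictMono)).comp_right
    e.inv
  rw [Category.comp_id, e.hom_inv_id] at h
  refine h.trans (LC.Homotopic.of_eq ?_)
  have h1 : (trIso ι).inv.hom = LC.ofOpen (X := LC.of (St ι False (pd ι)))
      (Y := LC.of (Ds ι) ⊗ LC.of (Fl ι False (pd ι))) (trF (ι := ι))
      (isHomeomorph_trF (ι := ι)).isOpenEmbedding :=
    (Category.comp_id _).trans (ofHomeo_inv_eq (X := LC.of (Ds ι) ⊗ LC.of (Fl ι False (pd ι)))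
      (Y := LC.of (St ι False (pd ι))) ((isHomeomorph_trF (ι := ι)).homeomorph (trF (ι := ι))))
  have h2 : (gπ ι False (pd ι)).hom = LC.ofOpen (X := LC.of (Fl ι False (pd ι)))
      (Y := LC.of (St ι False (pd ι))) stι isOpenEmbedding_stι := rfl
  rw [tr, Action.comp_hom, h1, h2, dpr, ofHomeo_hom_eq, ofHomeo_inv_eq, ofOpen_comp,
    ofOpen_comp, ofOpen_comp, ofOpen_comp]
  refine ofOpen_congr _ _ (funext fun y => ?_)
  refine (chi i).symm_apply_eq.2 (funext fun l => ?_)
  change Real.exp (chi i y l) = ((trF (Ds.mk i, y)).1 l.1 : ℝ) - (trF (Ds.mk i, y)).1 i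
  rw [trF_ne (Ds.mk i, y) l.2, show (trF (Ds.mk i, y)).1 i = 0 from trF_self _, NNReal.coe_zero,
    sub_zero]
  rfl

end Vale.Agent.P257.Z
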