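import Vale.Agent.P257.Z.Ctx

/-!
# P257, block Z: the base lemma

Stable equivariant maps out of `Y ⊗ A`, `A` the unit sphere of the reduced permutation
representation.

* `zr_A_tgt`: maps to the middle strata vanish;
* `obs`: the obstruction lemma;
* `bij_ev`: evaluation at a vertex is bijective if the signs agree;
* `exists_tau`: the transfer `𝟙 ⟶ ι₊`, bijective if the signs agree;
* `zr_F`, `bij_fold`: the signs are opposite.
-/

open CategoryTheory MonoidalCategory Limits Topology OnePoint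
open Functor.LaxMonoidal Functor.OplaxMonoidal

namespace Vale.Agent.P257.Z

open Vale.Agent.P257.E Vale.Agent.P257.C
open Vale.Agent.P251.H (tpow)
open Vale.Agent.P251.G (LC)
open Vale.Agent.P251.G.LC (RR II HH app smash incl)
open Vale.Agent.P251.M (IsInv whiskerRight_bijective)
open Equiv (Perm swap)

universe v u v' u'

section sph

variable {E : Type u'} [Category.{v'} E] [MonoidalCategory E] (T : LC ⥤ E) [T.Monoidal]

/-- splitting off the first coordinate -/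
def consH (k : ℕ) : (Fin (k + 1) → ℝ) ≃ₜ ℝ × (Fin k → ℝ) where
  toEquiv := (Fin.consEquiv fun _ => ℝ).symm
  continuous_toFun := (continuous_apply 0).prodMk (continuous_pi fun _ => continuous_apply _)
  continuous_invFun := continuous_pi (Fin.cases continuous_fst fun i =>
    (continuous_apply i).comp continuous_snd)

/-- spheres are powers of the circle -/
noncomputable def sphFin : ∀ k : ℕ, T.obj (LC.of (Fin k → ℝ)) ≅ tpow (T.obj RR) k
  | 0 => T.mapIso (LC.ofHomeo (X := LC.of (Fin 0 → ℝ)) (Y := LC.of Unit)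
      (Homeomorph.homeomorphOfUnique _ _)) ≪≫ (Functor.Monoidal.εIso T).symm
  | k + 1 => T.mapIso (LC.ofHomeo (X := LC.of (Fin (k + 1) → ℝ)) (Y := RR ⊗ LC.of (Fin k → ℝ))
      (consH k)) ≪≫ (Functor.Monoidal.μIso T _ _).symm ≪≫ whiskerLeftIso _ (sphFin k)

/-- spheres are powers of the circle -/
noncomputable def sphIso {U : Type} [Finite U] {k : ℕ} (h : Nat.card U = k) :
    T.obj (LC.of (U → ℝ)) ≅ tpow (T.obj RR) k :=
  T.mapIso (LC.ofHomeo (X := LC.of (U → ℝ)) (Y := LC.of (Fin k → ℝ))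
    (Homeomorph.piCongrLeft (Y := fun _ => ℝ) (Finite.equivFinOfCardEq h))) ≪≫ sphFin T k

theorem pt_aux {V D K L : E} (a : V ⟶ V ⊗ D) (p : 𝟙_ E ⟶ K) (b : D ⊗ K ⟶ L) :
    V ◁ p ≫ a ▷ K ≫ (α_ V D K).hom ≫ V ◁ b = (ρ_ V).hom ≫ a ≫ V ◁ ((ρ_ D).inv ≫ D ◁ p ≫ b) := by
  rw [whisker_exchange_assoc]
  simp

theorem isInv_tpow (S : E) [IsInv S] : ∀ k, IsInv (tpow S k)
  | 0 => IsInv.unit
  | k + 1 => have := isInv_tpow S k; IsInv.tensor S _

end sph

variable {ι : Type} [Finite ι]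

theorem card_stab (i : ι) : Nat.card {g : Perm ι // g i = i} = (pd ι).factorial := by
  classical
  rw [← ncard_compl_singleton i, ← Nat.card_coe_set_eq, ← Nat.card_perm]
  exact Nat.card_congr ((Equiv.subtypeEquivRight fun g => by simp).trans
    (Equiv.Perm.subtypeEquivSubtypePerm (· ∈ ({i}ᶜ : Set ι))).symm)

theorem one_le_pd [Nontrivial ι] : 1 ≤ pd ι := Nat.le_sub_one_of_lt Finite.one_lt_card

variable (ι) in
/-- the vertices of the unit sphere -/
noncomputable def vA [Nontrivial ι] : DA ι ⟶ AA ι := (vtx ι).hom ≫ gι ι True one_le_pd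

/-- a vertex of the unit sphere -/
noncomputable def pA [Nontrivial ι] (i : ι) : 𝟙_ LC ⟶ (AA ι).V := dpt i ≫ (vA ι).hom

theorem pA_toPt [Nontrivial ι] (i : ι) : pA i ≫ (toPt _ (Fl ι True (pd ι))).hom = 𝟙 _ :=
  LC.hom_ext fun _ => rfl

variable {H : Type u} [Category.{v} H] [Preadditive H] [MonoidalCategory H] [SymmetricCategory H]
  [MonoidalPreadditive H] {E : Type u'} [Category.{v'} E] [Preadditive E] [MonoidalCategory E]
  [SymmetricCategory E] [MonoidalPreadditive E]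

section E

omit [SymmetricCategory E]

variable {TE : LC ⥤ E} [TE.Monoidal] (h : SphFun TE) {T : Type} [Fintype T]
  [MulAction (Perm ι) T] (c : Cod ι T)
include h

theorem map_pt : TE.map c.pt.hom = ∑ t, TE.map ((ρ_ (VA ι).V).inv ≫ (VA ι).V ◁ dpt t) := by
  have k : 𝟙 (TE.obj ((VA ι).V ⊗ dsp T)) = ∑ t : T, TE.map ((VA ι).V ◁ (dco t ≫ dpt t)) := by
    simp only [Functor.Monoidal.map_whiskerLeft]
    rw [← Preadditive.comp_sum, ← Preadditive.sum_comp, ← whiskerLeft_sum, sum_dco h,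
      MonoidalCategory.whiskerLeft_id, Category.id_comp, Functor.Monoidal.δ_μ]
  refine (Category.comp_id _).symm.trans ((congrArg (TE.map c.pt.hom ≫ ·) k).trans ?_)
  rw [Preadditive.comp_sum]
  refine Finset.sum_congr rfl fun t _ => ?_
  rw [← Category.id_comp (TE.map ((ρ_ _).inv ≫ _)), ← TE.map_id, h.htpy (c.homotopic_pt t),
    ← TE.map_comp, ← TE.map_comp, MonoidalCategory.whiskerLeft_comp, Category.assoc,
    Category.assoc, Iso.hom_inv_id_assoc]

theorem comp_eq_sum [IsInv (TE.obj RR)] {K L : LC} {u : TE.obj K ⟶ TE.obj L}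
    {t : (VA ι).V ⊗ K ⟶ (VA ι).V ⊗ L}
    (hu : TE.obj (VA ι).V ◁ u = μ TE _ _ ≫ TE.map t ≫ δ TE _ _) {p : 𝟙_ LC ⟶ K} {e : dsp T ⟶ L}
    (hp : (VA ι).V ◁ p ≫ t = (ρ_ _).hom ≫ c.pt.hom ≫ (VA ι).V ◁ e) :
    TE.map p ≫ u = ∑ s, TE.map (dpt s ≫ e) := by
  have := isInv_tpow (TE.obj RR) (Nat.card ι)
  have : IsInv (TE.obj (VA ι).V) := IsInv.of_iso (sphIso TE (U := ι) rfl).symm
  refine (tensorLeft (TE.obj (VA ι).V)).map_injective ?_
  change TE.obj (VA ι).V ◁ _ = TE.obj (VA ι).V ◁ _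
  rw [MonoidalCategory.whiskerLeft_comp, hu, μ_natural_right_assoc, ← TE.map_comp_assoc, hp,
    TE.map_comp, TE.map_comp, map_pt h c, whiskerLeft_sum, Preadditive.sum_comp,
    Preadditive.comp_sum, Preadditive.sum_comp, Preadditive.comp_sum]
  refine Finset.sum_congr rfl fun s _ => ?_
  rw [← TE.map_comp, ← TE.map_comp, Category.assoc, Iso.hom_inv_id_assoc,
    ← MonoidalCategory.whiskerLeft_comp, ← μ_natural_right_assoc, Functor.Monoidal.μ_δ,
    Category.comp_id]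

end E

variable {SH : Action LC (Perm ι) ⥤ H} [SH.Braided] {TE : LC ⥤ E} [TE.Braided]
  {R : H ⥤ Action E (Perm ι)} [R.Braided] {W X X' Y : H} {K L : Action LC (Perm ι)} {j : ℕ}

/-- polar coordinates on a stratum -/
noncomputable def stS (hj : 1 ≤ j) (Y : H) :
    (Y ⊗ SH.obj (SA ι True j)) ⊗ sS SH ≅ Y ⊗ SH.obj (SA ι False j) :=
  α_ _ _ _ ≪≫ whiskerLeftIso Y (Functor.Monoidal.μIso SH _ _ ≪≫ SH.mapIso (stIso ι hj))

namespace Ctx

variable (C : Ctx SH TE R)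
include C

omit [MonoidalPreadditive H] [MonoidalPreadditive E] in
theorem div_factorial {m : ℕ} (h : m < Nat.card ι) (A : E) :
    ∃ g : A ⟶ A, m.factorial • g = 𝟙 A := by
  induction m with
  | zero => exact ⟨𝟙 A, one_smul _ _⟩
  | succ m ih =>
    obtain ⟨g, hg⟩ := ih (by omega)
    obtain ⟨g', hg'⟩ := C.div (m + 1) m.succ_pos h A
    exact ⟨g' ≫ g, by rw [Nat.factorial_succ, mul_smul, ← Preadditive.comp_nsmul, hg,
      Category.comp_id, hg']⟩

omit [MonoidalPreadditive H] [MonoidalPreadditive E] in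
theorem two (h3 : 3 ≤ Nat.card ι) : Two E := fun A _ f hf => by
  obtain ⟨g, hg⟩ := C.div 2 two_pos h3 A
  rw [← Category.id_comp f, ← hg, Preadditive.nsmul_comp, ← Preadditive.comp_nsmul, two_nsmul,
    eq_neg_iff_add_eq_zero.1 hf, comp_zero]

omit [MonoidalPreadditive E] in
theorem zr_F_zero (Y X : H) : Zr (Y ⊗ SH.obj (FA ι True 0)) X := fun x => by
  have h : 𝟙 (FA ι True 0) = 0 := gsp_hom_ext fun a => absurd (a.2.1 trivial) (by
    rw [ns_eq_zero (Nat.le_zero.1 a.2.2)]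
    exact (le_antisymm (top_le fun _ => le_rfl) zero_le).trans_ne zero_ne_one)
  rw [← Category.id_comp x, ← MonoidalCategory.whiskerLeft_id, ← SH.map_id, h, C.zero,
    MonoidalPreadditive.whiskerLeft_zero, zero_comp]

omit [MonoidalPreadditive H] [MonoidalPreadditive E] in
theorem inj_St {c : Prop} (h1 : 1 ≤ j) (h2 : j ≤ pd ι) (Y : H) : Inj R (Y ⊗ SH.obj (SA ι c j)) :=
  C.inj_src (sbSt h1 h2) (continuous_sbSt h1 h2) (sbSt_smul h1 h2) Y

theorem coInj_St [IsInv (SH.obj (VA ι))] {c : Prop} (h1 : 1 ≤ j) (h2 : j ≤ pd ι) (X : H) :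
    CoInj R (X ⊗ SH.obj (SA ι c j)) :=
  C.inj_tgt (sbSt h1 h2) (continuous_sbSt h1 h2) (sbSt_smul h1 h2) X

/-- the obstruction lemma -/
theorem obs [IsInv (TE.obj RR)] (k : ∀ n, n + 2 ≤ Nat.card ι →
    Zr ((R.obj Y).V ⊗ tpow (TE.obj RR) n) (R.obj X).V) : Zr (Y ⊗ SH.obj (AA ι)) X := by
  have key : ∀ j ≤ pd ι, Zr (Y ⊗ SH.obj (FA ι True j)) X := fun j hj => by
    induction j with
    | zero => exact C.zr_F_zero Y X
    | succ j ih =>
      obtain ⟨q, t⟩ := C.trι True j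
      refine t.cozr_mid (ih (by omega)) fun x => C.inj_St j.succ_pos hj Y X x (C.rs_eq_zero ?_)
      refine Zr.of_shift (S := TE.obj RR) ((zr_St_of_cells C.sph fun U hU => ?_).of_iso
        (α_ _ _ _ ≪≫ whiskerLeftIso _ (Functor.Monoidal.μIso TE _ _ ≪≫
          TE.mapIso ((Action.forget _ _).mapIso (stIso ι j.succ_pos)))).symm (Iso.refl _)) _
      exact (k j (by unfold pd at hj; omega)).shift.of_iso (α_ _ _ _ ≪≫ whiskerLeftIso _
        (β_ _ _ ≪≫ (sphIso TE ((Nat.card_coe_set_eq U).trans hU)).symm)) (Iso.refl _)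
  exact key _ le_rfl

variable [DecidableEq ι] {e e' : ℤˣ}

omit C [Finite ι] [Preadditive H] [MonoidalPreadditive H] in
theorem sg_tensor (hY : Sg e (R.obj Y)) (hX : Sg e' (R.obj X)) : Sg (e * e') (R.obj (Y ⊗ X)) :=
  (hY.tensor hX).of_iso (Functor.Monoidal.μIso R _ _)

omit [MonoidalPreadditive H] in
theorem sg_shift (hY : Sg e (R.obj Y)) : Sg e (R.obj (Y ⊗ sS SH)) :=
  mul_one e ▸ sg_tensor hY (C.sg_obj (Sg.of_act fun _ => TE.map_id _))

variable [Nontrivial ι] [R.Additive]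

omit [MonoidalPreadditive H] in
theorem inj_ev_D (i : ι) (Y X : H) :
    Function.Injective (C.ev (dpt i) : (Y ⊗ SH.obj (DA ι) ⟶ X) → _) := by
  refine (injective_iff_map_eq_zero (C.evH (K := DA ι) (dpt i) Y X)).2 fun x hx => ?_
  refine C.inj_src sbPt continuous_of_discreteTopology sbPt_smul Y X x
    (C.eq_zero_of_ev fun l => ?_)
  have k := C.ev_act (dpt i) x (swap i l)
  rw [dpt_act, show C.ev (dpt i) x = 0 from hx, zero_comp, Equiv.Perm.smul_def,
    Equiv.swap_apply_left] at k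
  rw [← cancel_epi (act (R.obj Y) (swap i l)), k, comp_zero]

variable [IsInv (sS SH)] [IsInv (SH.obj (VA ι))] [IsInv (TE.obj RR)]

omit [MonoidalPreadditive H] [R.Additive] [IsInv (sS SH)] [IsInv (SH.obj (VA ι))] in
theorem sg_R : Sg (-1) (R.obj (SH.obj (RA ι))) := C.sg_obj (sg_RA C.sph)

omit [MonoidalPreadditive H] [Nontrivial ι] [R.Additive] [IsInv (sS SH)] in
theorem surj_ev_D (hY : Sg e (R.obj Y)) (hX : Sg e (R.obj X)) (i : ι) :
    Function.Surjective (C.ev (dpt i) : (Y ⊗ SH.obj (DA ι) ⟶ X) → _) := by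
  intro f
  have := Fintype.ofFinite ι
  have : Nonempty ι := ⟨i⟩
  obtain ⟨d, hd⟩ := C.div_factorial (m := pd ι) (Nat.sub_one_lt Nat.card_pos.ne') (R.obj Y).V
  obtain ⟨z, hz⟩ := C.t1 Y X (d ≫ f)
  have h1 : ∀ g : Perm ι, C.ev (dpt g) z = d ≫ f := fun g => by
    have k := C.ev_act (dpt 1) z g
    rw [dpt_act, smul_eq_mul, mul_one, show C.ev (dpt 1) z = d ≫ f from hz, ← hY.comm hX] at k
    exact (cancel_epi _).1 k
  let s : Ds (Perm ι) → Ds ι := fun g => Ds.mk (g.val i)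
  have hs : ∀ (g : Perm ι) k, s (g • k) = g • s k := fun _ _ => rfl
  let q := gsel s continuous_of_discreteTopology hs
  obtain ⟨τ, hτ⟩ := C.exists_desusp (VA ι)
    ((codPerm ι).pt ▷ DA ι ≫ (α_ _ _ _).hom ≫ VA ι ◁ ((β_ _ _).hom ≫ q))
  have h2 := comp_eq_sum C.sph (codPerm ι) hτ (p := dpt i)
    (e := (ρ_ _).inv ≫ dsp (Perm ι) ◁ dpt i ≫ (β_ _ _).hom ≫ q.hom) (by
      rw [Action.comp_hom, Action.comp_hom, Action.whiskerRight_hom, Action.associator_hom_hom,
        Action.whiskerLeft_hom, Action.comp_hom, Action.β_hom_hom]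
      exact pt_aux _ _ _)
  refine ⟨Y ◁ τ ≫ z, ?_⟩
  have h3 : ∀ g : Perm ι, (ρ_ _).inv ≫ (R.obj Y).V ◁ (ε TE ≫ TE.map (dpt g ≫ (ρ_ _).inv ≫
      dsp (Perm ι) ◁ dpt i ≫ (β_ _ _).hom ≫ q.hom)) ≫ (C.rs z).hom =
      if g i = i then d ≫ f else 0 := fun g => by
    split_ifs with hg
    · rw [← h1 g]
      refine congrArg (fun p => C.ev p z) (LC.hom_ext fun _ => ?_)
      rw [← hg]
      exact app_gsel_self s continuous_of_discreteTopology hs (Ds.mk g)
    · rw [show dpt g ≫ (ρ_ _).inv ≫ dsp (Perm ι) ◁ dpt i ≫ (β_ _ _).hom ≫ q.hom = 0 from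
        LC.hom_ext fun _ => app_gsel_ne s continuous_of_discreteTopology hs
          (t := Ds.mk i) (k := Ds.mk g) hg, C.sph.zero, comp_zero,
        MonoidalPreadditive.whiskerLeft_zero, zero_comp, comp_zero]
  rw [C.ev_pre, h2, Preadditive.comp_sum, whiskerLeft_sum, Preadditive.sum_comp,
    Preadditive.comp_sum, Finset.sum_congr rfl fun g _ => h3 g, ← Finset.sum_filter,
    Finset.sum_const, ← Fintype.card_subtype, ← Nat.card_eq_fintype_card, card_stab,
    ← Preadditive.nsmul_comp, hd, Category.id_comp]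

variable (h3 : 3 ≤ Nat.card ι)
include h3

omit [Nontrivial ι] [R.Additive] [IsInv (sS SH)] in
theorem zr_tgt (h1 : 2 ≤ j) (h2 : j + 2 ≤ Nat.card ι) (hY : Sg e (R.obj Y))
    (hX : Sg e' (R.obj X)) : Zr Y (X ⊗ SH.obj (SA ι False j)) := fun x =>
  C.coInj_St (by omega) (by unfold pd; omega) X Y x
    (C.rt_eq_zero (van_tgt C.sph (C.two h3) h1 h2 hY hX (C.rt x)))

omit [R.Additive] in
/-- maps to the middle strata vanish -/
theorem zr_A_tgt (h1 : 2 ≤ j) (h2 : j + 2 ≤ Nat.card ι) (hY : Sg e (R.obj Y))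
    (hX : Sg e' (R.obj X)) : Zr (Y ⊗ SH.obj (AA ι)) (X ⊗ SH.obj (SA ι False j)) := by
  obtain ⟨q, t⟩ := C.trc (pd ι)
  exact t.cozr_left ((C.zr_tgt h3 h1 h2 hY hX).of_iso (ρ_ Y).symm (Iso.refl _))
    ((C.zr_tgt h3 h1 h2 (sg_tensor hY C.sg_R) (C.sg_shift hX)).of_iso (Iso.refl _) (shuf _ _ _))

omit [Nontrivial ι] [R.Additive] [IsInv (SH.obj (VA ι))] in
theorem zr_src (h1 : 2 ≤ j) (h2 : j ≤ pd ι) (hY : Sg e (R.obj Y)) (hX : Sg e (R.obj X)) :
    Zr (Y ⊗ SH.obj (SA ι True j)) X :=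
  Zr.of_shift (S := sS SH) (Zr.of_iso (fun x => C.inj_St (by omega) h2 Y _ x (C.rs_eq_zero
    (van_src C.sph (C.two h3) h1 hY (C.sg_shift hX) (C.rs x)))) (stS (by omega) Y).symm (Iso.refl _))

omit [R.Additive] [IsInv (SH.obj (VA ι))] in
theorem bij_vA (hY : Sg e (R.obj Y)) (hX : Sg e (R.obj X)) :
    Function.Bijective fun x : Y ⊗ SH.obj (AA ι) ⟶ X => Y ◁ SH.map (vA ι) ≫ x := by
  have key : ∀ j (h : 1 ≤ j), j ≤ pd ι → Function.Bijective
      fun x : Y ⊗ SH.obj (FA ι True j) ⟶ X => Y ◁ SH.map ((vtx ι).hom ≫ gι ι True h) ≫ x := by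
    intro j h
    induction j, h using Nat.le_induction with
    | base =>
      intro _
      rw [gι_refl, Category.comp_id]
      exact (isIso_iff_coyoneda_map_bijective _).1 inferInstance X
    | succ j h ih =>
      intro h2
      obtain ⟨q, t⟩ := C.trι True j
      have k := (ih (by omega)).comp (t.pre_bijective (C.zr_src h3 (by omega) h2 hY hX)
        (C.zr_src h3 (by omega) h2 hY (C.sg_shift hX)))
      simpa only [Function.comp_def, ← MonoidalCategory.whiskerLeft_comp_assoc, ← SH.map_comp,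
        Category.assoc, gι_gι] using k
  exact key _ _ le_rfl

/-- evaluation at a vertex is bijective -/
theorem bij_ev (hY : Sg e (R.obj Y)) (hX : Sg e (R.obj X)) (i : ι) :
    Function.Bijective (C.ev (pA i) : (Y ⊗ SH.obj (AA ι) ⟶ X) → _) := by
  have k := Function.Bijective.comp ⟨C.inj_ev_D i Y X, C.surj_ev_D hY hX i⟩ (C.bij_vA h3 hY hX)
  simp only [Function.comp_def, C.ev_map] at k
  exact k

theorem bij_post (hY : Sg e (R.obj Y)) (hX : Sg e (R.obj X)) (i : ι) {f : X ⟶ X'}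
    {k : (R.obj X').V ⟶ (R.obj X).V} (hk : (R.map f).hom ≫ k = 𝟙 _)
    (inj : ∀ x : Y ⊗ SH.obj (AA ι) ⟶ X', C.ev (pA i) x ≫ k = 0 → x = 0) :
    Function.Bijective fun x : Y ⊗ SH.obj (AA ι) ⟶ X => x ≫ f := by
  have h1 : ∀ x : Y ⊗ SH.obj (AA ι) ⟶ X, C.ev (pA i) (x ≫ f) ≫ k = C.ev (pA i) x := fun x => by
    rw [C.ev_comp, Category.assoc, hk, Category.comp_id]
  refine ⟨fun x y h => (C.bij_ev h3 hY hX i).1 ?_, fun z => ?_⟩
  · rw [← h1, ← h1, show x ≫ f = y ≫ f from h]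
  · obtain ⟨x, hx⟩ := (C.bij_ev h3 hY hX i).2 (C.ev (pA i) z ≫ k)
    refine ⟨x, sub_eq_zero.1 (inj _ ?_)⟩
    rw [show C.ev (pA i) (x ≫ f - z) = _ from map_sub (C.evH (pA i) Y X') _ _,
      Preadditive.sub_comp]
    exact sub_eq_zero.2 ((h1 x).trans hx)

omit [R.Additive] [IsInv (sS SH)] in
theorem inj_co (hY : Sg e (R.obj Y)) (hX : Sg e (R.obj X)) (i l : ι)
    (x : Y ⊗ SH.obj (AA ι) ⟶ X ⊗ SH.obj (DA ι))
    (h : atCo TE (dco l) (C.ev (pA i) x ≫ (C.cl X (DA ι)).inv.hom) = 0) : x = 0 := by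
  refine C.inj_tgt sbPt continuous_of_discreteTopology sbPt_smul X _ x (C.rs_eq_zero ?_)
  have k := eq_zero_of_comp C.sph (C.two h3) h3 C.cone hY hX (C.rs x ≫ (C.cl X (DA ι)).inv)
    (pA_toPt i) l (by
      rw [← cancel_epi (ρ_ _).inv, ← cancel_mono (ρ_ _).hom, comp_zero, zero_comp, ← h, atCo, ev,
        atPt, Action.comp_hom]
      simp only [Category.assoc])
  rw [← cancel_mono (C.cl X (DA ι)).inv.hom, zero_comp]
  exact k

end Ctx

end Vale.Agent.P257.Z
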