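import Vale.Agent.P257.C.TConn
import Vale.Agent.P251.M.SeqSys

/-!
# P257, block Z: exact triangles, abstractly

`Tr S a b c`: the sequence `A ⟶ B ⟶ D ⟶ A ⊗ S ⟶ B ⊗ S` is exact, covariantly and contravariantly,
after tensoring with any object.  `Zr W X`: every map `W ⟶ X` is zero.
-/

open CategoryTheory MonoidalCategory Limits

namespace Vale.Agent.P257.Z

open Vale.Agent.P257.C
open Vale.Agent.P251.M (IsInv whiskerRight_bijective)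

universe v u

variable {C : Type u} [Category.{v} C] [MonoidalCategory C] [Preadditive C]
  {A B D A' B' D' S W W' X X' Y : C}

/-- contravariant exactness at the middle term, after tensoring with any object -/
def CoEx (a : A ⟶ B) (b : B ⟶ D) : Prop :=
  ∀ (Y W : C) (f : Y ⊗ B ⟶ W), Y ◁ a ≫ f = 0 → ∃ g : Y ⊗ D ⟶ W, Y ◁ b ≫ g = f

/-- exact triangles -/
structure Tr (S : C) (a : A ⟶ B) (b : B ⟶ D) (c : D ⟶ A ⊗ S) : Prop where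
  ex₁ : Ex a b
  ex₂ : Ex b c
  ex₃ : Ex c (a ▷ S)
  co₁ : CoEx a b
  co₂ : CoEx b c
  co₃ : CoEx c (a ▷ S)
  z₁ : a ≫ b = 0
  z₂ : b ≫ c = 0
  z₃ : c ≫ a ▷ S = 0

/-- every map is zero -/
def Zr (W X : C) : Prop := ∀ f : W ⟶ X, f = 0

omit [MonoidalCategory C] in
theorem Zr.of_iso (h : Zr W X) (e : W ≅ W') (e' : X ≅ X') : Zr W' X' := fun f => by
  rw [← cancel_epi e.hom, ← cancel_mono e'.inv, Category.assoc, h (e.hom ≫ _), comp_zero,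
    zero_comp]

theorem Ex.of_iso {a : A ⟶ B} {b : B ⟶ D} {a' : A' ⟶ B'} {b' : B' ⟶ D'} (h : Ex a b)
    (i : A ≅ A') (j : B ≅ B') (k : D ≅ D') (ha : a ≫ j.hom = i.hom ≫ a')
    (hb : b ≫ k.hom = j.hom ≫ b') : Ex a' b' := fun Y W f hf => by
  obtain ⟨g, hg⟩ := h Y W (f ≫ Y ◁ j.inv) (by
    rw [← cancel_mono (Y ◁ k.hom), Category.assoc, Category.assoc,
      ← MonoidalCategory.whiskerLeft_comp, hb, ← MonoidalCategory.whiskerLeft_comp,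
      Iso.inv_hom_id_assoc, hf, zero_comp])
  exact ⟨g ≫ Y ◁ i.hom, by
    rw [Category.assoc, ← MonoidalCategory.whiskerLeft_comp, ← ha,
      MonoidalCategory.whiskerLeft_comp, reassoc_of% hg, ← MonoidalCategory.whiskerLeft_comp,
      Iso.inv_hom_id, MonoidalCategory.whiskerLeft_id, Category.comp_id]⟩

theorem CoEx.of_iso {a : A ⟶ B} {b : B ⟶ D} {a' : A' ⟶ B'} {b' : B' ⟶ D'} (h : CoEx a b)
    (i : A ≅ A') (j : B ≅ B') (k : D ≅ D') (ha : a ≫ j.hom = i.hom ≫ a')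
    (hb : b ≫ k.hom = j.hom ≫ b') : CoEx a' b' := fun Y W f hf => by
  obtain ⟨g, hg⟩ := h Y W (Y ◁ j.hom ≫ f) (by
    rw [← MonoidalCategory.whiskerLeft_comp_assoc, ha, MonoidalCategory.whiskerLeft_comp,
      Category.assoc, hf, comp_zero])
  exact ⟨Y ◁ k.inv ≫ g, by
    rw [← cancel_epi (Y ◁ j.hom), ← hg, ← MonoidalCategory.whiskerLeft_comp_assoc,
      ← MonoidalCategory.whiskerLeft_comp_assoc, ← hb, Category.assoc, Iso.hom_inv_id,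
      Category.comp_id]⟩

theorem Tr.of_iso {a : A ⟶ B} {b : B ⟶ D} {c : D ⟶ A ⊗ S} {a' : A' ⟶ B'} {b' : B' ⟶ D'}
    {S' : C} {c' : D' ⟶ A' ⊗ S'} (h : Tr S a b c) (s : S ≅ S') (i : A ≅ A') (j : B ≅ B')
    (k : D ≅ D') (ha : a ≫ j.hom = i.hom ≫ a') (hb : b ≫ k.hom = j.hom ≫ b')
    (hc : c ≫ (i.hom ⊗ₘ s.hom) = k.hom ≫ c') : Tr S' a' b' c' := by
  have hd : a ▷ S ≫ (j ⊗ᵢ s).hom = (i ⊗ᵢ s).hom ≫ a' ▷ S' := by
    rw [tensorIso_hom, tensorIso_hom, ← tensorHom_id, ← tensorHom_id, tensorHom_comp_tensorHom,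
      tensorHom_comp_tensorHom, ha, Category.id_comp, Category.comp_id]
  refine ⟨Ex.of_iso h.ex₁ i j k ha hb, Ex.of_iso h.ex₂ j k (i ⊗ᵢ s) hb hc,
    Ex.of_iso h.ex₃ k (i ⊗ᵢ s) (j ⊗ᵢ s) hc hd, h.co₁.of_iso i j k ha hb,
    h.co₂.of_iso j k (i ⊗ᵢ s) hb hc, h.co₃.of_iso k (i ⊗ᵢ s) (j ⊗ᵢ s) hc hd, ?_, ?_, ?_⟩
  · rw [← cancel_epi i.hom, ← reassoc_of% ha, ← hb, reassoc_of% h.z₁, zero_comp, comp_zero]
  · rw [← cancel_epi j.hom, ← reassoc_of% hb, ← hc, reassoc_of% h.z₂, zero_comp, comp_zero]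
  · rw [← cancel_epi k.hom, ← reassoc_of% hc, ← tensorIso_hom, ← hd, reassoc_of% h.z₃, zero_comp,
      comp_zero]

variable [MonoidalPreadditive C] [SymmetricCategory C] [IsInv S]

theorem whiskerRight_eq_zero {f : A ⟶ B} (h : f ▷ S = 0) : f = 0 :=
  (whiskerRight_bijective S A B).1 (h.trans MonoidalPreadditive.zero_whiskerRight.symm)

theorem Zr.of_shift (h : Zr (W ⊗ S) (X ⊗ S)) : Zr W X := fun _ => whiskerRight_eq_zero (h _)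

theorem Zr.shift (h : Zr W X) : Zr (W ⊗ S) (X ⊗ S) := fun f => by
  obtain ⟨g, rfl⟩ := (whiskerRight_bijective S W X).2 f
  simp only [h g, MonoidalPreadditive.zero_whiskerRight]

/-- `(X ⊗ S) ⊗ A ≅ (X ⊗ A) ⊗ S` -/
def shuf (X S A : C) : (X ⊗ S) ⊗ A ≅ (X ⊗ A) ⊗ S :=
  α_ _ _ _ ≪≫ whiskerLeftIso X (β_ S A) ≪≫ (α_ _ _ _).symm

namespace Tr

variable {a : A ⟶ B} {b : B ⟶ D} {c : D ⟶ A ⊗ S} (h : Tr S a b c)
include h

omit [MonoidalPreadditive C] [SymmetricCategory C] [IsInv S] in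
theorem post_surj (k : Zr W (X ⊗ D)) (f : W ⟶ X ⊗ B) : ∃ g, g ≫ X ◁ a = f := h.ex₁ X W f (k _)

omit [SymmetricCategory C] [IsInv S] in
theorem exists_post {f : W ⟶ X ⊗ A} (hf : f ≫ X ◁ a = 0) :
    ∃ g : W ⊗ S ⟶ X ⊗ D, g ≫ X ◁ c = f ▷ S ≫ (α_ _ _ _).hom :=
  h.ex₃ X _ _ (by
    rw [Category.assoc, ← associator_naturality_middle, ← comp_whiskerRight_assoc, hf,
      MonoidalPreadditive.zero_whiskerRight, zero_comp])

theorem post_inj (k : Zr (W ⊗ S) (X ⊗ D)) {f : W ⟶ X ⊗ A} (hf : f ≫ X ◁ a = 0) : f = 0 := by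
  obtain ⟨g, hg⟩ := h.exists_post hf
  refine whiskerRight_eq_zero (S := S) ?_
  rw [← cancel_mono (α_ _ _ _).hom, ← hg, k g, zero_comp, zero_comp]

theorem post_bijective (k : Zr W (X ⊗ D)) (k' : Zr (W ⊗ S) (X ⊗ D)) :
    Function.Bijective fun f : W ⟶ X ⊗ A => f ≫ X ◁ a :=
  ⟨fun _ _ e => sub_eq_zero.1 (h.post_inj k' (by
    rw [Preadditive.sub_comp]; exact sub_eq_zero.2 e)), h.post_surj k⟩

omit [MonoidalPreadditive C] [SymmetricCategory C] [IsInv S] in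
theorem zr_mid (k : Zr W (X ⊗ A)) (k' : Zr W (X ⊗ D)) : Zr W (X ⊗ B) := fun f => by
  obtain ⟨g, rfl⟩ := h.post_surj k' f
  rw [k g, zero_comp]

theorem zr_left (k : Zr W (X ⊗ B)) (k' : Zr (W ⊗ S) (X ⊗ D)) : Zr W (X ⊗ A) :=
  fun _ => h.post_inj k' (k _)

theorem zr_left' (k : ∀ f : W ⟶ X ⊗ B, f ≫ X ◁ b = 0 → f = 0)
    (k' : ∀ f : W ⊗ S ⟶ X ⊗ D, ∃ g, g ≫ X ◁ b = f) : Zr W (X ⊗ A) := fun f => by
  obtain ⟨g, hg⟩ := h.exists_post (k (f ≫ X ◁ a) (by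
    rw [Category.assoc, ← MonoidalCategory.whiskerLeft_comp, h.z₁,
      MonoidalPreadditive.whiskerLeft_zero, comp_zero]))
  obtain ⟨g, rfl⟩ := k' g
  refine whiskerRight_eq_zero (S := S) ?_
  rw [← cancel_mono (α_ _ _ _).hom, ← hg, Category.assoc, ← MonoidalCategory.whiskerLeft_comp,
    h.z₂, MonoidalPreadditive.whiskerLeft_zero, comp_zero, zero_comp]

omit [MonoidalPreadditive C] [IsInv S] in
theorem zr_right (k : Zr W (X ⊗ B)) (k' : Zr W ((X ⊗ S) ⊗ A)) : Zr W (X ⊗ D) := fun f => by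
  obtain ⟨g, rfl⟩ := h.ex₂ X W f (k'.of_iso (Iso.refl _) (shuf X S A ≪≫ α_ _ _ _) _)
  rw [k g, zero_comp]

omit [MonoidalPreadditive C] [SymmetricCategory C] [IsInv S] in
theorem pre_inj (k : Zr (Y ⊗ D) W) {f : Y ⊗ B ⟶ W} (hf : Y ◁ a ≫ f = 0) : f = 0 := by
  obtain ⟨g, rfl⟩ := h.co₁ Y W f hf
  rw [k g, comp_zero]

omit [MonoidalPreadditive C] in
theorem pre_surj (k : Zr (Y ⊗ D) (W ⊗ S)) (f : Y ⊗ A ⟶ W) : ∃ g, Y ◁ a ≫ g = f := by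
  obtain ⟨g, hg⟩ := h.co₃ Y _ ((α_ _ _ _).inv ≫ f ▷ S) (k _)
  obtain ⟨g', hg'⟩ := (whiskerRight_bijective S _ _).2 ((α_ _ _ _).hom ≫ g)
  refine ⟨g', (whiskerRight_bijective S _ _).1 ?_⟩
  dsimp only at hg' ⊢
  rw [comp_whiskerRight, hg', associator_naturality_middle_assoc, hg, Iso.hom_inv_id_assoc]

omit [MonoidalPreadditive C] in
theorem pre_bijective (k : Zr (Y ⊗ D) W) (k' : Zr (Y ⊗ D) (W ⊗ S)) :
    Function.Bijective fun f : Y ⊗ B ⟶ W => Y ◁ a ≫ f :=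
  ⟨fun _ _ e => sub_eq_zero.1 (h.pre_inj k (by
    rw [Preadditive.comp_sub]; exact sub_eq_zero.2 e)), h.pre_surj k'⟩

omit [MonoidalPreadditive C] [SymmetricCategory C] [IsInv S] in
theorem cozr_mid (k : Zr (Y ⊗ A) W) (k' : Zr (Y ⊗ D) W) : Zr (Y ⊗ B) W :=
  fun _ => h.pre_inj k' (k _)

omit [MonoidalPreadditive C] in
theorem cozr_left (k : Zr (Y ⊗ B) W) (k' : Zr (Y ⊗ D) (W ⊗ S)) : Zr (Y ⊗ A) W := fun f => by
  obtain ⟨g, rfl⟩ := h.pre_surj k' f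
  rw [k g, comp_zero]

end Tr

end Vale.Agent.P257.Z
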