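import Vale.Agent.P257.E.JA
import Vale.Agent.P251.G.CofibEx
import Vale.Agent.P251.G.FinSum

/-!
# P257, block Z: general tools for `G`-spaces

* `hCof_of_ndr`: equivariant NDR data give an h-cofibration in `Action M G`;
* `isOpenEmbedding_mono`: coordinatewise strictly monotone families are open embeddings;
  `homotopic_ofOpen_mono`: their collapses are homotopic to the identity;
* `clp`, `clι`, `clπ`, `rs`: clopen pieces of an object of `LC`.
-/

open CategoryTheory MonoidalCategory Limits Topology OnePoint Filter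

namespace Vale.Agent.P257.Z

open Vale.Agent.P251.H Vale.Agent.P251.H.StabInput Vale.Agent.P257.E
open Vale.Agent.P251.G (LC)
open Vale.Agent.P251.G.LC (RR II HH app smash incl IsRetr tsub)

universe v u

instance {G X : Type} [Group G] [TopologicalSpace X] [MulAction G X] [ContinuousConstSMul G X]
    (S : SubMulAction G X) : ContinuousConstSMul G S :=
  ⟨fun g => ((continuous_const_smul g).comp continuous_subtype_val).subtype_mk _⟩

section ndr

variable {G : Type} [Group G] {A B : Type} [TopologicalSpace A] [LocallyCompactSpace A]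
  [T2Space A] [MulAction G A] [ContinuousConstSMul G A] [TopologicalSpace B]
  [LocallyCompactSpace B] [T2Space B] [MulAction G B] [ContinuousConstSMul G B]

variable {M : Type u} [Category.{v} M] [MonoidalCategory M] [SymmetricCategory M]
  [MonoidalClosed M] [HasZeroMorphisms M] [HasColimitsOfSize.{0, 0} M] [StabInput M]

/-- equivariant NDR data give an h-cofibration -/
theorem hCof_of_ndr (i : A → B) (hi : IsClosedEmbedding i)
    (he : ∀ (g : G) (a : A), i (g • a) = g • i a) (u : B → unitInterval) (hu : Continuous u)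
    (h : B × unitInterval → B) (hc : Continuous h)
    (hp : Tendsto h (cocompact (B × unitInterval)) (cocompact B)) (u0 : ∀ a, u (i a) = 0)
    (h0 : ∀ b, h (b, 0) = b) (hlt : ∀ b, u b < 1 → h (b, u b) ∈ Set.range i)
    (hue : ∀ (g : G) b, u (g • b) = u b) (hhe : ∀ (g : G) b t, h (g • b, t) = g • h (b, t)) :
    HCof ((JA G M).map (gClosed i hi he)) := by
  let r : B × unitInterval → B × unitInterval :=
    fun p => (h (p.1, min p.2 (u p.1)), tsub p.2 (u p.1))
  have hm : Continuous fun p : B × unitInterval => (p.1, min p.2 (u p.1)) :=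
    continuous_fst.prodMk (continuous_snd.min (hu.comp continuous_fst))
  have hr : Continuous r :=
    (hc.comp hm).prodMk (LC.continuous_tsub continuous_snd (hu.comp continuous_fst))
  have hrp : Tendsto r (cocompact (B × unitInterval)) (cocompact (B × unitInterval)) := by
    refine LC.tendsto_cocompact_of_preimage fun K hK => ?_
    have h1 : (Prod.fst '' K)ᶜ ∈ cocompact B := (hK.image continuous_fst).compl_mem_cocompact
    obtain ⟨C, hC, hCK⟩ := mem_cocompact.1 (hp h1)
    refine ⟨(Prod.fst '' C) ×ˢ Set.univ, (hC.image continuous_fst).prod isCompact_univ, ?_⟩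
    intro p hp'
    refine ⟨⟨(p.1, min p.2 (u p.1)), ?_, rfl⟩, trivial⟩
    by_contra hn
    exact hCK hn ⟨r p, hp', rfl⟩
  have htz : ∀ t : unitInterval, tsub t 0 = t := fun t => Subtype.ext (by
    change max (t.1 - 0) 0 = t.1
    rw [sub_zero, max_eq_left t.2.1])
  refine hCof_JA (LC.injective_ofClosed (C := LC.of A) (D := LC.of B) i hi)
    (r := LC.ofProper (X := LC.of B ⊗ II) (Y := LC.of B ⊗ II) r hr hrp) ⟨?_, ?_, ?_⟩ ?_
  · intro b
    induction b using OnePoint.rec with
    | infty => exact LC.app_infty _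
    | coe b =>
      change ((r (b, 0) : B × unitInterval) : OnePoint (B × unitInterval)) =
        ((b, (0 : unitInterval)) : B × unitInterval)
      congr 1
      refine Prod.ext ?_ (LC.tsub_of_le unitInterval.nonneg')
      change h (b, min 0 (u b)) = b
      rw [min_eq_left unitInterval.nonneg', h0]
  · rintro _ ⟨a, rfl⟩ t
    induction a using OnePoint.rec with
    | infty =>
      rw [LC.app_infty]
      exact LC.app_infty _
    | coe a =>
      change ((r (i a, t) : B × unitInterval) : OnePoint (B × unitInterval)) =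
        ((i a, t) : B × unitInterval)
      congr 1
      refine Prod.ext ?_ ?_
      · change h (i a, min t (u (i a))) = i a
        rw [u0, min_eq_right unitInterval.nonneg', h0]
      · change tsub t (u (i a)) = t
        rw [u0, htz]
  · intro p
    induction p using OnePoint.rec with
    | infty => exact ⟨∞, 0, LC.app_infty _, Or.inl rfl⟩
    | coe p =>
      obtain ⟨b, t⟩ := p
      refine ⟨((r (b, t)).1 : OnePoint B), (r (b, t)).2, rfl, ?_⟩
      rcases le_or_gt t (u b) with ht | ht
      · exact Or.inl (LC.tsub_of_le ht)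
      · right
        obtain ⟨a, ha⟩ := hlt b (ht.trans_le unitInterval.le_one')
        refine ⟨(a : OnePoint A), ?_⟩
        change ((i a : B) : OnePoint B) = (h (b, min t (u b)) : B)
        rw [min_eq_right ht.le, ha]
  · intro g
    refine LC.tensor_ext fun b t => ?_
    change ((r (g • b, t) : B × unitInterval) : OnePoint (B × unitInterval)) =
      ((g • (r (b, t)).1, (r (b, t)).2) : B × unitInterval)
    congr 1
    simp only [r, hue, hhe]

/-- a closed subspace and its open complement give a cofibre square -/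
theorem isPushout_gClosed_gOpen {U : Type} [TopologicalSpace U] [LocallyCompactSpace U]
    [T2Space U] [MulAction G U] [ContinuousConstSMul G U] (i : A → B) (hi : IsClosedEmbedding i)
    (he : ∀ (g : G) (a : A), i (g • a) = g • i a) (j : U → B) (hj : IsOpenEmbedding j)
    (he' : ∀ (g : G) (y : U), j (g • y) = g • j y) (h : IsCompl (Set.range i) (Set.range j))
    {O : Action M G} (hO : IsZero O) (k : (JA G M).obj (gsp G A) ⟶ O)
    (l : O ⟶ (JA G M).obj (gsp G U)) :
    IsPushout ((JA G M).map (gClosed i hi he)) k ((JA G M).map (gOpen j hj he')) l := by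
  have hE : IsZero (LC.of Empty) := by
    rw [IsZero.iff_id_eq_zero]
    exact LC.hom_ext fun x => x.elim
  have hE' : IsZero ((JA G M).obj ((triv G).obj (LC.of Empty))) := isZero_JA hE
  have h1 : IsPushout ((JA G M).map (gClosed i hi he))
      ((JA G M).map (0 : _ ⟶ (triv G).obj (LC.of Empty)))
      ((JA G M).map (gOpen j hj he')) ((JA G M).map 0) :=
    isPushout_JA (LC.injective_ofClosed (C := LC.of A) (D := LC.of B) i hi)
      (LC.isPushout_closed_open (Z := LC.of A) (Y := LC.of B) (U := LC.of U) i hi j hj h hE _ _)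
  exact h1.of_iso (Iso.refl _) (Iso.refl _) (hE'.iso hO) (Iso.refl _) (by simp)
    (hO.eq_of_tgt _ _) (by simp) (hE'.eq_of_src _ _)

end ndr

section mono

/-- Coordinatewise strictly monotone families of maps of the line are open embeddings. -/
theorem isOpenEmbedding_mono {P ι : Type} [TopologicalSpace P] [Finite ι] (j : P → ι → ℝ → ℝ)
    (hc : ∀ i, Continuous fun q : P × ℝ => j q.1 i q.2) (hm : ∀ p i, StrictMono (j p i)) :
    IsOpenEmbedding fun q : (ι → ℝ) × P => ((fun i => j q.2 i (q.1 i) : ι → ℝ), q.2) := by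
  have hc' : ∀ {X : Type} [TopologicalSpace X] {a : X → P} {b : X → ℝ} (i : ι), Continuous a →
      Continuous b → Continuous fun x => j (a x) i (b x) := fun i ha hb =>
    (hc i).comp (ha.prodMk hb)
  refine IsOpenEmbedding.of_continuous_injective_isOpenMap ?_ ?_ ?_
  · exact (continuous_pi fun i => hc' i continuous_snd
      ((continuous_apply i).comp continuous_fst)).prodMk continuous_snd
  · rintro ⟨u, p⟩ ⟨u', p'⟩ h
    obtain rfl : p = p' := congrArg Prod.snd h
    refine Prod.ext (funext fun i => (hm p i).injective ?_) rfl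
    exact congrFun (congrArg Prod.fst h) i
  · refine IsOpenMap.of_nhds_le fun ⟨u, p⟩ => ?_
    intro W hW
    rw [Filter.mem_map, nhds_prod_eq, mem_prod_iff] at hW
    obtain ⟨V, hV, N, hN, hW⟩ := hW
    have := Fintype.ofFinite ι
    obtain ⟨ε, hε, hV⟩ := Metric.mem_nhds_iff.1 hV
    have h1 : ∀ i, ∀ᶠ q : (ι → ℝ) × P in 𝓝 ((fun i => j p i (u i) : ι → ℝ), p),
        j q.2 i (u i - ε / 2) < q.1 i ∧ q.1 i < j q.2 i (u i + ε / 2) := fun i => by
      refine Filter.Eventually.and ?_ ?_
      · exact (isOpen_lt (hc' i continuous_snd continuous_const)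
          ((continuous_apply i).comp continuous_fst)).mem_nhds (hm p i (by linarith))
      · exact (isOpen_lt ((continuous_apply i).comp continuous_fst)
          (hc' i continuous_snd continuous_const)).mem_nhds (hm p i (by linarith))
    have h2 : ∀ᶠ q : (ι → ℝ) × P in 𝓝 ((fun i => j p i (u i) : ι → ℝ), p), q.2 ∈ N :=
      continuous_snd.continuousAt.preimage_mem_nhds hN
    filter_upwards [eventually_all.2 h1, h2] with q hq hqN
    have h3 : ∀ i, ∃ s ∈ Set.Icc (u i - ε / 2) (u i + ε / 2), j q.2 i s = q.1 i := fun i =>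
      intermediate_value_Icc (by linarith)
        (hc' i continuous_const continuous_id).continuousOn ⟨(hq i).1.le, (hq i).2.le⟩
    choose s hs hs' using h3
    have h4 : (s, q.2) ∈ V ×ˢ N := by
      refine ⟨hV ?_, hqN⟩
      rw [Metric.mem_ball, dist_pi_lt_iff hε]
      intro i
      rw [Real.dist_eq, abs_lt]
      constructor <;> linarith [(hs i).1, (hs i).2]
    have h5 := hW h4
    simp only [Set.mem_preimage] at h5
    have h6 : (fun i => j q.2 i (s i) : ι → ℝ) = q.1 := funext hs'
    rwa [h6] at h5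

/-- the segment from the identity to `f` -/
def seg (f : ℝ → ℝ) (t : unitInterval) (s : ℝ) : ℝ := (1 - (t : ℝ)) * s + (t : ℝ) * f s

theorem seg_zero (f : ℝ → ℝ) (s : ℝ) : seg f 0 s = s := by simp [seg]

theorem seg_one (f : ℝ → ℝ) (s : ℝ) : seg f 1 s = f s := by simp [seg]

theorem strictMono_seg {f : ℝ → ℝ} (hf : StrictMono f) (t : unitInterval) :
    StrictMono (seg f t) := by
  intro a b hab
  have h1 := hf hab
  have h2 := t.2.1
  have h3 := t.2.2
  unfold seg
  rcases eq_or_lt_of_le h2 with h | h
  · rw [← h]; linarith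
  · nlinarith [mul_pos h (sub_pos.2 h1), mul_nonneg (sub_nonneg.2 h3) (sub_pos.2 hab).le]

theorem continuous_seg {X : Type} [TopologicalSpace X] {f : X → ℝ → ℝ} {t : X → unitInterval}
    {s : X → ℝ} (hf : Continuous fun x => f x (s x)) (ht : Continuous t) (hs : Continuous s) :
    Continuous fun x => seg (f x) (t x) (s x) :=
  ((continuous_const.sub (continuous_subtype_val.comp ht)).mul hs).add
    ((continuous_subtype_val.comp ht).mul hf)

/-- An isotopy of open embeddings gives a homotopy of the collapses. -/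
theorem exists_htpy_ofOpen {X : LC} (j : X × unitInterval → X)
    (hj : IsOpenEmbedding fun q : X × unitInterval => (j q, q.2)) :
    ∃ K : X ⊗ II ⟶ X, ∀ (t : unitInterval) (x : X),
      (∀ y, j (y, t) = x → app K (smash (x : OnePoint X) (t : OnePoint unitInterval)) = y) ∧
      ((∀ y, j (y, t) ≠ x) → app K (smash (x : OnePoint X) (t : OnePoint unitInterval)) = ∞) := by
  refine ⟨LC.ofOpen (X := X ⊗ II) (Y := X ⊗ II) _ hj ≫ LC.constH X, fun t x => ⟨?_, ?_⟩⟩
  · rintro y rfl
    rw [LC.app_comp]
    have h1 := LC.app_ofOpen_coe (X := X ⊗ II) (Y := X ⊗ II) _ hj (y, t)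
    erw [h1]
    exact LC.app_constH X y t
  · intro h
    rw [LC.app_comp]
    have h1 := LC.app_ofOpen_of_notMem (X := X ⊗ II) (Y := X ⊗ II) _ hj (x := (x, t)) (by
      rintro ⟨⟨y, s⟩, hy⟩
      obtain rfl : s = t := congrArg Prod.snd hy
      exact h y (congrArg Prod.fst hy))
    erw [h1]
    exact LC.app_infty _

theorem isOpenEmbedding_mono' {ι : Type} [Finite ι] (f : ι → ℝ → ℝ) (hc : ∀ i, Continuous (f i))
    (hm : ∀ i, StrictMono (f i)) : IsOpenEmbedding fun (u : ι → ℝ) (i : ι) => f i (u i) := by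
  have h := isOpenEmbedding_mono (P := Unit) (fun _ => f) (fun i => (hc i).comp continuous_snd)
    (fun _ => hm)
  exact (Homeomorph.prodPUnit (ι → ℝ)).isOpenEmbedding.comp
    (h.comp (Homeomorph.prodPUnit (ι → ℝ)).symm.isOpenEmbedding)

/-- the collapse of a coordinatewise strictly monotone map is homotopic to the identity -/
theorem homotopic_ofOpen_mono {ι : Type} [Finite ι] (f : ι → ℝ → ℝ) (hc : ∀ i, Continuous (f i))
    (hm : ∀ i, StrictMono (f i)) :
    LC.Homotopic (𝟙 _) (LC.ofOpen (X := LC.of (ι → ℝ)) (Y := LC.of (ι → ℝ)) _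
      (isOpenEmbedding_mono' f hc hm)) := by
  obtain ⟨K, hK⟩ := exists_htpy_ofOpen (X := LC.of (ι → ℝ))
    (fun q i => seg (f i) q.2 (q.1 i))
    (isOpenEmbedding_mono (fun t i => seg (f i) t)
      (fun i => continuous_seg ((hc i).comp continuous_snd) continuous_fst continuous_snd)
      (fun t i => strictMono_seg (hm i) t))
  refine ⟨K, LC.hom_ext fun x => ?_, LC.hom_ext fun x => ?_⟩
  · rw [LC.app_comp, LC.app_incl]
    exact (hK 0 x).1 x (funext fun i => seg_zero _ _)
  · rw [LC.app_comp, LC.app_incl]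
    by_cases hx : x ∈ Set.range fun (u : ι → ℝ) (i : ι) => f i (u i)
    · obtain ⟨y, rfl⟩ := hx
      rw [(hK 1 _).1 y (funext fun i => seg_one _ _)]
      exact (LC.app_ofOpen_coe (X := LC.of (ι → ℝ)) (Y := LC.of (ι → ℝ)) _
        (isOpenEmbedding_mono' f hc hm) y).symm
    · rw [(hK 1 x).2 fun y hy => hx ⟨y, (funext fun i => (seg_one _ _).symm).trans hy⟩]
      exact (LC.app_ofOpen_of_notMem (X := LC.of (ι → ℝ)) (Y := LC.of (ι → ℝ)) _
        (isOpenEmbedding_mono' f hc hm) hx).symm

end mono

section clopen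

variable {K : LC} {U V : Set K}

/-- a clopen piece -/
def clp (hU : IsClopen U) : LC :=
  haveI : LocallyCompactSpace U := hU.isOpen.locallyCompactSpace
  LC.of U

theorem isClosedEmbedding_clp (hU : IsClopen U) :
    IsClosedEmbedding fun u : clp hU => (u.1 : K) := hU.isClosed.isClosedEmbedding_subtypeVal

theorem isOpenEmbedding_clp (hU : IsClopen U) :
    IsOpenEmbedding fun u : clp hU => (u.1 : K) := hU.isOpen.isOpenEmbedding_subtypeVal

/-- the inclusion of a clopen piece -/
def clι (hU : IsClopen U) : clp hU ⟶ K := LC.ofClosed _ (isClosedEmbedding_clp hU)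

/-- the collapse onto a clopen piece -/
noncomputable def clπ (hU : IsClopen U) : K ⟶ clp hU := LC.ofOpen _ (isOpenEmbedding_clp hU)

/-- the idempotent of a clopen piece -/
noncomputable def rs (hU : IsClopen U) : K ⟶ K := clπ hU ≫ clι hU

theorem range_clp (hU : IsClopen U) : (Set.range fun u : clp hU => (u.1 : K)) = U :=
  Subtype.range_coe

theorem app_rs_of_mem (hU : IsClopen U) {x : K} (hx : x ∈ U) :
    app (rs hU) (x : OnePoint K) = x := by
  rw [rs, LC.app_comp]
  have h := LC.app_ofOpen_coe _ (isOpenEmbedding_clp hU) ⟨x, hx⟩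
  erw [h]
  rfl

theorem app_rs_of_notMem (hU : IsClopen U) {x : K} (hx : x ∉ U) :
    app (rs hU) (x : OnePoint K) = ∞ := by
  rw [rs, LC.app_comp, clπ, LC.app_ofOpen_of_notMem _ _ (by rwa [range_clp]), LC.app_infty]

theorem clι_clπ (hU : IsClopen U) : clι hU ≫ clπ hU = 𝟙 _ :=
  LC.hom_ext fun x => LC.app_ofOpen_coe _ (isOpenEmbedding_clp hU) x

theorem cofib_clι (hU : IsClopen U) : LC.Cofib (clι hU) :=
  LC.cofib_of_clopen _ _ (by rw [range_clp]; exact hU.isOpen)

theorem isPushout_clp (hU : IsClopen U) {E : LC} (hE : IsZero E) (k : clp hU ⟶ E)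
    (l : E ⟶ clp hU.compl) : IsPushout (clι hU) k (clπ hU.compl) l :=
  LC.isPushout_closed_open _ _ _ _ (by rw [range_clp, range_clp]; exact isCompl_compl) hE k l

theorem clι_rs_of_subset (hU : IsClopen U) (hV : IsClopen V) (h : U ⊆ V) :
    clι hU ≫ rs hV = clι hU :=
  LC.hom_ext fun x => app_rs_of_mem hV (h x.2)

theorem clι_rs_of_disjoint (hU : IsClopen U) (hV : IsClopen V) (h : Disjoint U V) :
    clι hU ≫ rs hV = 0 :=
  LC.hom_ext fun x => app_rs_of_notMem hV (Set.disjoint_left.1 h x.2)

theorem clι_rs_congr {W : Set K} (hU : IsClopen U) (hV : IsClopen V) (hW : IsClopen W)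
    (h : ∀ x ∈ U, x ∈ V ↔ x ∈ W) : clι hU ≫ rs hV = clι hU ≫ rs hW := by
  refine LC.hom_ext fun x => ?_
  by_cases hx : x.1 ∈ V
  · exact (app_rs_of_mem hV hx).trans (app_rs_of_mem hW ((h _ x.2).1 hx)).symm
  · exact (app_rs_of_notMem hV hx).trans (app_rs_of_notMem hW fun h' => hx ((h _ x.2).2 h')).symm

theorem rs_univ (h : IsClopen (Set.univ : Set K)) : rs h = 𝟙 K :=
  LC.hom_ext fun x => app_rs_of_mem h (Set.mem_univ x)

theorem rs_empty (h : IsClopen (∅ : Set K)) : rs h = 0 :=
  LC.hom_ext fun x => app_rs_of_notMem h (Set.notMem_empty x)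

theorem rs_congr (hU : IsClopen U) (hV : IsClopen V) (h : U = V) : rs hU = rs hV := by
  subst h
  rfl

/-- a clopen piece given by a chart -/
theorem rs_eq_of_chart {W : LC} (e : W → K) (h1 : IsClosedEmbedding e) (h2 : IsOpenEmbedding e)
    (hU : IsClopen U) (h : Set.range e = U) : rs hU = LC.ofOpen e h2 ≫ LC.ofClosed e h1 := by
  subst h
  refine LC.hom_ext fun x => ?_
  by_cases hx : x ∈ Set.range e
  · rw [app_rs_of_mem hU hx]
    obtain ⟨w, rfl⟩ := hx
    rw [LC.app_comp, LC.app_ofOpen_coe, LC.app_ofClosed_coe]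
  · rw [app_rs_of_notMem hU hx, LC.app_comp, LC.app_ofOpen_of_notMem _ _ hx, LC.app_infty]

end clopen

end Vale.Agent.P257.Z
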