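import Vale.Agent.P257.Z.Sp
import Vale.Agent.P251.H.Puppe2

/-!
# P257, block Z: polar coordinates

* `jt X K : JA X ⊗ J K ≅ JA (X ⊗ triv K)`;
* `prj`, `unt`, `pol`, `isPushout_pol`: `Fl False j` is the mapping cone of `Fl True j ⟶ 𝟙`,
  with the collapse `cq`;
* `stIso : St True j ⊗ ℝ ≅ St False j`, `vtx : ι ≅ Fl True 1`, `untIso : 𝟙 ≅ Fl False 0`.
-/

open CategoryTheory MonoidalCategory Limits Topology OnePoint Filter
open Functor.LaxMonoidal Functor.OplaxMonoidal
open scoped NNReal

namespace Vale.Agent.P257.Z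

open Vale.Agent.P251.H Vale.Agent.P251.H.StabInput Vale.Agent.P257.E
open Vale.Agent.P251.G (LC)
open Vale.Agent.P251.G.LC (RR II HH app smash incl IsRetr tsub expHH)
open Equiv (Perm)

universe v u

section gen

variable {G : Type} [Group G]

/-- an equivariant map out of the product with a space with the trivial action -/
def mkHomT {X Y : Action LC G} {K : LC} (f : X.V ⊗ K ⟶ Y.V)
    (h : ∀ g, act X g ▷ K ≫ f = f ≫ act Y g) : X ⊗ (triv G).obj K ⟶ Y :=
  mkHom f fun g => (congrArg (· ≫ f) (tensorHom_id (act X g) K)).trans (h g)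

@[simp] theorem mkHomT_hom {X Y : Action LC G} {K : LC} (f : X.V ⊗ K ⟶ Y.V)
    (h : ∀ g, act X g ▷ K ≫ f = f ≫ act Y g) : (mkHomT f h).hom = f := rfl

/-- an equivariant isomorphism out of the product with a space with the trivial action -/
def mkIsoT {X Y : Action LC G} {K : LC} (f : X.V ⊗ K ≅ Y.V)
    (h : ∀ g, act X g ▷ K ≫ f.hom = f.hom ≫ act Y g) : X ⊗ (triv G).obj K ≅ Y :=
  Action.mkIso f fun g => (congrArg (· ≫ f.hom) (tensorHom_id (act X g) K)).trans (h g)

@[simp] theorem mkIsoT_hom_hom {X Y : Action LC G} {K : LC} (f : X.V ⊗ K ≅ Y.V)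
    (h : ∀ g, act X g ▷ K ≫ f.hom = f.hom ≫ act Y g) : (mkIsoT f h).hom.hom = f.hom := rfl

@[simp] theorem mkIsoT_inv_hom {X Y : Action LC G} {K : LC} (f : X.V ⊗ K ≅ Y.V)
    (h : ∀ g, act X g ▷ K ≫ f.hom = f.hom ≫ act Y g) : (mkIsoT f h).inv.hom = f.inv := rfl

variable (G) in
/-- the map of a compact `G`-space to the point -/
def toPt (X : Type) [TopologicalSpace X] [LocallyCompactSpace X] [T2Space X] [MulAction G X]
    [ContinuousConstSMul G X] [CompactSpace X] : gsp G X ⟶ 𝟙_ (Action LC G) :=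
  mkHom (LC.ofCompact (X := LC.of X) (Y := LC.of Unit) (fun _ => ()) continuous_const)
    fun _ => LC.hom_ext fun _ => rfl

/-- a fixed point -/
def fixPt {X : Type} [TopologicalSpace X] [LocallyCompactSpace X] [T2Space X] [MulAction G X]
    [ContinuousConstSMul G X] (x : X) (h : ∀ g : G, g • x = x) : 𝟙_ (Action LC G) ⟶ gsp G X :=
  mkHom (LC.point (X := LC.of X) x) fun g =>
    LC.hom_ext fun _ => congrArg OnePoint.some (h g).symm

variable (M : Type u) [Category.{v} M] [MonoidalCategory M] [SymmetricCategory M]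
  [MonoidalClosed M] [HasZeroMorphisms M] [HasColimitsOfSize.{0, 0} M] [StabInput M]

/-- the product of a `G`-space and a space with the trivial action -/
noncomputable def jt (X : Action LC G) (K : LC) :
    (JA G M).obj X ⊗ (J (Action M G)).obj K ≅ (JA G M).obj (X ⊗ (triv G).obj K) :=
  Action.mkIso (Functor.Monoidal.μIso (J M) X.V K) fun g => by
    change ((J M).map (act X g) ⊗ₘ 𝟙 _) ≫ μ (J M) X.V K =
      μ (J M) X.V K ≫ (J M).map (act X g ⊗ₘ 𝟙 K)
    rw [← (J M).map_id, μ_natural]

@[simp] theorem jt_hom_hom (X : Action LC G) (K : LC) : (jt M X K).hom.hom = μ (J M) X.V K := rfl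

@[simp] theorem jt_inv_hom (X : Action LC G) (K : LC) : (jt M X K).inv.hom = δ (J M) X.V K := rfl

variable {M}

@[reassoc]
theorem coneBase_μ (X : LC) :
    coneBase ((J M).obj X) ≫ μ (J M) X HH = (J M).map (LC.coneBase X) := by
  rw [coneBase_def, LC.coneBase, Functor.map_comp, MonoidalCategory.whiskerLeft_comp]
  simp [LP.zeroHH]

/-- a mapping cone of `G`-spaces over the point -/
theorem isPushout_cone_JA {X Y : Action LC G} {p : X ⟶ 𝟙_ _} {k : X ⊗ (triv G).obj HH ⟶ Y}
    {z : 𝟙_ _ ⟶ Y} (h : IsPushout (LC.coneBase X.V) p.hom k.hom z.hom) :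
    IsPushout (coneBase ((JA G M).obj X)) ((JA G M).map p ≫ η (JA G M))
      ((jt M X HH).hom ≫ (JA G M).map k) (ε (JA G M) ≫ (JA G M).map z) := by
  refine isPushout_of_hom ?_
  have h1 := StabInput.pushout (M := M) _ _ _ _ (LC.injective_coneBase X.V) h
  refine h1.of_iso (Iso.refl _) (Functor.Monoidal.μIso (J M) X.V HH).symm
    (Functor.Monoidal.εIso (J M)).symm (Iso.refl _) ?_ ?_ ?_ ?_
  · rw [coneBase_hom, ← coneBase_μ]
    simp
  · change (J M).map p.hom ≫ η (J M) = 𝟙 _ ≫ (J M).map p.hom ≫ η (J M)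
    rw [Category.id_comp]
  · change (J M).map k.hom ≫ 𝟙 _ = δ (J M) X.V HH ≫ μ (J M) X.V HH ≫ (J M).map k.hom
    simp
  · change (J M).map z.hom ≫ 𝟙 _ = η (J M) ≫ ε (J M) ≫ (J M).map z.hom
    simp

end gen

variable {ι : Type} [Finite ι] {j k : ℕ}

/-- polar coordinates -/
def polF (p : Fl ι True j × ℝ≥0) : Fl ι False j := ⟨sc p.2 p.1.1, False.elim,
  (ns_mono (y := p.1.1) fun _ hi h => hi (by rw [sc, h, mul_zero])).trans p.1.2.2⟩

theorem continuous_polF : Continuous (polF : Fl ι True j × ℝ≥0 → Fl ι False j) :=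
  (continuous_sc continuous_snd (continuous_subtype_val.comp continuous_fst)).subtype_mk _

theorem top_polF (p : Fl ι True j × ℝ≥0) : top (polF p).1 = p.2 := by
  rw [polF, top_sc, p.1.2.1 trivial, mul_one]

theorem tendsto_polF :
    Tendsto (polF : Fl ι True j × ℝ≥0 → Fl ι False j) (cocompact _) (cocompact _) := by
  refine LC.tendsto_cocompact_of_preimage fun K hK => ?_
  obtain ⟨R, hR⟩ := exists_top_le (hK.image continuous_subtype_val)
  refine ⟨Set.univ ×ˢ Set.Icc 0 R, isCompact_univ.prod isCompact_Icc,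
    fun p hp => ⟨trivial, zero_le, ?_⟩⟩
  rw [← top_polF]
  exact hR _ ⟨_, hp, rfl⟩

variable (ι j) in
/-- polar coordinates -/
def pol : FA ι True j ⊗ (triv _).obj HH ⟶ FA ι False j :=
  mkHomT (LC.ofProper (X := LC.of (Fl ι True j) ⊗ HH) (Y := LC.of (Fl ι False j)) polF
    continuous_polF tendsto_polF) fun _ => LC.tensor_ext fun _ _ => rfl

theorem app_pol (a : Fl ι True j) (t : ℝ≥0) :
    app (pol ι j).hom (smash (a : OnePoint (Fl ι True j)) (t : OnePoint ℝ≥0)) =
      (polF (a, t) : OnePoint (Fl ι False j)) := rfl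

omit [Finite ι] in
variable (ι j) in
/-- the origin -/
def orig : Fl ι False j := ⟨zer, False.elim, ns_zer.le.trans (Nat.zero_le j)⟩

variable (ι j) in
/-- the origin -/
def zro : 𝟙_ (Action LC (Perm ι)) ⟶ FA ι False j := fixPt (orig ι j) fun _ => rfl

theorem zro_gι (h : j ≤ k) : zro ι j ≫ gι ι False h = zro ι k :=
  Action.hom_ext _ _ (LC.hom_ext fun _ => rfl)

theorem pol_gι (h : j ≤ k) : pol ι j ≫ gι ι False h = gι ι True h ▷ _ ≫ pol ι k :=
  Action.hom_ext _ _ (LC.tensor_ext fun _ _ => rfl)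

theorem gι_toPt (h : j ≤ k) : gι ι True h ≫ toPt _ (Fl ι True k) = toPt _ (Fl ι True j) :=
  gsp_hom_ext fun _ => rfl

/-- the direction of a nonzero point -/
noncomputable def dir (x : Fn ι ℝ≥0) : Fn ι ℝ≥0 := sc (top x)⁻¹ x

omit [Finite ι] in
theorem top_dir {x : Fn ι ℝ≥0} (h : top x ≠ 0) : top (dir x) = 1 := by
  rw [dir, top_sc, inv_mul_cancel₀ h]

omit [Finite ι] in
theorem ns_dir {x : Fn ι ℝ≥0} (h : top x ≠ 0) : ns (dir x) = ns x := ns_sc (inv_ne_zero h) x

omit [Finite ι] in
theorem sc_dir {x : Fn ι ℝ≥0} (h : top x ≠ 0) : sc (top x) (dir x) = x := by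
  rw [dir, sc_sc, mul_inv_cancel₀ h, sc_one]

omit [Finite ι] in
theorem dir_sc {t : ℝ≥0} (ht : t ≠ 0) {x : Fn ι ℝ≥0} (h : top x = 1) : dir (sc t x) = x := by
  rw [dir, top_sc, h, mul_one, sc_sc, inv_mul_cancel₀ ht, sc_one]

theorem isPushout_pol_LC : IsPushout (LC.coneBase (FA ι True j).V) (toPt _ (Fl ι True j)).hom
    (pol ι j).hom (zro ι j).hom := by
  have hz : ∀ x : Fl ι False j, (x : OnePoint (Fl ι False j)) ∈ Set.range (app (zro ι j).hom) ↔
      top x.1 = 0 := fun x => by
    constructor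
    · rintro ⟨y, hy⟩
      induction y using OnePoint.rec with
      | infty => exact absurd ((LC.app_infty _).symm.trans hy) (infty_ne_coe _)
      | coe y =>
        obtain rfl : orig ι j = x := OnePoint.coe_injective hy
        exact le_antisymm (top_le fun _ => le_rfl) zero_le
    · intro h
      exact ⟨((() : Unit) : OnePoint Unit), congrArg OnePoint.some
        (Subtype.ext (top_eq_zero h).symm)⟩
  have hb : ∀ p : Fl ι True j × ℝ≥0, (p : OnePoint (Fl ι True j × ℝ≥0)) ∈
      Set.range (app (LC.coneBase (FA ι True j).V)) ↔ p.2 = 0 := fun p => by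
    constructor
    · rintro ⟨y, hy⟩
      induction y using OnePoint.rec with
      | infty => exact absurd ((LC.app_infty _).symm.trans hy) (infty_ne_coe _)
      | coe y => exact (congrArg Prod.snd (OnePoint.coe_injective hy)).symm
    · intro h
      exact ⟨(p.1 : OnePoint (Fl ι True j)), congrArg OnePoint.some (Prod.ext rfl h.symm)⟩
  refine LC.isPushout_of (LC.hom_ext fun a => congrArg OnePoint.some (Subtype.ext (sc_zero _)))
    (fun a b _ => ?_) ⟨fun p hp => ?_, fun p hp q hq h => ?_, fun x hx => ?_⟩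
  · induction a using OnePoint.rec <;> induction b using OnePoint.rec
    · rfl
    · exact absurd ‹_› (infty_ne_coe _)
    · exact absurd ‹_› (coe_ne_infty _)
    · rfl
  · induction p using OnePoint.rec with
    | infty => exact absurd ⟨∞, LC.app_infty _⟩ hp
    | coe p => exact fun h => hp ((hb p).2 ((top_polF p).symm.trans ((hz (polF p)).1 h)))
  · induction p using OnePoint.rec with
    | infty => exact absurd ⟨∞, LC.app_infty _⟩ hp
    | coe p =>
      induction q using OnePoint.rec with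
      | infty => exact absurd ⟨∞, LC.app_infty _⟩ hq
      | coe q =>
        have h1 : polF p = polF q := OnePoint.coe_injective h
        have h2 : p.2 = q.2 := by rw [← top_polF, h1, top_polF]
        have h3 : p.2 ≠ 0 := fun h => hp ((hb p).2 h)
        refine congrArg OnePoint.some (Prod.ext (Subtype.ext ?_) h2)
        rw [← dir_sc h3 (p.1.2.1 trivial), ← dir_sc (h2 ▸ h3) (q.1.2.1 trivial)]
        exact congrArg (fun x : Fl ι False j => dir x.1) h1
  · induction x using OnePoint.rec with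
    | infty => exact absurd ⟨∞, LC.app_infty _⟩ hx
    | coe x =>
      have h : top x.1 ≠ 0 := fun h => hx ((hz x).2 h)
      let p : Fl ι True j × ℝ≥0 :=
        (⟨dir x.1, fun _ => top_dir h, (ns_dir h).le.trans x.2.2⟩, top x.1)
      have h1 : polF p = x := Subtype.ext (sc_dir h)
      exact ⟨(p : OnePoint (Fl ι True j × ℝ≥0)), fun h' => h ((hb p).1 h'),
        congrArg OnePoint.some h1⟩

/-- polar coordinates away from the origin -/
noncomputable def polE (p : Fl ι True j × ℝ) : Fl ι False j := polF (p.1, expHH p.2)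

theorem expHH_ne_zero (t : ℝ) : expHH t ≠ 0 := (LC.mem_range_expHH _).1 ⟨t, rfl⟩

theorem expHH_log {t : ℝ≥0} (h : t ≠ 0) : expHH (Real.log t) = t :=
  NNReal.coe_injective (Real.exp_log (NNReal.coe_pos.2 (pos_iff_ne_zero.2 h)))

theorem log_expHH (t : ℝ) : Real.log (expHH t) = t := Real.log_exp t

theorem continuous_expHH : Continuous expHH := LC.isOpenEmbedding_expHH.continuous

theorem continuous_dir {Y : Type} [TopologicalSpace Y] {x : Y → Fn ι ℝ≥0} (hx : Continuous x)
    (h : ∀ y, top (x y) ≠ 0) : Continuous fun y => dir (x y) :=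
  continuous_sc ((continuous_top.comp hx).inv₀ h) hx

theorem continuous_log_top {Y : Type} [TopologicalSpace Y] {x : Y → Fn ι ℝ≥0} (hx : Continuous x)
    (h : ∀ y, top (x y) ≠ 0) : Continuous fun y => Real.log (top (x y)) :=
  (NNReal.continuous_coe.comp (continuous_top.comp hx)).log fun y => NNReal.coe_ne_zero.2 (h y)

/-- polar coordinates away from the origin -/
noncomputable def polHomeo : Fl ι True j × ℝ ≃ₜ {x : Fl ι False j // top x.1 ≠ 0} where
  toFun p := ⟨polE p, (top_polF _).trans_ne (expHH_ne_zero _)⟩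
  invFun x := (⟨dir x.1.1, fun _ => top_dir x.2, (ns_dir x.2).le.trans x.1.2.2⟩,
    Real.log (top x.1.1))
  left_inv p := Prod.ext (Subtype.ext (dir_sc (expHH_ne_zero _) (p.1.2.1 trivial)))
    ((congrArg (fun t : ℝ≥0 => Real.log t) (top_polF _)).trans (log_expHH _))
  right_inv x := Subtype.ext (Subtype.ext
    ((congrArg (sc · (dir x.1.1)) (expHH_log x.2)).trans (sc_dir x.2)))
  continuous_toFun := (continuous_polF.comp (continuous_fst.prodMk
    (continuous_expHH.comp continuous_snd))).subtype_mk _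
  continuous_invFun := ((continuous_dir (continuous_subtype_val.comp continuous_subtype_val)
    fun y => y.2).subtype_mk _).prodMk
    (continuous_log_top (continuous_subtype_val.comp continuous_subtype_val) fun y => y.2)

theorem isOpenEmbedding_polE : IsOpenEmbedding (polE : Fl ι True j × ℝ → Fl ι False j) :=
  (isOpen_ne_fun (continuous_top.comp continuous_subtype_val)
    continuous_const).isOpenEmbedding_subtypeVal.comp polHomeo.isOpenEmbedding

theorem mem_range_polE (x : Fl ι False j) : x ∈ Set.range polE ↔ top x.1 ≠ 0 :=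
  ⟨by rintro ⟨p, rfl⟩; exact (polHomeo p).2,
    fun h => ⟨polHomeo.symm ⟨x, h⟩, congrArg Subtype.val (polHomeo.apply_symm_apply _)⟩⟩

variable (ι j) in
/-- the collapse of the cone onto the suspension -/
noncomputable def cq : FA ι False j ⟶ FA ι True j ⊗ (triv _).obj RR :=
  mkHom (LC.ofOpen (X := LC.of (Fl ι False j)) (Y := LC.of (Fl ι True j) ⊗ RR) polE
    isOpenEmbedding_polE) fun g => LC.hom_ext fun x => by
    rw [LC.app_comp, LC.app_comp]
    by_cases hx : x ∈ Set.range polE
    · obtain ⟨y, rfl⟩ := hx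
      rw [LC.app_ofOpen_coe (X := LC.of (Fl ι False j)) (Y := LC.of (Fl ι True j) ⊗ RR) polE
          isOpenEmbedding_polE y]
      exact LC.app_ofOpen_coe (X := LC.of (Fl ι False j)) (Y := LC.of (Fl ι True j) ⊗ RR) polE
        isOpenEmbedding_polE (g • y.1, y.2)
    · rw [LC.app_ofOpen_of_notMem (X := LC.of (Fl ι False j)) (Y := LC.of (Fl ι True j) ⊗ RR) _ _
        hx, LC.app_infty]
      refine LC.app_ofOpen_of_notMem (X := LC.of (Fl ι False j))
        (Y := LC.of (Fl ι True j) ⊗ RR) _ _ (x := g • x) fun h => hx ?_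
      rw [mem_range_polE] at h ⊢
      exact fun h' => h ((top_smul g x.1).trans h')

theorem app_cq (p : Fl ι True j × ℝ) : app (cq ι j).hom (polE p : OnePoint (Fl ι False j)) =
    (p : OnePoint (Fl ι True j × ℝ)) :=
  LC.app_ofOpen_coe (X := LC.of (Fl ι False j)) (Y := LC.of (Fl ι True j) ⊗ RR) polE
    isOpenEmbedding_polE p

theorem app_cq_zero {x : Fl ι False j} (h : top x.1 = 0) :
    app (cq ι j).hom (x : OnePoint (Fl ι False j)) = ∞ :=
  LC.app_ofOpen_of_notMem (X := LC.of (Fl ι False j)) (Y := LC.of (Fl ι True j) ⊗ RR) polE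
    isOpenEmbedding_polE fun h' => (mem_range_polE x).1 h' h

theorem zro_cq : zro ι j ≫ cq ι j = 0 :=
  Action.hom_ext _ _ (LC.hom_ext fun _ =>
    app_cq_zero (le_antisymm (top_le fun _ => le_rfl) zero_le))

theorem pol_cq_LC : (pol ι j).hom ≫ (cq ι j).hom = (FA ι True j).V ◁ LC.collHH := by
  refine LC.tensor_ext fun a t => ?_
  rw [LC.app_comp, LC.app_whiskerLeft_smash, app_pol]
  by_cases ht : t ∈ Set.range expHH
  · obtain ⟨s, rfl⟩ := ht
    rw [show app LC.collHH ((expHH s : ℝ≥0) : OnePoint ℝ≥0) = (s : OnePoint ℝ) from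
      LC.app_ofOpen_coe (X := HH) (Y := RR) expHH LC.isOpenEmbedding_expHH s]
    exact app_cq (a, s)
  · rw [show app LC.collHH (t : OnePoint ℝ≥0) = ∞ from
      LC.app_ofOpen_of_notMem (X := HH) (Y := RR) expHH LC.isOpenEmbedding_expHH ht,
      LC.smash_infty_right]
    refine app_cq_zero ((top_polF _).trans ?_)
    by_contra h
    exact ht ((LC.mem_range_expHH t).2 h)

theorem top_ne_zero_St (hj : 1 ≤ j) {c : Prop} (x : St ι c j) : top x.1 ≠ 0 := fun h => by
  have h1 := x.2.2
  rw [top_eq_zero h, ns_zer] at h1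
  omega

/-- polar coordinates on a stratum -/
noncomputable def stHomeo (hj : 1 ≤ j) : St ι True j × ℝ ≃ₜ St ι False j where
  toFun p := ⟨sc (expHH p.2) p.1.1, False.elim, (ns_sc (expHH_ne_zero _) _).trans p.1.2.2⟩
  invFun x := (⟨dir x.1, fun _ => top_dir (top_ne_zero_St hj x),
    (ns_dir (top_ne_zero_St hj x)).trans x.2.2⟩, Real.log (top x.1))
  left_inv p := Prod.ext (Subtype.ext (dir_sc (expHH_ne_zero _) (p.1.2.1 trivial))) (by
    change Real.log (top (sc (expHH p.2) p.1.1)) = p.2
    rw [top_sc, p.1.2.1 trivial, mul_one, log_expHH])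
  right_inv x := Subtype.ext ((congrArg (sc · (dir x.1)) (expHH_log (top_ne_zero_St hj x))).trans
    (sc_dir (top_ne_zero_St hj x)))
  continuous_toFun := (continuous_sc (continuous_expHH.comp continuous_snd)
    (continuous_subtype_val.comp continuous_fst)).subtype_mk _
  continuous_invFun := ((continuous_dir continuous_subtype_val
    (top_ne_zero_St hj)).subtype_mk _).prodMk
    (continuous_log_top continuous_subtype_val (top_ne_zero_St hj))

variable (ι) in
/-- polar coordinates on a stratum -/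
noncomputable def stIso (hj : 1 ≤ j) : SA ι True j ⊗ (triv _).obj RR ≅ SA ι False j :=
  mkIsoT (LC.ofHomeo (X := LC.of (St ι True j) ⊗ RR) (Y := LC.of (St ι False j)) (stHomeo hj))
    fun _ => LC.tensor_ext fun _ _ => rfl

open scoped Classical in
/-- the vertices -/
noncomputable def vert (i : ι) : Fn ι ℝ≥0 := fun l => if l = i then 1 else 0

omit [Finite ι] in
theorem vert_self (i : ι) : vert i i = 1 := if_pos rfl

omit [Finite ι] in
theorem vert_ne {i l : ι} (h : l ≠ i) : vert i l = 0 := if_neg h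

omit [Finite ι] in
theorem supp_vert (i : ι) : supp (vert i) = {i} := by
  ext l
  by_cases h : l = i
  · simp [supp, h, vert_self]
  · simp [supp, h, vert_ne h]

omit [Finite ι] in
theorem ns_vert (i : ι) : ns (vert i) = 1 := by rw [ns, supp_vert, Set.ncard_singleton]

theorem top_vert (i : ι) : top (vert i) = 1 := by
  refine le_antisymm (top_le fun l => ?_) ((vert_self i).ge.trans (le_top _ i))
  by_cases h : l = i
  · rw [h, vert_self]
  · rw [vert_ne h]
    exact zero_le

omit [Finite ι] in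
theorem smul_vert (g : Perm ι) (i : ι) : g • vert i = vert (g i) :=
  Fn.ext fun l => by
    rw [Fn.smul_apply]
    by_cases h : l = g i
    · rw [h, g.symm_apply_apply, vert_self, vert_self]
    · rw [vert_ne h, vert_ne fun h' => h (by rw [← h', g.apply_symm_apply])]

/-- the vertices -/
noncomputable def vertF (i : Ds ι) : Fl ι True 1 :=
  ⟨vert i.val, fun _ => top_vert _, (ns_vert _).le⟩

theorem bijective_vertF : Function.Bijective (vertF : Ds ι → Fl ι True 1) := by
  constructor
  · intro a b h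
    have h1 : supp (vert a.val) = supp (vert b.val) := congrArg (fun x : Fl ι True 1 => supp x.1) h
    rw [supp_vert, supp_vert] at h1
    exact Set.singleton_injective h1
  · intro x
    have h1 := x.2.1 trivial
    obtain ⟨i, hi⟩ := exists_eq_top (h1.trans_ne one_ne_zero)
    refine ⟨Ds.mk i, Subtype.ext (Fn.ext fun l => ?_)⟩
    change vert i l = x.1 l
    by_cases h : l = i
    · rw [h, vert_self, hi, h1]
    · rw [vert_ne h]
      by_contra h2
      exact h ((Set.ncard_le_one (Set.toFinite _)).1 x.2.2 l (Ne.symm h2) i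
        ((hi.trans h1).trans_ne one_ne_zero))

/-- the vertices -/
noncomputable def vertHomeo : Ds ι ≃ₜ Fl ι True 1 :=
  Continuous.homeoOfEquivCompactToT2 (f := Equiv.ofBijective _ bijective_vertF)
    continuous_of_discreteTopology

variable (ι) in
/-- the `G`-set `ι` -/
abbrev DA : Action LC (Perm ι) := gsp (Perm ι) (Ds ι)

variable (ι) in
/-- the vertices -/
noncomputable def vtx : DA ι ≅ FA ι True 1 :=
  gHomeo vertHomeo fun g i => Subtype.ext (smul_vert g i.val).symm

theorem app_vtx (i : Ds ι) : app (vtx ι).hom.hom (i : OnePoint (Ds ι)) =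
    (vertF i : OnePoint (Fl ι True 1)) := rfl

theorem vtx_toPt : (vtx ι).hom ≫ toPt _ (Fl ι True 1) = toPt _ (Ds ι) := gsp_hom_ext fun _ => rfl

instance : Unique (Fl ι False 0) where
  default := orig ι 0
  uniq x := Subtype.ext (ns_eq_zero (Nat.le_zero.1 x.2.2))

instance : IsIso (zro ι 0) :=
  ⟨toPt _ (Fl ι False 0), Action.hom_ext _ _ (LC.hom_ext fun _ => rfl),
    gsp_hom_ext fun _ => congrArg OnePoint.some (Subsingleton.elim _ _)⟩

section M

variable (M : Type u) [Category.{v} M] [MonoidalCategory M] [SymmetricCategory M]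
  [MonoidalClosed M] [HasZeroMorphisms M] [HasColimitsOfSize.{0, 0} M] [StabInput M]

variable (ι j) in
/-- the projection to the unit -/
noncomputable def prj : (JA (Perm ι) M).obj (FA ι True j) ⟶ 𝟙_ _ :=
  (JA _ M).map (toPt _ (Fl ι True j)) ≫ η (JA _ M)

variable (ι j) in
/-- the unit -/
noncomputable def unt : 𝟙_ _ ⟶ (JA (Perm ι) M).obj (FA ι False j) :=
  ε (JA _ M) ≫ (JA _ M).map (zro ι j)

variable (ι j) in
/-- polar coordinates -/
noncomputable def cpol : (JA (Perm ι) M).obj (FA ι True j) ⊗ CI _ ⟶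
    (JA (Perm ι) M).obj (FA ι False j) :=
  (jt M _ HH).hom ≫ (JA _ M).map (pol ι j)

variable (ι j) in
/-- the collapse of the cone onto the suspension -/
noncomputable def ccq : (JA (Perm ι) M).obj (FA ι False j) ⟶
    (JA (Perm ι) M).obj (FA ι True j) ⊗ S _ :=
  (JA _ M).map (cq ι j) ≫ (jt M _ RR).inv

theorem isPushout_pol : IsPushout (coneBase _) (prj ι j M) (cpol ι j M) (unt ι j M) :=
  isPushout_cone_JA isPushout_pol_LC

theorem cpol_ccq : cpol ι j M ≫ ccq ι j M = ccoll _ := by
  refine Action.hom_ext _ _ ?_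
  rw [ccoll, Action.whiskerLeft_hom]
  change (μ (J M) _ HH ≫ (J M).map (pol ι j).hom) ≫ (J M).map (cq ι j).hom ≫ δ (J M) _ RR =
    (J M).obj _ ◁ (J M).map LC.collHH
  rw [Category.assoc, ← Functor.map_comp_assoc, pol_cq_LC, ← μ_natural_right_assoc]
  simp

theorem unt_ccq : unt ι j M ≫ ccq ι j M = 0 := by
  rw [unt, ccq, Category.assoc, ← Functor.map_comp_assoc, zro_cq, JA_map_zero, zero_comp,
    comp_zero]

instance : IsIso (unt ι 0 M) :=
  IsIso.comp_isIso' (Functor.Monoidal.εIso (JA _ M)).isIso_hom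
    (Functor.map_isIso (JA _ M) (zro ι 0))

end M

end Vale.Agent.P257.Z
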