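import Vale.Agent.P257.Z.Tw
import Vale.Agent.P257.E.Dh
import Vale.Agent.P257.K.KlOf
import Vale.Agent.P257.L.SCLoc
import Vale.Agent.P257.T.U

/-!
# P257, block Z: the base lemma in the stable categories `SC (Dh Φ p ι)` and `SC (De J p)`

* `ctxX`: the context of the base lemma for `DX D a ha`;
* `ctx Φ p ι`: the context for `Dh Φ p ι`.
-/

open CategoryTheory MonoidalCategory Limits Functor.LaxMonoidal Functor.OplaxMonoidal

namespace Vale.Agent.P257.Z

open Vale.Agent.P251.H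
open Vale.Agent.P251.H.StabInput hiding J
open Vale.Agent.P251.M (IsInv)
open Vale.Agent.P251.G (LC)
open Vale.Agent.P251.G.LC (RR HH app)
open Vale.Agent.P257.E Vale.Agent.P257.K Vale.Agent.P257.C Vale.Agent.P257.L
open Equiv (Perm)

universe v u

section gen

variable {M : Type u} [Category.{v} M] [MonoidalCategory M] [SymmetricCategory M]
  [MonoidalClosed M] [HasZeroMorphisms M] [HasColimitsOfSize.{0, 0} M] [StabInput M]

theorem tr_st (D : Stab M) {A B Z : M} {a : A ⟶ B} {b : B ⟶ Z} {c}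
    (h : (scTri D).Tri ((st D).map a) ((st D).map b) c) :
    Tr (SC.SS D) ((st D).map a) ((st D).map b) c := tr_of_tri h

variable {ι : Type} [Finite ι] (D : Stab M) {U : Action M (Perm ι)} (a : U ⟶ 𝟙_ _) (ha : Rot a)

/-- the equivariant suspension spectrum -/
noncomputable abbrev SHx : Action LC (Perm ι) ⥤ SC (DX D a ha) := JA (Perm ι) M ⋙ st (DX D a ha)

/-- the suspension spectrum -/
noncomputable abbrev TEx : LC ⥤ SC D := StabInput.J M ⋙ st D

/-- the circle -/
noncomputable def sSIso : SC.SS (DX D a ha) ≅ sS (SHx D a ha) :=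
  (st _).mapIso (JATriv (Perm ι) M RR).symm

instance : IsInv (sS (SHx D a ha)) := IsInv.of_iso (sSIso D a ha)

instance : IsInv ((TEx D).obj RR) := inferInstanceAs (IsInv (SC.SS D))

omit [Finite ι] in
theorem tr_SHx {A B Z : Action M (Perm ι)} {f : A ⟶ B} {g : B ⟶ Z}
    (h : ∃ q, (scTri (DX D a ha)).Tri ((st _).map f) ((st _).map g) q) :
    ∃ q, Tr (sS (SHx D a ha)) ((st _).map f) ((st _).map g) q := by
  obtain ⟨q, h⟩ := h
  exact ⟨q ≫ _ ◁ (sSIso D a ha).hom, (tr_st _ h).of_iso (sSIso D a ha) (Iso.refl _) (Iso.refl _)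
    (Iso.refl _) (by simp) (by simp) (by simp)⟩

theorem coEx_cq (j : ℕ) : CoEx ((TEx D).map (cq ι j).hom ≫ δ (TEx D) (FA ι True j).V RR)
    (((TEx D).map (toPt _ (Fl ι True j)).hom ≫ η (TEx D)) ▷ (TEx D).obj RR) := by
  have h : IsCone (prj ι j M).hom (cpol ι j M).hom (unt ι j M).hom (ccq ι j M).hom :=
    ⟨coneBase_hom ((JA (Perm ι) M).obj (FA ι True j)) ▸ isPushout_hom (isPushout_pol M),
      (congrArg Action.Hom.hom (cpol_ccq M)).trans (Action.whiskerLeft_hom _ _),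
      congrArg Action.Hom.hom (unt_ccq M)⟩
  have k := (tr_st D (scTri_cone D h)).co₃
  have e1 : (st D).map (ccq ι j M).hom =
      (TEx D).map (cq ι j).hom ≫ δ (TEx D) (FA ι True j).V RR :=
    ((st D).map_comp _ _).trans (congrArg (_ ≫ ·) (Category.comp_id _).symm)
  have e2 : (st D).map (prj ι j M).hom = (TEx D).map (toPt _ (Fl ι True j)).hom ≫ η (TEx D) :=
    ((st D).map_comp _ _).trans (congrArg (_ ≫ ·) (Category.comp_id _).symm)
  rwa [e1, e2] at k

theorem tr_trc (j : ℕ) : ∃ q, Tr (sS (SHx D a ha))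
    ((SHx D a ha).map (toPt _ (Fl ι True j)) ≫ η (SHx D a ha))
    (ε (SHx D a ha) ≫ (SHx D a ha).map (zro ι j)) q := by
  have k := tr_SHx D a ha (scTri_pushout _ (isPushout_pol (ι := ι) (j := j) M))
  have e1 : (st (DX D a ha)).map (prj ι j M) =
      (SHx D a ha).map (toPt _ (Fl ι True j)) ≫ η (SHx D a ha) :=
    ((st _).map_comp _ _).trans (congrArg (_ ≫ ·) (Category.comp_id _).symm)
  have e2 : (st (DX D a ha)).map (unt ι j M) = ε (SHx D a ha) ≫ (SHx D a ha).map (zro ι j) :=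
    ((st _).map_comp _ _).trans (congrArg (· ≫ _) (Category.id_comp _).symm)
  rwa [e1, e2] at k

variable [IsIso ((st D).map a.hom)]

omit [Finite ι] in
theorem rsA_braiding_hom (X Y : SC (DX D a ha)) :
    ((rsA D a ha).map (β_ X Y).hom).hom = (β_ ((st D).obj X.obj.V) ((st D).obj Y.obj.V)).hom :=
  (rsA_st_hom D a ha (β_ X.obj Y.obj).hom).trans
    (congrArg (st D).map (Action.β_hom_hom _ _))

omit [Finite ι] in
theorem atPt_dpt {T : Type} (t : T) (B : M) {X : SC D}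
    (r : (st D).obj B ⊗ (TEx D).obj (dsp T) ⟶ X) :
    atPt (TEx D) (dpt t) r = (st D).map (dinc t B) ≫
      (β_ ((TEx D).obj (dsp T)) ((st D).obj B)).hom ≫ r := by
  have e : (st D).map (dinc t B) = (λ_ _).inv ≫ (ε (TEx D) ≫ (TEx D).map (dpt t)) ▷ _ := by
    rw [dinc, Functor.map_comp, SC.st_whiskerRight, Functor.map_comp]
    exact congrArg (fun z => _ ≫ (z ≫ _) ▷ _) (Category.id_comp _).symm
  rw [e, atPt, Category.assoc, BraidedCategory.braiding_naturality_left_assoc,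
    leftUnitor_inv_braiding_assoc]

/-- the context of the base lemma -/
noncomputable def ctxX
    (div : ∀ m : ℕ, 0 < m → m < Nat.card ι → ∀ A : SC D, IsIso (m • 𝟙 A))
    (t0 : ∀ (Y X : SC (DX D a ha)) (x : (st _).obj (fset M (Perm ι) (Sb ι)) ⊗ Y ⟶ X),
      ((rsA D a ha).map x).hom = 0 → x = 0) : Ctx (SHx D a ha) (TEx D) (rsA D a ha) where
  φ K := Iso.refl _
  nat k := (Category.comp_id _).trans ((rsA_st D a ha _).trans (Category.id_comp _).symm)
  unit := Action.hom_ext _ _ (by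
    change 𝟙 _ ≫ ((rsA D a ha).map (𝟙 _ ≫ (st _).map (ε (JA (Perm ι) M)))).hom ≫ 𝟙 _ =
      𝟙 _ ≫ (st D).map (ε (StabInput.J M))
    rw [Category.id_comp, Category.id_comp, Category.id_comp, Category.comp_id, rsA_st_hom]
    rfl)
  tens K L := Action.hom_ext _ _ (by
    change 𝟙 _ ≫ ((rsA D a ha).map (𝟙 _ ≫ (st _).map (μ (JA (Perm ι) M) K L))).hom ≫ 𝟙 _ =
      (𝟙 _ ⊗ₘ 𝟙 _ : (TEx D).obj K.V ⊗ (TEx D).obj L.V ⟶ _) ≫ 𝟙 _ ≫
        (st D).map (μ (StabInput.J M) K.V L.V)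
    rw [id_tensorHom_id, Category.id_comp, Category.id_comp, Category.id_comp, Category.id_comp,
      Category.comp_id, rsA_st_hom]
    rfl)
  sph := SC.sphFun D
  htpy := fun ⟨K, h, h0, h1⟩ => SC.st_htpy (mHtpy_JA K h h0 h1)
  zero K L := (congrArg (st _).map (JA_map_zero K L)).trans ((st _).map_zero _ _)
  div m h1 h2 A := have := div m h1 h2 A
    ⟨inv (m • 𝟙 A), Eq.trans (by rw [Preadditive.nsmul_comp, Category.id_comp])
      (IsIso.hom_inv_id (m • 𝟙 A))⟩
  trι c j := tr_SHx D a ha (scTri_hCof _ (hCof_gι _) isZero_empty (isPushout_gπ isZero_empty 0 0))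
  trc := tr_trc D a ha
  cone := coEx_cq D _
  t0 Y X x h := by
    rw [← cancel_epi (β_ _ Y).hom, comp_zero]
    exact t0 Y X _ (by rw [Functor.map_comp, h, comp_zero, Action.zero_hom])
  t1 Y X f := by
    obtain ⟨x, rfl⟩ := (rsA_bijective X Y).2 f
    refine ⟨(β_ _ _).hom ≫ x, (atPt_dpt D _ Y.obj.V _).trans (congrArg (_ ≫ ·) ?_)⟩
    rw [Functor.map_comp, Action.comp_hom, Action.comp_hom, Action.comp_hom, rsA_braiding_hom,
      Action.whiskerLeft_hom]
    change _ ≫ (_ ◁ 𝟙 _ ≫ 𝟙 _) ≫ _ = _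
    rw [MonoidalCategory.whiskerLeft_id, Category.id_comp, Category.id_comp]
    exact SymmetricCategory.symmetry_assoc _ _ _

end gen

section fin

open Vale.Agent.P257.D Vale.Agent.P257.D.EF

variable {J : Type} [Idx J] [SphIdx J] (Φ : O ⥤ J) [IdxFun Φ] [Φ.Monoidal] (p : ℕ) (ι : Type)
  [Finite ι]

/-- the equivariant suspension spectrum -/
noncomputable abbrev SHh : Action LC (Perm ι) ⥤ SC (Dh Φ p ι) :=
  JA (Perm ι) (EF J) ⋙ st (Dh Φ p ι)

instance : IsInv (sS (SHh Φ p ι)) := inferInstanceAs (IsInv (sS (SHx _ _ _)))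

instance : IsInv ((SHh Φ p ι).obj (VA ι)) := isInv_VA Φ p ι

variable [Std Φ] [hp : Fact p.Prime] [hι : Fact (Nat.card ι = p)]

/-- **The context of the base lemma.** -/
noncomputable def ctx : Ctx (SHh Φ p ι) (TEx (De J p)) (Rh Φ p ι) :=
  ctxX _ _ _ (fun _ h1 h2 A => isIso_nsmul_lt h1.ne'
      ((h2.trans_eq hι.out).trans_le (Nat.le_self_pow two_ne_zero p))
      (Nat.not_dvd_of_pos_of_lt h1 (h2.trans_eq hι.out)) A)
    fun _ _ _ h => T0 (fun g hg _ e => by
      obtain ⟨a, b, k⟩ := Sb.exists_of_fixed e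
      obtain ⟨n, hn⟩ := perm_trans (hι.out.symm ▸ hp.out) (hg.trans hι.out.symm) a b
      exact k n hn) (h.trans (by rw [Functor.map_zero, Action.zero_hom]))

theorem ctx_φ (K : Action LC (Perm ι)) : (ctx Φ p ι).φ K = Iso.refl _ := rfl

end fin

end Vale.Agent.P257.Z
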