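import Vale.Agent.P257.Z.Tw
import Vale.Agent.P257.W.Eu

/-!
# P257, block Z: components of maps to `X ⊗ ι₊` and division by the Euler class

* `Ctx.co`, `zr_D`, `eq_zero_of_fld`;
* `exists_div_one` : a class with trivial restriction is divisible by the Euler class;
* `tw0` : the twisted division if there is no `p`-torsion;
* `GC` : objects whose restriction is a cell with a sign action.
-/

open CategoryTheory MonoidalCategory Limits Topology OnePoint
open Functor.LaxMonoidal Functor.OplaxMonoidal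

namespace Vale.Agent.P257.Z

open Vale.Agent.P257.E Vale.Agent.P257.C Vale.Agent.P257.W
open Vale.Agent.P251.G (LC)
open Vale.Agent.P251.G.LC (RR)
open Vale.Agent.P251.M (IsInv whiskerRight_bijective)
open Equiv (Perm swap)

universe v u v' u'

set_option linter.unusedSectionVars false

variable {ι : Type} [Finite ι] {H : Type u} [Category.{v} H] [Preadditive H] [MonoidalCategory H]
  [SymmetricCategory H] [MonoidalPreadditive H] {E : Type u'} [Category.{v'} E] [Preadditive E]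
  [MonoidalCategory E] [SymmetricCategory E] [MonoidalPreadditive E]
  {SH : Action LC (Perm ι) ⥤ H} [SH.Braided] {TE : LC ⥤ E} [TE.Braided]
  {R : H ⥤ Action E (Perm ι)} [R.Braided] {W W' X X' Y : H}

variable (SH) in
/-- the Euler class -/
noncomputable def eul : 𝟙_ H ⟶ SH.obj (RA ι) := ε SH ≫ SH.map (zro ι (pd ι))

theorem shuf_inv_nat (X S : H) {A B : H} (f : A ⟶ B) :
    (shuf X S A).inv ≫ (X ⊗ S) ◁ f = (X ◁ f) ▷ S ≫ (shuf X S B).inv := by
  rw [Iso.inv_comp_eq, ← Category.assoc, Iso.eq_comp_inv]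
  simp only [shuf, Iso.trans_hom, whiskerLeftIso_hom, Iso.symm_hom, Category.assoc]
  rw [associator_naturality_right_assoc, ← MonoidalCategory.whiskerLeft_comp_assoc,
    BraidedCategory.braiding_naturality_right, MonoidalCategory.whiskerLeft_comp_assoc,
    associator_inv_naturality_middle]

namespace Ctx

variable (C : Ctx SH TE R)

/-- the components of a map to `X ⊗ ι₊` -/
noncomputable def co (i : ι) (x : Y ⟶ X ⊗ SH.obj (DA ι)) : (R.obj Y).V ⟶ (R.obj X).V :=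
  atCo TE (dco i) (C.rt x).hom

theorem co_act (g : Perm ι) (i : ι) (x : Y ⟶ X ⊗ SH.obj (DA ι)) :
    act (R.obj Y) g ≫ C.co (g i) x = C.co i x ≫ act (R.obj X) g := by
  have k : TE.map (act (DA ι) g) ≫ TE.map (dco (g i)) = TE.map (dco i) :=
    (TE.map_comp _ _).symm.trans (congrArg TE.map (act_dco g i))
  rw [co, co, atCo, atCo, act_comm_assoc, act_tensor, act_mapA, MonoidalCategory.tensorHom_def, Category.assoc,
    ← MonoidalCategory.whiskerLeft_comp_assoc, reassoc_of% k, Category.assoc, Category.assoc,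
    ← rightUnitor_naturality, ← whisker_exchange_assoc]

theorem rt_eq_sum [Fintype ι] (x : Y ⟶ X ⊗ SH.obj (DA ι)) : (C.rt x).hom =
    ∑ i, C.co i x ≫ (ρ_ _).inv ≫ (R.obj X).V ◁ (ε TE ≫ TE.map (dpt i)) := by
  have k : 𝟙 ((R.obj X).V ⊗ TE.obj (dsp ι)) =
      ∑ i : ι, (R.obj X).V ◁ TE.map (dco i ≫ dpt i) := by
    rw [← whiskerLeft_sum, sum_dco C.sph, MonoidalCategory.whiskerLeft_id]
  refine (Category.comp_id _).symm.trans ((congrArg ((C.rt x).hom ≫ ·) k).trans ?_)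
  rw [Preadditive.comp_sum]
  refine Finset.sum_congr rfl fun i _ => ?_
  rw [co, atCo, Category.assoc, Category.assoc, Iso.hom_inv_id_assoc,
    ← MonoidalCategory.whiskerLeft_comp, Category.assoc, Functor.Monoidal.η_ε_assoc, TE.map_comp]

theorem sum_co [Fintype ι] (x : Y ⟶ X ⊗ SH.obj (DA ι)) :
    ∑ i, C.co i x = (R.map (x ≫ X ◁ fld SH ≫ (ρ_ X).hom)).hom := by
  rw [R.map_comp, fld, C.map_counit, ← Category.assoc, Action.comp_hom]
  change _ = (C.rt x).hom ≫ _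
  rw [C.rt_eq_sum, Preadditive.sum_comp]
  refine Finset.sum_congr rfl fun t _ => ?_
  rw [Action.comp_hom, Action.rightUnitor_hom_hom]
  change _ = _ ≫ (R.obj X).V ◁ (TE.map (toPt _ (Ds ι)).hom ≫ η TE) ≫ _
  rw [Category.assoc, Category.assoc, ← MonoidalCategory.whiskerLeft_comp_assoc, Category.assoc,
    ← TE.map_comp_assoc, show dpt t ≫ (toPt (Perm ι) (Ds ι)).hom = 𝟙 _ from dpt_gaug t,
    TE.map_id, Category.id_comp, Functor.Monoidal.ε_η, MonoidalCategory.whiskerLeft_id,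
    Category.id_comp, Iso.inv_hom_id, Category.comp_id]

variable [DecidableEq ι] [Nontrivial ι] [R.Additive] [IsInv (sS SH)] [IsInv (SH.obj (VA ι))]
  [IsInv (TE.obj RR)] {e : ℤˣ}

theorem eq_zero_of_co {x : Y ⟶ X ⊗ SH.obj (DA ι)} (h : ∀ i, C.co i x = 0) : x = 0 := by
  have := Fintype.ofFinite ι
  refine C.inj_tgt sbPt continuous_of_discreteTopology sbPt_smul X Y x (C.rt_eq_zero ?_)
  rw [C.rt_eq_sum]
  exact Finset.sum_eq_zero fun i _ => by rw [h, zero_comp]

include C in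
theorem eq_zero_of_fld (hY : Sg e (R.obj Y)) (hX : Sg e (R.obj X))
    (tf : ∀ c : (R.obj Y).V ⟶ (R.obj X).V, Nat.card ι • c = 0 → c = 0)
    {x : Y ⟶ X ⊗ SH.obj (DA ι)} (hx : x ≫ X ◁ fld SH = 0) : x = 0 := by
  have := Fintype.ofFinite ι
  refine C.eq_zero_of_co fun i => tf _ ?_
  have k : ∀ l, C.co l x = C.co i x := fun l => by
    have := C.co_act (swap i l) i x
    rwa [Equiv.swap_apply_left, ← hY.comm hX, cancel_epi] at this
  have := C.sum_co x
  rwa [Finset.sum_congr rfl fun l _ => k l, Finset.sum_const, reassoc_of% hx, zero_comp,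
    R.map_zero, Finset.card_univ, ← Nat.card_eq_fintype_card] at this

variable (h3 : 3 ≤ Nat.card ι)
include C h3

theorem zr_D (hY : Sg e (R.obj Y)) (hX : Sg (-e) (R.obj X)) : Zr Y (X ⊗ SH.obj (DA ι)) :=
  fun x => C.eq_zero_of_co fun i => by
    obtain ⟨a, ha, b, hb, n⟩ := exists_pair_compl (U := {i}) (by rwa [Set.ncard_singleton])
    have := C.co_act (swap a b) i x
    rw [Equiv.swap_apply_of_ne_of_ne (Ne.symm ha) (Ne.symm hb)] at this
    exact hY.eq_zero (C.two h3) hX n this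

omit h3 in
theorem exists_div {x : Y ⟶ X} (hx : Y ◁ aug SH ≫ (ρ_ Y).hom ≫ x = 0) :
    ∃ y, am (eul SH) Y ≫ y = x := by
  obtain ⟨q, t⟩ := C.trc (pd ι)
  obtain ⟨y, hy⟩ := t.co₁ Y X _ hx
  exact ⟨y, by rw [am, Category.assoc, eul, hy, Iso.inv_hom_id_assoc]⟩

omit h3 in
/-- uniqueness of the division by the Euler class -/
theorem inj_am (k : Zr ((Y ⊗ sS SH) ⊗ SH.obj (AA ι)) X) :
    Function.Injective fun y : Y ⊗ SH.obj (RA ι) ⟶ X => am (eul SH) Y ≫ y := by
  obtain ⟨q, t⟩ := C.trc (pd ι)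
  refine (injective_iff_map_eq_zero (Preadditive.leftComp X (am (eul SH) Y))).2 fun y hy => ?_
  obtain ⟨z, rfl⟩ := t.co₂ Y X y (by
    have : am (eul SH) Y ≫ y = 0 := hy
    rwa [am, Category.assoc, Preadditive.IsIso.comp_left_eq_zero] at this)
  rw [k.of_iso (shuf _ _ _ ≪≫ α_ _ _ _) (Iso.refl _) z, comp_zero]

omit h3 in
/-- existence of the division by the Euler class -/
theorem surj_am (k : Zr (Y ⊗ SH.obj (AA ι)) X) :
    Function.Surjective fun y : Y ⊗ SH.obj (RA ι) ⟶ X => am (eul SH) Y ≫ y :=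
  fun _ => C.exists_div (k _)

/-- A class whose restriction vanishes is divisible by the Euler class. -/
theorem exists_div_one (hY : Sg e (R.obj Y)) (hX : Sg e (R.obj X)) {x : Y ⟶ X}
    (hx : (R.map x).hom = 0) : ∃ y, am (eul SH) Y ≫ y = x := by
  obtain ⟨i⟩ : Nonempty ι := inferInstance
  refine C.exists_div ((C.bij_ev h3 hY hX i).1 ?_)
  rw [← Category.assoc, C.ev_comp, hx, comp_zero]
  exact (map_zero (C.evH (pA i) _ _)).symm

/-- A map out of `Y ⊗ S(ρ)₊` is constant if the signs agree. -/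
theorem eq_of_ev (hY : Sg e (R.obj Y)) (hX : Sg e (R.obj X)) (i : ι)
    {x : Y ⊗ SH.obj (AA ι) ⟶ X} {y : Y ⟶ X} (h : C.ev (pA i) x = (R.map y).hom) :
    x = Y ◁ aug SH ≫ (ρ_ Y).hom ≫ y := by
  refine (C.bij_ev h3 hY hX i).1 ?_
  rw [← Category.assoc, C.ev_comp, aug, C.ev_toPt (pA_toPt i), Category.id_comp, h]

/-- **TW0.** The twisted division is possible if there is no `p`-torsion. -/
theorem tw0 (hW : Sg e (R.obj W)) (hX : Sg (-e) (R.obj X))
    (tf : ∀ c : (R.obj (W ⊗ SH.obj (RA ι))).V ⟶ (R.obj (X ⊗ sS SH)).V,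
      Nat.card ι • c = 0 → c = 0) (x : W ⟶ X) : ∃ y, am (eul SH) W ≫ y = x := by
  obtain ⟨q, t⟩ := C.trc (pd ι)
  refine C.exists_div ?_
  obtain ⟨z, hz⟩ := (C.bij_fld h3 hW hX).2 (W ◁ aug SH ≫ (ρ_ W).hom ≫ x ≫ (ρ_ X).inv)
  have hz' : z ≫ X ◁ fld SH = W ◁ aug SH ≫ (ρ_ W).hom ≫ x ≫ (ρ_ X).inv := hz
  have h1 : W ◁ q ≫ (α_ _ _ _).inv ≫ z ▷ sS SH ≫ (shuf X _ _).inv = 0 := by
    refine C.eq_zero_of_fld (e := -e) (by simpa using sg_tensor hW C.sg_R) (C.sg_shift hX) tf ?_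
    rw [Category.assoc, Category.assoc, Category.assoc, shuf_inv_nat, ← comp_whiskerRight_assoc, hz',
      comp_whiskerRight, Category.assoc, ← associator_inv_naturality_middle_assoc,
      ← MonoidalCategory.whiskerLeft_comp_assoc, aug, t.z₃, MonoidalPreadditive.whiskerLeft_zero,
      zero_comp]
  obtain ⟨w, hw⟩ := t.co₃ W _ _ h1
  have h2 : Zr (W ⊗ 𝟙_ H ⊗ sS SH) ((X ⊗ sS SH) ⊗ SH.obj (DA ι)) :=
    (C.zr_D h3 (C.sg_shift hW) (C.sg_shift hX)).of_iso (whiskerLeftIso W (λ_ _).symm) (Iso.refl _)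
  rw [h2 w, comp_zero, eq_comm, Preadditive.IsIso.comp_left_eq_zero,
    Preadditive.IsIso.comp_right_eq_zero] at hw
  rw [whiskerRight_eq_zero hw, zero_comp, eq_comm, ← Category.assoc, ← Category.assoc,
    Preadditive.IsIso.comp_right_eq_zero, Category.assoc] at hz'
  exact hz'

end Ctx

section cells

variable [DecidableEq ι] {Γ : Type} [AddCommGroup Γ] (c : Cells E (ℤ × Γ))

variable (R) in
/-- the restriction is a cell on which the transpositions act by a sign -/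
structure GC (e : ℤˣ) (d : ℤ × Γ) (W : H) : Prop where
  sg : Sg e (R.obj W)
  cell : Nonempty ((R.obj W).V ≅ c.obj d)

variable {c} {e e' : ℤˣ} {d d' : ℤ × Γ} {l : ℤ} {g : Γ}

theorem GC.of_iso (h : GC R c e d W) (j : W ≅ W') : GC R c e d W' :=
  ⟨h.sg.of_iso (R.mapIso j), h.cell.map fun k =>
    ((Action.forget _ _).mapIso (R.mapIso j)).symm ≪≫ k⟩

theorem GC.tensor (h : GC R c e d W) (h' : GC R c e' d' W') :
    GC R c (e * e') (d + d') (W ⊗ W') := by
  obtain ⟨k⟩ := h.cell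
  obtain ⟨k'⟩ := h'.cell
  exact ⟨Ctx.sg_tensor h.sg h'.sg, ⟨((Action.forget _ _).mapIso
    (Functor.Monoidal.μIso R W W')).symm ≪≫ (k ⊗ᵢ k') ≪≫ c.add _ _⟩⟩

theorem GC.cast (h : GC R c e d W) (h1 : e = e') (h2 : d = d') : GC R c e' d' W :=
  h1 ▸ h2 ▸ h

/-- the powers of a cell -/
def tpowC {X : E} {d : ℤ × Γ} (e : X ≅ c.obj d) : ∀ n : ℕ, P251.H.tpow X n ≅ c.obj (n • d)
  | 0 => c.zero ≪≫ eqToIso (by rw [zero_smul])
  | n + 1 => (e ⊗ᵢ tpowC e n) ≪≫ c.add _ _ ≪≫ eqToIso (by rw [succ_nsmul'])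

variable (C : Ctx SH TE R) (s : TE.obj RR ≅ c.obj (1, 0))
include C s

theorem Ctx.gc_S : GC R c 1 (1, 0) (sS SH) :=
  ⟨C.sg_obj (Sg.of_act fun _ => TE.map_id _), ⟨(Action.forget _ _).mapIso (C.φ _) ≪≫ s⟩⟩

variable [Nontrivial ι] [IsInv (TE.obj RR)]

theorem Ctx.gc_R : GC R c (-1) ((Nat.card ι : ℤ) - 1, 0) (SH.obj (RA ι)) := by
  obtain ⟨i⟩ : Nonempty ι := inferInstance
  refine ⟨C.sg_R, ⟨(Action.forget _ _).mapIso (C.φ _) ≪≫ TE.mapIso (LC.ofHomeo
    (X := (RA ι).V) (Y := LC.of (({i}ᶜ : Set ι) → ℝ)) (chi i)) ≪≫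
      sphIso TE ((Nat.card_coe_set_eq _).trans (ncard_compl_singleton i)) ≪≫ tpowC s _ ≪≫
        eqToIso (congrArg _ ?_)⟩⟩
  have : 0 < Nat.card ι := Nat.card_pos
  simp [pd, Nat.cast_sub this]

/-- propagation along powers of the Euler class -/
theorem Ctx.gc_eu {k : ℕ} {f : W ⟶ W'} (h : Eu (eul SH) k f) (hW : GC R c e (l, g) W) :
    GC R c (e * (-1) ^ k) (l + k * ((Nat.card ι : ℤ) - 1), g) W' := by
  have := h.prop (i := 0) (P := fun i V => GC R c (e * (-1) ^ i)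
    (l + i * ((Nat.card ι : ℤ) - 1), g) V) (fun _ _ _ j k => k.of_iso j)
    (fun i V k => (k.tensor (C.gc_R s)).cast (by rw [pow_succ, mul_assoc]) (by
      simp only [Prod.mk_add_mk, add_zero, Nat.cast_add, Nat.cast_one]
      congr 1
      ring)) (by simpa using hW)
  simpa using this

end cells

end Vale.Agent.P257.Z
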