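import Vale.Agent.P257.Z.Cube
import Vale.Agent.P257.Z.Inst
import Vale.Agent.P257.Z.Tw0
import Vale.Agent.P257.W.World

/-!
# P257, block Z: the cube and its first stage agree over the unit sphere
-/

open CategoryTheory MonoidalCategory Limits

namespace Vale.Agent.P257.Z

open Vale.Agent.P251.H Vale.Agent.P251.H.StabInput
open Vale.Agent.P257.D Vale.Agent.P257.C Vale.Agent.P257.E Vale.Agent.P257.M Vale.Agent.P257.K
open Vale.Agent.P257.W (cE sE SIso van_of_posT)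
open Equiv (Perm)

variable {p : ℕ} {ι : Type} [Finite ι] [Fact p.Prime] [hι : Fact (Nat.card ι = p)]
  [DecidableEq ι] {e e' : ℤˣ} {l T : ℤ} {a : Lam} {W : SC (Dh (Gr.inc O (0 : Gam)) p ι)}
  {X : Action MM (Perm ι)}

theorem gc_tau (d : ℤ × Gam) :
    GC (Rh (Gr.inc O (0 : Gam)) p ι) (cE p) 1 d ((τh _ p ι).obj ((cE p).obj d)) :=
  ⟨(Sg.of_act (Y := (triv _).obj ((cE p).obj d)) fun _ => rfl).of_iso
    ((tauRsA _ _ _).symm.app _), ⟨Iso.refl _⟩⟩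

variable [Nontrivial ι] (h3 : 3 ≤ p) (hW : GC (Rh (Gr.inc O (0 : Gam)) p ι) (cE p) e (l, (a, T)) W)
  (hX : PosT X.V 0) (hs : Sg e' ((Rh (Gr.inc O (0 : Gam)) p ι).obj ((st _).obj X)))
  (hT : T + 2 ≤ p)
include h3 hW hX hs hT

theorem zr_layer {j : ℕ} (hj : 2 ≤ j) : Zr (W ⊗ (SHh _ p ι).obj (AA ι))
    ((st _).obj X ⊗ (st _).obj (RT ι j ⊗ (JA (Perm ι) MM).obj (SA ι False j))) := by
  have C := ctx (Gr.inc O (0 : Gam)) p ι
  have hc := hι.out
  by_cases h : j + 2 ≤ Nat.card ι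
  · have h1 : Sg 1 ((Rh (Gr.inc O (0 : Gam)) p ι).obj ((st _).obj (RT ι j))) :=
      Sg.of_act fun _ => (sE p).map_id _
    exact (C.zr_A_tgt (hc ▸ h3) hj h hW.sg (Ctx.sg_tensor hs h1)).of_iso (Iso.refl _) (α_ _ _ _)
  · obtain ⟨k⟩ := hW.cell
    have h1 : PosT (X.V ⊗ (RT ι j ⊗ (JA (Perm ι) MM).obj (SA ι False j)).V) j :=
      hX.tensor' (supp_RT _) fun _ hp _ hq _ hr =>
        ((zero_add _).ge.trans (add_le_add hp hq.2)).trans hr.2
    refine C.obs fun n _ => Zr.of_iso (W := (cE p).obj ((l, (a, T)) + n • (1, 0)))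
      (van_of_posT h1 ?_ _) ((k ⊗ᵢ tpowC (SIso p) n) ≪≫ (cE p).add _ _).symm (Iso.refl _)
    change T + n • (0 : ℤ) < j
    rw [smul_zero]
    omega

theorem bij_ck {k : ℕ} (h1 : 1 ≤ k) (hk : k ≤ Nat.card ι) :
    L.Bij (W ⊗ (SHh _ p ι).obj (AA ι)) ((st _).obj X ◁ (st _).map (ck ι h1)) := by
  induction k, h1 using Nat.le_induction with
  | base =>
    rw [ck_refl]
    exact L.Bij.of_isIso _ _
  | succ k h1 ih =>
    obtain ⟨Z, hZ, q, hq⟩ := exists_cok (ι := ι) hk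
    obtain ⟨r, t⟩ := tr_SHx _ _ _ (L.scTri_hCof (Dh (Gr.inc O (0 : Gam)) p ι) (hCof_ck hk) hZ hq)
    rw [← ck_ck h1 (Nat.le_succ k), Functor.map_comp, MonoidalCategory.whiskerLeft_comp]
    exact (ih (by omega)).comp (t.post_bijective (zr_layer h3 hW hX hs hT (by omega))
      ((zr_layer (l := l + 1) (a := a) h3 ((hW.tensor ((ctx _ p ι).gc_S (SIso p))).cast rfl
        (by simp)) hX hs hT (by omega)).of_iso (shuf _ _ _) (Iso.refl _)))

/-- **CB** -/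
theorem bij_cb : L.Bij ((st _).obj ((JA (Perm ι) MM).obj (AA ι)) ⊗ W)
    ((st (Dh (Gr.inc O (0 : Gam)) p ι)).map (X ◁ cb ι)) := by
  rw [cb_eq, MonoidalCategory.whiskerLeft_comp, Functor.map_comp]
  exact (L.Bij.of_isIso _ _).comp ((bij_ck h3 hW hX hs hT Nat.card_pos le_rfl).of_iso (β_ _ _))

omit hW in
/-- **CB** for non-equivariant cells -/
theorem bij_cb_tau (l : ℤ) (a : Lam) :
    L.Bij ((st _).obj ((JA (Perm ι) MM).obj (AA ι)) ⊗ (τh _ p ι).obj ((cE p).obj (l, (a, T))))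
      ((st (Dh (Gr.inc O (0 : Gam)) p ι)).map (X ◁ cb ι)) :=
  bij_cb h3 (gc_tau _) hX hs hT

end Vale.Agent.P257.Z
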