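import Vale.Agent.P257.Z.Base

/-!
# P257, block Z: transfers and the twisted case

* `exists_tau`: the stable transfer `τ : 𝟙 ⟶ ι₊`; `bij_tau`, `tau_fld`;
* `bij_gπ`, `zr_F`, `bij_fld`: the signs are opposite.
-/

open CategoryTheory MonoidalCategory Limits Topology OnePoint
open Functor.LaxMonoidal Functor.OplaxMonoidal

namespace Vale.Agent.P257.Z

open Vale.Agent.P257.E Vale.Agent.P257.C
open Vale.Agent.P251.G (LC)
open Vale.Agent.P251.G.LC (RR II HH app smash incl)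
open Vale.Agent.P251.M (IsInv whiskerRight_bijective)
open Equiv (Perm swap)

universe v u v' u'

variable {ι : Type} [Finite ι] {H : Type u} [Category.{v} H] [Preadditive H] [MonoidalCategory H]
  [SymmetricCategory H] [MonoidalPreadditive H] {E : Type u'} [Category.{v'} E] [Preadditive E]
  [MonoidalCategory E] [SymmetricCategory E] [MonoidalPreadditive E]
  {SH : Action LC (Perm ι) ⥤ H} [SH.Braided] {TE : LC ⥤ E} [TE.Braided]
  {R : H ⥤ Action E (Perm ι)} [R.Braided] {W X X' Y : H} {K L : Action LC (Perm ι)} {j : ℕ}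

variable (SH) in
/-- the fold map -/
noncomputable def fld : SH.obj (DA ι) ⟶ 𝟙_ H := SH.map (toPt _ (Ds ι)) ≫ η SH

variable (SH) in
/-- the augmentation of the unit sphere -/
noncomputable def aug : SH.obj (AA ι) ⟶ 𝟙_ H := SH.map (toPt _ (Fl ι True (pd ι))) ≫ η SH

omit [Preadditive E] [MonoidalPreadditive E] in
theorem dpr_aux {X : E} {D K : LC} (c : D ⟶ 𝟙_ LC) :
    (X ◁ (δ TE D K ≫ (β_ _ _).hom) ≫ (α_ _ _ _).inv) ≫ (X ⊗ TE.obj K) ◁ (TE.map c ≫ η TE) ≫
      (ρ_ _).hom = X ◁ TE.map (c ▷ K ≫ (λ_ K).hom) := by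
  rw [Category.assoc, ← associator_inv_naturality_right_assoc, ← whiskerLeft_rightUnitor,
    ← MonoidalCategory.whiskerLeft_comp, ← MonoidalCategory.whiskerLeft_comp, Category.assoc,
    ← BraidedCategory.braiding_naturality_left_assoc, braiding_rightUnitor, comp_whiskerRight,
    Category.assoc, δ_natural_left_assoc, TE.map_comp, Functor.Monoidal.map_leftUnitor]

namespace Ctx

variable (C : Ctx SH TE R)

/-- stable transfers -/
def IsTau [Fintype ι] (τ : 𝟙_ H ⟶ SH.obj (DA ι)) : Prop :=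
  ∀ X : H, (R.map ((ρ_ X).inv ≫ X ◁ τ)).hom ≫ (C.cl X (DA ι)).inv.hom =
    ∑ t : ι, (ρ_ _).inv ≫ (R.obj X).V ◁ (ε TE ≫ TE.map (dpt t))

omit [MonoidalPreadditive H] [MonoidalPreadditive E] in
theorem map_counit (X : H) (a : K ⟶ 𝟙_ _) : R.map (X ◁ (SH.map a ≫ η SH) ≫ (ρ_ X).hom) =
    (C.cl X K).inv ≫ R.obj X ◁ ((mapA TE _).map a ≫ η (mapA TE _)) ≫ (ρ_ _).hom := by
  rw [Iso.eq_inv_comp, MonoidalCategory.whiskerLeft_comp, Category.assoc, R.map_comp,
    C.cl_right_assoc, C.und_map, MonoidalCategory.whiskerLeft_comp, Category.assoc]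
  refine congrArg (_ ≫ ·) ?_
  rw [← cancel_epi (R.obj X ◁ ε (mapA TE _)), ← cancel_epi (ρ_ _).inv, C.cl_unit_assoc,
    ← R.map_comp, Category.assoc, ← MonoidalCategory.whiskerLeft_comp_assoc,
    ← MonoidalCategory.whiskerLeft_comp_assoc, Functor.Monoidal.ε_η, Functor.Monoidal.ε_η,
    MonoidalCategory.whiskerLeft_id, MonoidalCategory.whiskerLeft_id, Category.id_comp,
    Category.id_comp, Iso.inv_hom_id, Iso.inv_hom_id, R.map_id]

omit [MonoidalPreadditive H] in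
theorem exists_tau [Fintype ι] [IsInv (SH.obj (VA ι))] [IsInv (TE.obj RR)] :
    ∃ τ, C.IsTau τ := by
  obtain ⟨τ, hτ⟩ := C.exists_desusp (VA ι) ((ρ_ _).hom ≫ (codPt ι).pt)
  have h := comp_eq_sum C.sph (codPt ι) hτ (p := 𝟙 _) (e := 𝟙 _) (by
    rw [Action.comp_hom, Action.rightUnitor_hom_hom]
    exact (congrArg (· ≫ _) (MonoidalCategory.whiskerLeft_id _ _)).trans ((Category.id_comp _).trans
      (congrArg (_ ≫ ·) ((Category.comp_id _).symm.trans
        (congrArg (_ ≫ ·) (MonoidalCategory.whiskerLeft_id _ _).symm)))))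
  refine ⟨ε SH ≫ τ, fun X => ?_⟩
  have k : R.map ((ρ_ X).inv ≫ X ◁ (ε SH ≫ τ)) ≫ (C.cl X (DA ι)).inv =
      (ρ_ _).inv ≫ R.obj X ◁ (ε (mapA TE _) ≫ C.und τ) := by
    rw [MonoidalCategory.whiskerLeft_comp, ← Category.assoc (ρ_ X).inv, R.map_comp, ← C.cl_unit,
      Category.assoc, Category.assoc, Category.assoc, C.cl_right_assoc, Iso.hom_inv_id,
      Category.comp_id, MonoidalCategory.whiskerLeft_comp]
  have k' := congrArg Action.Hom.hom k
  rw [Action.comp_hom, Action.comp_hom, Action.rightUnitor_inv_hom] at k'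
  rw [TE.map_id, Category.id_comp] at h
  rw [k', ← Preadditive.comp_sum, ← whiskerLeft_sum, ← Preadditive.comp_sum]
  simp only [Category.comp_id] at h
  rw [← h]
  rfl

variable [DecidableEq ι] [Nontrivial ι] [R.Additive] [IsInv (sS SH)] [IsInv (SH.obj (VA ι))]
  [IsInv (TE.obj RR)] (h3 : 3 ≤ Nat.card ι) {e : ℤˣ}
include h3

/-- the transfer is bijective if the signs agree -/
theorem bij_tau [Fintype ι] {τ : 𝟙_ H ⟶ SH.obj (DA ι)} (hτ : C.IsTau τ) (hY : Sg e (R.obj Y))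
    (hX : Sg e (R.obj X)) :
    Function.Bijective fun x : Y ⊗ SH.obj (AA ι) ⟶ X => x ≫ (ρ_ X).inv ≫ X ◁ τ := by
  obtain ⟨i⟩ : Nonempty ι := inferInstance
  refine C.bij_post h3 hY hX i (k := atCo TE (dco i) (C.cl X (DA ι)).inv.hom) ?_ fun x hx =>
    C.inj_co h3 hY hX i i x (by rw [← hx, atCo, atCo, Category.assoc])
  rw [atCo, reassoc_of% hτ X, Preadditive.sum_comp, Finset.sum_eq_single i _ (by simp),
    Category.assoc, ← MonoidalCategory.whiskerLeft_comp_assoc, Category.assoc,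
    ← TE.map_comp_assoc, dpt_dco, TE.map_id, Category.id_comp, Functor.Monoidal.ε_η,
    MonoidalCategory.whiskerLeft_id, Category.id_comp, Iso.inv_hom_id]
  intro t _ ht
  rw [Category.assoc, ← MonoidalCategory.whiskerLeft_comp_assoc, Category.assoc,
    ← TE.map_comp_assoc, dpt_dco_ne ht.symm, C.sph.zero, zero_comp, comp_zero,
    MonoidalPreadditive.whiskerLeft_zero, zero_comp, comp_zero]

/-- the transfer followed by the fold map is the multiplication by the cardinality -/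
theorem tau_fld [Fintype ι] {τ : 𝟙_ H ⟶ SH.obj (DA ι)} (hτ : C.IsTau τ) :
    aug SH ≫ τ ≫ fld SH = Nat.card ι • aug SH := by
  obtain ⟨i⟩ : Nonempty ι := inferInstance
  have h1 : Sg 1 (R.obj (𝟙_ H)) :=
    (Sg.of_act (Y := 𝟙_ _) fun _ => rfl).of_iso (Functor.Monoidal.εIso R)
  have h2 : (R.map (((ρ_ _).inv ≫ 𝟙_ H ◁ τ) ≫ 𝟙_ H ◁ fld SH ≫ (ρ_ _).hom)).hom =
      Nat.card ι • 𝟙 _ := by
    rw [R.map_comp, fld, C.map_counit, Action.comp_hom, Action.comp_hom, reassoc_of% hτ,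
      Preadditive.sum_comp, Nat.card_eq_fintype_card, ← Finset.card_univ, ← Finset.sum_const]
    refine Finset.sum_congr rfl fun t _ => ?_
    rw [Action.comp_hom, Action.rightUnitor_hom_hom]
    change (_ ≫ _) ≫ (R.obj (𝟙_ H)).V ◁ (TE.map (toPt _ (Ds ι)).hom ≫ η TE) ≫ _ = _
    rw [Category.assoc, ← MonoidalCategory.whiskerLeft_comp_assoc, Category.assoc,
      ← TE.map_comp_assoc, show dpt t ≫ (toPt (Perm ι) (Ds ι)).hom = 𝟙 _ from dpt_gaug t,
      TE.map_id, Category.id_comp, Functor.Monoidal.ε_η, MonoidalCategory.whiskerLeft_id,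
      Category.id_comp, Iso.inv_hom_id]
  have h4 := (C.bij_ev h3 h1 h1 i).1 (a₁ := (𝟙_ H ◁ aug SH ≫ (ρ_ _).hom) ≫
      ((ρ_ _).inv ≫ 𝟙_ H ◁ τ) ≫ 𝟙_ H ◁ fld SH ≫ (ρ_ _).hom)
    (a₂ := Nat.card ι • (𝟙_ H ◁ aug SH ≫ (ρ_ _).hom)) (by
      rw [C.ev_comp, h2, Preadditive.comp_nsmul, Category.comp_id]
      exact (map_nsmul (C.evH (pA i) _ _) _ _).symm)
  rw [← cancel_epi (λ_ _).hom, Preadditive.comp_nsmul]
  simpa [← unitors_inv_equal, ← unitors_equal] using h4

include C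

theorem bij_tr (hY : Sg e (R.obj Y)) (hX : Sg (-e) (R.obj X)) : Function.Bijective
    fun x : Y ⊗ SH.obj (AA ι) ⟶ X ⊗ SH.obj (RA ι) => x ≫ X ◁ SH.map (tr ι) := by
  obtain ⟨i⟩ : Nonempty ι := inferInstance
  have h1 : Sg e (R.obj X ⊗ (mapA TE _).obj (RA ι)) := by
    simpa only [mul_neg_one, neg_neg] using hX.tensor (sg_RA C.sph)
  refine C.bij_post h3 hY (h1.of_iso (C.cl X _)) i (k := (C.cl X _).inv.hom ≫
    (R.obj X).V ◁ TE.map (dpr i (RA ι).V) ≫ (C.cl X (RA ι)).hom.hom) ?_ fun x hx => ?_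
  · have k := congrArg Action.Hom.hom (C.rt_post (𝟙 (X ⊗ SH.obj (RA ι))) (SH.map (tr ι)))
    rw [rt, rt, Category.id_comp, R.map_id, Category.id_comp, Action.comp_hom, Action.comp_hom,
      C.und_map] at k
    rw [reassoc_of% k]
    change _ ≫ (R.obj X).V ◁ TE.map (tr ι).hom ≫ _ = _
    rw [← MonoidalCategory.whiskerLeft_comp_assoc, ← TE.map_comp, ← C.sph.htpy (homotopic_tr i),
      TE.map_id, MonoidalCategory.whiskerLeft_id, Category.id_comp, ← Action.comp_hom,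
      Iso.inv_hom_id, Action.id_hom]
  · refine (C.coInj_St one_le_pd le_rfl X).of_iso (whiskerLeftIso X (SH.mapIso (trIso ι))) _ x
      (C.rs_eq_zero ?_)
    let r := (R.obj X ◁ (δ (mapA TE _) (DA ι) (RA ι) ≫ (β_ _ _).hom) ≫ (α_ _ _ _).inv)
    have hr : r.hom = (R.obj X).V ◁ (δ TE (DA ι).V (RA ι).V ≫ (β_ _ _).hom) ≫ (α_ _ _ _).inv := by
      rw [Action.comp_hom, Action.associator_inv_hom, Action.whiskerLeft_hom, Action.comp_hom,
        Action.β_hom_hom]
      rfl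
    have k := eq_zero_of_comp C.sph (C.two h3) h3 C.cone hY h1 (C.rs x ≫ (C.cl X _).inv ≫ r)
      (pA_toPt i) i (by
        rw [← Category.assoc, ← Category.assoc (C.ev _ _ ≫ _),
          Preadditive.IsIso.comp_right_eq_zero, dpr_eq, ← dpr_aux, ev, atPt, Category.assoc,
          Category.assoc, Category.assoc, Preadditive.IsIso.comp_left_eq_zero] at hx
        rw [← cancel_mono (ρ_ _).hom, zero_comp, ← hx, Action.comp_hom, Action.comp_hom, hr]
        simp only [Category.assoc]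
        rfl)
    rw [← Category.assoc, Action.comp_hom, hr, ← Category.assoc,
      Preadditive.IsIso.comp_right_eq_zero, Preadditive.IsIso.comp_right_eq_zero, Action.comp_hom,
      Preadditive.IsIso.comp_right_eq_zero] at k
    exact k

theorem bij_gπ (hj : j = pd ι) (hY : Sg e (R.obj Y)) (hX : Sg (-e) (R.obj X)) : Function.Bijective
    fun x : Y ⊗ SH.obj (AA ι) ⟶ X ⊗ SH.obj (FA ι False j) => x ≫ X ◁ SH.map (gπ ι False j) := by
  subst hj
  have k := ((isIso_iff_yoneda_map_bijective (X ◁ SH.map (trIso ι).hom)).1 inferInstance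
    (Y ⊗ SH.obj (AA ι))).comp (C.bij_tr h3 hY hX)
  simpa only [Function.comp_def, Category.assoc, ← MonoidalCategory.whiskerLeft_comp,
    ← SH.map_comp, tr, Iso.inv_hom_id, Category.comp_id] using k

/-- twisted vanishing -/
theorem zr_F (h1 : 1 ≤ j) (h2 : j + 2 ≤ Nat.card ι) (hY : Sg e (R.obj Y))
    (hX : Sg (-e) (R.obj X)) : Zr (Y ⊗ SH.obj (AA ι)) (X ⊗ SH.obj (FA ι False j)) := by
  obtain ⟨n, hn⟩ := Nat.exists_eq_add_of_le h2
  induction n generalizing j with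
  | zero =>
    obtain ⟨q, t⟩ := C.trι False j
    have hj : j + 1 = pd ι := by unfold pd; omega
    refine t.zr_left' (fun f hf => (C.bij_gπ h3 hj hY hX).1 (hf.trans zero_comp.symm)) fun f => ?_
    obtain ⟨g, hg⟩ := (C.bij_gπ h3 hj (C.sg_shift hY) hX).2 ((shuf _ _ _).hom ≫ f)
    exact ⟨(shuf _ _ _).inv ≫ g, by rw [Category.assoc, Iso.inv_comp_eq]; exact hg⟩
  | succ n ih =>
    obtain ⟨q, t⟩ := C.trι False j
    exact t.zr_left (ih (by omega) (by omega) (by omega))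
      ((C.zr_A_tgt h3 (by omega) (by omega) (C.sg_shift hY) hX).of_iso (shuf _ _ _) (Iso.refl _))

/-- the fold map is bijective if the signs are opposite -/
theorem bij_fld (hY : Sg e (R.obj Y)) (hX : Sg (-e) (R.obj X)) : Function.Bijective
    fun x : Y ⊗ SH.obj (AA ι) ⟶ X ⊗ SH.obj (DA ι) => x ≫ X ◁ fld SH := by
  obtain ⟨q, t⟩ := C.trc 1
  have k := (t.post_bijective (C.zr_F h3 le_rfl h3 hY hX)
    ((C.zr_F h3 le_rfl h3 (C.sg_shift hY) hX).of_iso (shuf _ _ _) (Iso.refl _))).comp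
    ((isIso_iff_yoneda_map_bijective (X ◁ SH.map (vtx ι).hom)).1 inferInstance
      (Y ⊗ SH.obj (AA ι)))
  simpa only [Function.comp_def, Category.assoc, ← MonoidalCategory.whiskerLeft_comp,
    ← SH.map_comp_assoc, vtx_toPt, fld] using k

end Ctx

end Vale.Agent.P257.Z
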