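import Vale.Agent.P257.Z.Van

/-!
# P257, block Z: the context of the base lemma

`H` is an equivariant stable category, `E` the underlying one, `R : H ⥤ Action E G` the
restriction, `SH`, `TE` the suspension spectra.

* `C.rs x`, `C.rt x`: restrictions of maps out of, into, a product with a `G`-space;
* `C.ev p x`: evaluation at a point;
* `Inj`, `CoInj`: the restriction is injective on maps out of, into, an object.
-/

open CategoryTheory MonoidalCategory Limits Topology OnePoint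
open Functor.LaxMonoidal Functor.OplaxMonoidal

namespace Vale.Agent.P257.Z

open Vale.Agent.P257.E Vale.Agent.P257.C
open Vale.Agent.P251.G (LC)
open Vale.Agent.P251.G.LC (RR II HH app smash incl)
open Vale.Agent.P251.M (IsInv whiskerRight_bijective)
open Equiv (Perm swap)

universe v u v' u'

variable {ι : Type} [Finite ι] {H : Type u} [Category.{v} H] [Preadditive H] [MonoidalCategory H]
  [SymmetricCategory H] {E : Type u'} [Category.{v'} E] [Preadditive E] [MonoidalCategory E]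
  [SymmetricCategory E]

/-- the value of a map out of `Y ⊗ T K` at a point of `K` -/
def atPt (T : LC ⥤ E) [T.Monoidal] {Y X : E} {K : LC} (p : 𝟙_ LC ⟶ K) (r : Y ⊗ T.obj K ⟶ X) :
    Y ⟶ X := (ρ_ Y).inv ≫ Y ◁ (ε T ≫ T.map p) ≫ r

/-- the component of a map to `X ⊗ T K` -/
def atCo (T : LC ⥤ E) [T.Monoidal] {Y X : E} {K : LC} (c : K ⟶ 𝟙_ LC) (r : Y ⟶ X ⊗ T.obj K) :
    Y ⟶ X := r ≫ X ◁ (T.map c ≫ η T) ≫ (ρ_ X).hom

variable (SH : Action LC (Perm ι) ⥤ H) [SH.Braided] (TE : LC ⥤ E) [TE.Braided]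
  (R : H ⥤ Action E (Perm ι)) [R.Braided]

/-- the circle -/
abbrev sS : H := SH.obj ((triv _).obj RR)

/-- the context of the base lemma -/
structure Ctx where
  /-- the comparison of the suspension spectra -/
  φ : ∀ K, R.obj (SH.obj K) ≅ (mapA TE _).obj K
  nat : ∀ {K L : Action LC (Perm ι)} (k : K ⟶ L),
    R.map (SH.map k) ≫ (φ L).hom = (φ K).hom ≫ (mapA TE _).map k
  unit : ε R ≫ R.map (ε SH) ≫ (φ _).hom = ε (mapA TE _)
  tens : ∀ K L, μ R _ _ ≫ R.map (μ SH K L) ≫ (φ _).hom =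
    ((φ K).hom ⊗ₘ (φ L).hom) ≫ μ (mapA TE _) K L
  sph : SphFun TE
  htpy : ∀ {K L : Action LC (Perm ι)} {f g : K ⟶ L}, GHtpy f g → SH.map f = SH.map g
  zero : ∀ K L : Action LC (Perm ι), SH.map (0 : K ⟶ L) = 0
  div : ∀ m : ℕ, 0 < m → m < Nat.card ι → ∀ A : E, ∃ g : A ⟶ A, m • g = 𝟙 A
  trι : ∀ c j, ∃ q, Tr (sS SH) (SH.map (gι ι c (Nat.le_succ j))) (SH.map (gπ ι c (j + 1))) q
  trc : ∀ j, ∃ q, Tr (sS SH) (SH.map (toPt _ (Fl ι True j)) ≫ η SH) (ε SH ≫ SH.map (zro ι j)) q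
  cone : CoEx (TE.map (cq ι (pd ι)).hom ≫ δ TE (AA ι).V RR)
    ((TE.map (toPt _ (Fl ι True (pd ι))).hom ≫ η TE) ▷ TE.obj RR)
  t0 : ∀ (Y X : H) (x : Y ⊗ SH.obj (gds _ (Sb ι)) ⟶ X), R.map x = 0 → x = 0
  t1 : ∀ (Y X : H) (f : (R.obj Y).V ⟶ (R.obj X).V), ∃ x : Y ⊗ SH.obj (gds _ (Perm ι)) ⟶ X,
    atPt TE (dpt 1) ((R.obj Y ◁ (φ _).inv ≫ μ R _ _) ≫ R.map x).hom = f

/-- the restriction is injective on maps out of `W` -/
def Inj (W : H) : Prop := ∀ (X : H) (x : W ⟶ X), R.map x = 0 → x = 0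

/-- the restriction is injective on maps to `W` -/
def CoInj (W : H) : Prop := ∀ (Y : H) (x : Y ⟶ W), R.map x = 0 → x = 0

variable {SH TE R} {W W' X X' Y Y' : H} {K L : Action LC (Perm ι)}

omit [Finite ι] [MonoidalCategory H] [SymmetricCategory H] [MonoidalCategory E]
  [SymmetricCategory E] [R.Braided] in
theorem Inj.of_retract (h : Inj R W) (i : W' ⟶ W) (r : W ⟶ W') (e : i ≫ r = 𝟙 _) : Inj R W' :=
  fun X x hx => by
    rw [← Category.id_comp x, ← e, Category.assoc, h X (r ≫ x) (by rw [R.map_comp, hx, comp_zero]),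
      comp_zero]

omit [Finite ι] [MonoidalCategory H] [SymmetricCategory H] [MonoidalCategory E]
  [SymmetricCategory E] [R.Braided] in
theorem Inj.of_iso (h : Inj R W) (e : W' ≅ W) : Inj R W' := h.of_retract e.hom e.inv e.hom_inv_id

omit [Finite ι] [MonoidalCategory H] [SymmetricCategory H] [MonoidalCategory E]
  [SymmetricCategory E] [R.Braided] in
theorem CoInj.of_iso (h : CoInj R W) (e : W' ≅ W) : CoInj R W' := fun Y x hx => by
  rw [← cancel_mono e.hom, zero_comp]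
  exact h Y _ (by rw [R.map_comp, hx, zero_comp])

namespace Ctx

variable (C : Ctx SH TE R)

/-- the restriction of a product with a `G`-space -/
noncomputable def cl (Y : H) (K : Action LC (Perm ι)) :
    R.obj Y ⊗ (mapA TE _).obj K ≅ R.obj (Y ⊗ SH.obj K) :=
  whiskerLeftIso _ (C.φ K).symm ≪≫ Functor.Monoidal.μIso R _ _

/-- the underlying map of a stable map of `G`-spaces -/
noncomputable def und (τ : SH.obj K ⟶ SH.obj L) : (mapA TE _).obj K ⟶ (mapA TE _).obj L :=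
  (C.φ K).inv ≫ R.map τ ≫ (C.φ L).hom

/-- the restriction of a map out of a product with a `G`-space -/
noncomputable def rs (x : Y ⊗ SH.obj K ⟶ X) : R.obj Y ⊗ (mapA TE _).obj K ⟶ R.obj X :=
  (C.cl Y K).hom ≫ R.map x

/-- the restriction of a map to a product with a `G`-space -/
noncomputable def rt (x : Y ⟶ X ⊗ SH.obj K) : R.obj Y ⟶ R.obj X ⊗ (mapA TE _).obj K :=
  R.map x ≫ (C.cl X K).inv

/-- evaluation at a point -/
noncomputable def ev (p : 𝟙_ LC ⟶ K.V) (x : Y ⊗ SH.obj K ⟶ X) : (R.obj Y).V ⟶ (R.obj X).V :=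
  atPt TE p (C.rs x).hom

theorem cl_hom (Y : H) (K : Action LC (Perm ι)) :
    (C.cl Y K).hom = R.obj Y ◁ (C.φ K).inv ≫ μ R _ _ := rfl

theorem und_map (k : K ⟶ L) : C.und (SH.map k) = (mapA TE _).map k := by
  rw [und, C.nat, Iso.inv_hom_id_assoc]

@[reassoc]
theorem cl_left (f : Y ⟶ Y') (K : Action LC (Perm ι)) :
    (C.cl Y K).hom ≫ R.map (f ▷ SH.obj K) = R.map f ▷ _ ≫ (C.cl Y' K).hom := by
  rw [cl_hom, cl_hom, Category.assoc, ← μ_natural_left, whisker_exchange_assoc]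

@[reassoc]
theorem cl_right (Y : H) (τ : SH.obj K ⟶ SH.obj L) :
    (C.cl Y K).hom ≫ R.map (Y ◁ τ) = R.obj Y ◁ C.und τ ≫ (C.cl Y L).hom := by
  rw [cl_hom, cl_hom, Category.assoc, ← μ_natural_right, und,
    ← MonoidalCategory.whiskerLeft_comp_assoc, ← MonoidalCategory.whiskerLeft_comp_assoc,
    Category.assoc, Category.assoc, Iso.hom_inv_id, Category.comp_id]

@[reassoc]
theorem cl_unit (Y : H) : (ρ_ (R.obj Y)).inv ≫ R.obj Y ◁ ε (mapA TE _) ≫ (C.cl Y _).hom =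
    R.map ((ρ_ Y).inv ≫ Y ◁ ε SH) := by
  rw [cl_hom, ← C.unit, ← MonoidalCategory.whiskerLeft_comp_assoc, Category.assoc, Category.assoc,
    Iso.hom_inv_id, Category.comp_id, MonoidalCategory.whiskerLeft_comp, Category.assoc,
    μ_natural_right, R.map_comp, right_unitality_inv_assoc]

theorem rs_eq_zero {x : Y ⊗ SH.obj K ⟶ X} (h : (C.rs x).hom = 0) : R.map x = 0 := by
  rw [← cancel_epi (C.cl Y K).hom, comp_zero]
  exact Action.hom_ext _ _ h

theorem rt_eq_zero {x : Y ⟶ X ⊗ SH.obj K} (h : (C.rt x).hom = 0) : R.map x = 0 := by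
  rw [← cancel_mono (C.cl X K).inv, zero_comp]
  exact Action.hom_ext _ _ h

theorem rs_pre (τ : SH.obj K ⟶ SH.obj L) (x : Y ⊗ SH.obj L ⟶ X) :
    C.rs (Y ◁ τ ≫ x) = R.obj Y ◁ C.und τ ≫ C.rs x := by
  rw [rs, rs, R.map_comp, cl_right_assoc]

theorem rt_post (x : Y ⟶ X ⊗ SH.obj K) (τ : SH.obj K ⟶ SH.obj L) :
    C.rt (x ≫ X ◁ τ) = C.rt x ≫ R.obj X ◁ C.und τ := by
  rw [rt, rt, R.map_comp, Category.assoc, Category.assoc, Iso.eq_inv_comp _ |>.2 (C.cl_right X τ),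
    Category.assoc, Category.assoc, Iso.hom_inv_id, Category.comp_id]

theorem ev_pre (p : 𝟙_ LC ⟶ K.V) (τ : SH.obj K ⟶ SH.obj L) (x : Y ⊗ SH.obj L ⟶ X) :
    C.ev p (Y ◁ τ ≫ x) = (ρ_ _).inv ≫ (R.obj Y).V ◁ (ε TE ≫ TE.map p ≫ (C.und τ).hom) ≫
      (C.rs x).hom := by
  rw [ev, rs_pre, atPt, ← Category.assoc (ε TE), MonoidalCategory.whiskerLeft_comp (R.obj Y).V _
    (C.und τ).hom, Category.assoc]
  rfl

theorem ev_map (p : 𝟙_ LC ⟶ K.V) (k : K ⟶ L) (x : Y ⊗ SH.obj L ⟶ X) :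
    C.ev p (Y ◁ SH.map k ≫ x) = C.ev (p ≫ k.hom) x := by
  rw [ev_pre, und_map, ev, atPt, TE.map_comp]
  rfl

theorem ev_comp (p : 𝟙_ LC ⟶ K.V) (x : Y ⊗ SH.obj K ⟶ X) (f : X ⟶ X') :
    C.ev p (x ≫ f) = C.ev p x ≫ (R.map f).hom := by
  rw [ev, ev, rs, rs, atPt, atPt, R.map_comp, ← Category.assoc (C.cl Y K).hom, Action.comp_hom,
    Category.assoc, Category.assoc]

theorem ev_left (p : 𝟙_ LC ⟶ K.V) (f : Y' ⟶ Y) (x : Y ⊗ SH.obj K ⟶ X) :
    C.ev p (f ▷ _ ≫ x) = (R.map f).hom ≫ C.ev p x := by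
  rw [ev, ev, rs, rs, atPt, atPt, R.map_comp, cl_left_assoc, rightUnitor_inv_naturality_assoc,
    ← whisker_exchange_assoc]
  rfl

theorem ev_act (p : 𝟙_ LC ⟶ K.V) (x : Y ⊗ SH.obj K ⟶ X) (g : Perm ι) :
    act (R.obj Y) g ≫ C.ev (p ≫ act K g) x = C.ev p x ≫ act (R.obj X) g := by
  have k : (act (R.obj Y) g ⊗ₘ TE.map (act K g)) ≫ (C.rs x).hom =
    (C.rs x).hom ≫ act (R.obj X) g := act_comm (C.rs x) g
  rw [ev, ev, atPt, atPt, Category.assoc, Category.assoc, ← k, rightUnitor_inv_naturality_assoc,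
    ← tensorHom_def_assoc, whiskerLeft_comp_tensorHom_assoc, TE.map_comp, Category.assoc]

theorem ev_toPt {p : 𝟙_ LC ⟶ K.V} {a : K ⟶ 𝟙_ _} (h : p ≫ a.hom = 𝟙 _) (Y : H) :
    C.ev p (Y ◁ (SH.map a ≫ η SH) ≫ (ρ_ Y).hom) = 𝟙 _ := by
  have k := congrArg Action.Hom.hom (C.cl_unit_assoc Y (R.map (Y ◁ η SH ≫ (ρ_ Y).hom)))
  rw [← R.map_comp, Category.assoc, ← MonoidalCategory.whiskerLeft_comp_assoc,
    Functor.Monoidal.ε_η, MonoidalCategory.whiskerLeft_id, Category.id_comp, Iso.inv_hom_id,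
    R.map_id] at k
  rw [MonoidalCategory.whiskerLeft_comp, Category.assoc, ev_map, h, ev, atPt, TE.map_id,
    Category.comp_id]
  rw [Action.comp_hom, Action.rightUnitor_inv_hom] at k
  exact k

include C in
theorem sg_obj {e : ℤˣ} [DecidableEq ι] (h : Sg e ((mapA TE _).obj K)) :
    Sg e (R.obj (SH.obj K)) := h.of_iso (C.φ K).symm

/-- desuspension -/
theorem exists_desusp (V : Action LC (Perm ι)) [IsInv (SH.obj V)] (t : V ⊗ K ⟶ V ⊗ L) :
    ∃ τ : SH.obj K ⟶ SH.obj L, TE.obj V.V ◁ (C.und τ).hom =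
      μ TE V.V K.V ≫ TE.map t.hom ≫ δ TE V.V L.V := by
  obtain ⟨τ, hτ⟩ := (tensorLeft (SH.obj V)).map_surjective (μ SH V K ≫ SH.map t ≫ δ SH V L)
  refine ⟨τ, ?_⟩
  have h1 : SH.obj V ◁ τ ≫ μ SH V L = μ SH V K ≫ SH.map t := by
    rw [show SH.obj V ◁ τ = _ from hτ]
    simp
  have h2 : (mapA TE _).obj V ◁ C.und τ ≫ μ (mapA TE _) V L =
      μ (mapA TE _) V K ≫ (mapA TE _).map t := by
    rw [← cancel_epi ((C.φ V).hom ⊗ₘ (C.φ K).hom), ← reassoc_of% C.tens, ← C.nat,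
      ← R.map_comp_assoc, ← h1, R.map_comp_assoc, ← μ_natural_right_assoc, C.tens,
      tensorHom_comp_whiskerLeft_assoc, whiskerLeft_comp_tensorHom_assoc, und,
      Iso.hom_inv_id_assoc]
  have h3 : TE.obj V.V ◁ (C.und τ).hom ≫ μ TE V.V L.V = μ TE V.V K.V ≫ TE.map t.hom :=
    congrArg Action.Hom.hom h2
  rw [← reassoc_of% h3, Functor.Monoidal.μ_δ, Category.comp_id]

variable [R.Additive] [MonoidalPreadditive H] [MonoidalPreadditive E]

/-- evaluation as a homomorphism -/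
noncomputable def evH (p : 𝟙_ LC ⟶ K.V) (Y X : H) :
    (Y ⊗ SH.obj K ⟶ X) →+ ((R.obj Y).V ⟶ (R.obj X).V) :=
  AddMonoidHom.mk' (C.ev p) fun x y => by
    rw [ev, ev, ev, rs, rs, rs, atPt, atPt, atPt, R.map_add, Preadditive.comp_add, Action.add_hom,
      Preadditive.comp_add, Preadditive.comp_add]

omit [R.Additive] [MonoidalPreadditive H] in
theorem eq_zero_of_ev {T : Type} [Finite T] [MulAction (Perm ι) T]
    {x : Y ⊗ SH.obj (gds _ T) ⟶ X} (h : ∀ t, C.ev (dpt t) x = 0) : R.map x = 0 := by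
  have := Fintype.ofFinite T
  refine C.rs_eq_zero ?_
  rw [← Category.id_comp (C.rs x).hom]
  change 𝟙 ((R.obj Y).V ⊗ TE.obj (dsp T)) ≫ _ = 0
  rw [← MonoidalCategory.whiskerLeft_id, ← sum_dco C.sph, whiskerLeft_sum, Preadditive.sum_comp]
  refine Finset.sum_eq_zero fun t _ => ?_
  have k := h t
  rw [ev, atPt, ← cancel_epi (ρ_ _).hom, Iso.hom_inv_id_assoc,
    ← cancel_epi ((R.obj Y).V ◁ η TE), ← MonoidalCategory.whiskerLeft_comp_assoc,
    Functor.Monoidal.η_ε_assoc, comp_zero, comp_zero] at k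
  rw [TE.map_comp, MonoidalCategory.whiskerLeft_comp, Category.assoc, k, comp_zero]

section inj

variable {T : Type} [TopologicalSpace T] [LocallyCompactSpace T] [T2Space T]
  [MulAction (Perm ι) T] [ContinuousConstSMul (Perm ι) T] (s : T → Ds (Sb ι)) (hs : Continuous s)
  (he : ∀ (g : Perm ι) k, s (g • k) = g • s k)

include C

omit [R.Additive] [MonoidalPreadditive H] [MonoidalPreadditive E] in
theorem inj_Sb (Y : H) (K : Action LC (Perm ι)) : Inj R (Y ⊗ SH.obj (gds _ (Sb ι) ⊗ K)) :=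
  Inj.of_iso (C.t0 _)
    (whiskerLeftIso Y ((Functor.Monoidal.μIso SH _ K).symm ≪≫ β_ _ _) ≪≫ (α_ _ _ _).symm)

include hs he

omit [R.Additive] [MonoidalPreadditive H] [MonoidalPreadditive E] in
theorem inj_src (Y : H) : Inj R (Y ⊗ SH.obj (gsp _ T)) :=
  (C.inj_Sb Y _).of_retract (Y ◁ SH.map (grph s hs he)) (Y ◁ SH.map (_ ≫ _)) (by
    rw [← MonoidalCategory.whiskerLeft_comp, ← SH.map_comp, grph_gaug, SH.map_id,
      MonoidalCategory.whiskerLeft_id])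

omit [R.Additive] in
/-- the weak Wirthmüller property -/
theorem inj_tgt [IsInv (SH.obj (VA ι))] (X : H) : CoInj R (X ⊗ SH.obj (gsp _ T)) := by
  intro Y x hx
  have h1 := C.htpy ((codSb ι).gHtpy_kap s hs he)
  rw [SH.map_id, SH.map_comp, Functor.Monoidal.map_whiskerRight, Category.assoc, Category.assoc,
    ← IsIso.inv_comp_eq, Category.comp_id] at h1
  have h2 : x ▷ SH.obj (VA ι ⊗ gds _ (Sb ι)) = 0 :=
    (C.inj_Sb Y _).of_iso (whiskerLeftIso Y (SH.mapIso (β_ _ _))) _ _ (by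
      rw [Functor.Monoidal.map_whiskerRight, hx, MonoidalPreadditive.zero_whiskerRight, zero_comp,
        comp_zero])
  have h3 : x ▷ SH.obj (VA ι) ≫ (α_ _ _ _).hom ≫ X ◁ (β_ _ _).hom ≫
      X ◁ SH.map (codSb ι).pt ▷ _ = 0 := by
    rw [← MonoidalCategory.whiskerLeft_comp, ← BraidedCategory.braiding_naturality_right,
      MonoidalCategory.whiskerLeft_comp, ← associator_naturality_right_assoc,
      ← whisker_exchange_assoc, h2, zero_comp, comp_zero]
  refine whiskerRight_eq_zero (S := SH.obj (VA ι)) ?_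
  rw [← cancel_mono (α_ _ _ _).hom, ← cancel_mono (X ◁ (β_ _ _).hom),
    ← cancel_mono (X ◁ inv (δ SH (VA ι) (gsp _ T))), h1, MonoidalCategory.whiskerLeft_comp,
    Category.assoc, Category.assoc, reassoc_of% h3]
  simp

end inj

end Ctx

end Vale.Agent.P257.Z
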