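import Vale.Agent.P257.Z.Fil
import Vale.Agent.P257.Z.Pol
import Vale.Agent.P257.M.Defs

/-!
# P257, block Z: the cube `[0, ∞) ^ ι` filtered by the size of the support

* `Ck ι k`, `ck`: the stages, `isPushout_ck`, `hCof_ck`, `exists_cok`: the layers;
* `Cb ι`: the commutative monoid structure on the last stage;
* `QD`, `fd`, `nul`, `cb : cone fd ⟶ Cb`, `coneIso : cone fd ≅ Ck ι 1`.
-/

open CategoryTheory MonoidalCategory Limits OnePoint MonObj Filter
open scoped NNReal

namespace Vale.Agent.P257.Z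

open Vale.Agent.P251.H Vale.Agent.P251.H.StabInput
open Vale.Agent.P257.D Vale.Agent.P257.D.EF Vale.Agent.P257.C Vale.Agent.P257.E Vale.Agent.P257.M
open Vale.Agent.P251.G (LC)
open Vale.Agent.P251.G.LC (app smash)
open Equiv (Perm)

variable {ι : Type} [Finite ι] {j k l n : ℕ}

section add

/-- the sum of two points -/
def fadd (x y : Fn ι ℝ≥0) : Fn ι ℝ≥0 := fun i => x i + y i

theorem ns_fadd (x y : Fn ι ℝ≥0) : ns (fadd x y) ≤ ns x + ns y :=
  (Set.ncard_le_ncard (fun i hi => by
    by_contra h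
    simp only [supp, Set.mem_union, Set.mem_ofPred_eq, not_or, not_not] at h
    exact hi (by rw [fadd, h.1, h.2, add_zero])) (Set.toFinite _)).trans (Set.ncard_union_le _ _)

/-- the sum of two points -/
def addF (h : min (Nat.card ι) (j + k) ≤ l) (p : Fl ι False j × Fl ι False k) : Fl ι False l :=
  ⟨fadd p.1.1 p.2.1, False.elim,
    (le_min (ns_le_card _) ((ns_fadd _ _).trans (add_le_add p.1.2.2 p.2.2.2))).trans h⟩

theorem continuous_addF (h : min (Nat.card ι) (j + k) ≤ l) : Continuous (addF h) :=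
  (Fn.continuous_mk fun i =>
    ((Fn.continuous_ap i).comp (continuous_subtype_val.comp continuous_fst)).add
      ((Fn.continuous_ap i).comp (continuous_subtype_val.comp continuous_snd))).subtype_mk _

theorem tendsto_addF (h : min (Nat.card ι) (j + k) ≤ l) :
    Tendsto (addF h) (cocompact _) (cocompact _) := by
  refine LC.tendsto_cocompact_of_preimage fun K hK => ?_
  obtain ⟨R, hR⟩ := exists_top_le (hK.image continuous_subtype_val)
  refine ⟨(Subtype.val ⁻¹' {x | top x ≤ R}) ×ˢ (Subtype.val ⁻¹' {x | top x ≤ R}),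
    ((isClosed_Fl False j).isClosedEmbedding_subtypeVal.isCompact_preimage
      (isCompact_top_le _)).prod ((isClosed_Fl False k).isClosedEmbedding_subtypeVal.isCompact_preimage
      (isCompact_top_le _)), fun p hp => ?_⟩
  have h1 : top (fadd p.1.1 p.2.1) ≤ R := hR _ ⟨_, hp, rfl⟩
  exact ⟨top_le fun i => (le_self_add.trans (le_top (fadd p.1.1 p.2.1) i)).trans h1,
    top_le fun i => (le_add_self.trans (le_top (fadd p.1.1 p.2.1) i)).trans h1⟩

/-- the addition -/
def addP (h : min (Nat.card ι) (j + k) ≤ l) : FA ι False j ⊗ FA ι False k ⟶ FA ι False l :=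
  (gspTensor _ _ _).hom ≫ gProper (addF h) (continuous_addF h) (tendsto_addF h) fun _ _ => rfl

variable (ι) in
/-- the total space -/
noncomputable abbrev TT : Action LC (Perm ι) := FA ι False (Nat.card ι)

variable (ι) in
/-- the total space as a commutative monoid -/
@[implicit_reducible] noncomputable def TM : CommMon (Action LC (Perm ι)) where
  X := TT ι
  mon :=
    { one := zro ι _
      mul := addP (min_le_left _ _)
      one_mul := Action.hom_ext _ _ (LC.tensor_ext fun _ _ =>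
        congrArg OnePoint.some (Subtype.ext (Fn.ext fun _ => zero_add _)))
      mul_one := Action.hom_ext _ _ (LC.tensor_ext fun _ _ =>
        congrArg OnePoint.some (Subtype.ext (Fn.ext fun _ => add_zero _)))
      mul_assoc := Action.hom_ext _ _ (LC.tensor_ext₃ fun _ _ _ =>
        congrArg OnePoint.some (Subtype.ext (Fn.ext fun _ => add_assoc _ _ _))) }
  comm := @IsCommMonObj.mk _ _ _ _ _ (_) (Action.hom_ext _ _ (LC.tensor_ext fun _ _ =>
    congrArg OnePoint.some (Subtype.ext (Fn.ext fun _ => add_comm _ _))))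

end add

section stages

variable (ι) in
/-- the size of the support allowed in degree `g` -/
noncomputable def nn (k : ℕ) (g : Gam) : ℕ := min (min k (Nat.card ι)) g.2.toNat

omit [Finite ι] in
theorem nn_le (k : ℕ) (g : Gam) : nn ι k g ≤ Nat.card ι := (min_le_left _ _).trans (min_le_right _ _)

omit [Finite ι] in
theorem nn_mono (h : k ≤ l) {g g' : Gam} (h' : g ≤ g') : nn ι k g ≤ nn ι l g' :=
  min_le_min (min_le_min_right _ h) (Int.toNat_le_toNat h'.2)

variable (ι j k) in
/-- the inclusions -/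
noncomputable def finc : FA ι False j ⟶ FA ι False k := if h : j ≤ k then gι ι False h else 0

theorem finc_eq (h : j ≤ k) : finc ι j k = gι ι False h := dif_pos h

theorem isIso_gι {c : Prop} (h : j ≤ k) (h' : k ≤ j) : IsIso (gι ι c h) :=
  ⟨gι ι c h', (gι_gι _ _).trans gι_refl, (gι_gι _ _).trans gι_refl⟩

variable (ι k) in
/-- the filtration -/
@[implicit_reducible] noncomputable def fs : FS Gam (TT ι).V where
  K g := (FA ι False (nn ι k g)).V
  c g := (gι ι False (nn_le k g)).hom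
  inj g := Option.map_injective (isClosedEmbedding_flι (nn_le k g)).injective
  i g g' := (finc ι (nn ι k g) (nn ι k g')).hom
  w h := by
    rw [finc_eq (nn_mono le_rfl h)]
    exact congrArg Action.Hom.hom (gι_gι _ _)

variable (ι k) in
/-- the action on the stages -/
noncomputable def actC (g : Perm ι) : (fs ι k).fil O ⟶ (fs ι k).fil O :=
  FS.map O (act (TT ι) g) (fun d => act (FA ι False (nn ι k d)) g)
    fun d => act_comm (gι ι False (nn_le k d)) g

theorem actC_tot (g : Perm ι) :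
    actC ι k g ≫ (fs ι k).tot O = (fs ι k).tot O ≫ (jC JG).map (act (TT ι) g) := FS.map_tot _ _ _

variable (ι k) in
/-- the stages of the cube -/
@[implicit_reducible] noncomputable def Ck : Action MM (Perm ι) :=
  mkAct ((fs ι k).fil O) (actC ι k)
    (by rw [← cancel_mono ((fs ι k).tot O), actC_tot, act_one, CategoryTheory.Functor.map_id,
      Category.comp_id, Category.id_comp])
    fun g h => by
      rw [← cancel_mono ((fs ι k).tot O), Category.assoc, actC_tot, actC_tot, ← Category.assoc,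
        actC_tot, Category.assoc, ← Functor.map_comp, act_mul]

variable (ι k) in
/-- the inclusion in the total space -/
noncomputable def tot : Ck ι k ⟶ (JA (Perm ι) MM).obj (TT ι) :=
  mkHom ((fs ι k).tot O) fun g => actC_tot g

instance : Mono (tot ι k).hom := inferInstanceAs (Mono ((fs ι k).tot O))

instance mono_tot (k : ℕ) : Mono (tot ι k) :=
  (Action.forget _ _).mono_of_mono_map (inferInstanceAs (Mono ((fs ι k).tot O)))

/-- lifting equivariant maps -/
noncomputable def liftC {X : Action MM (Perm ι)} (f : X ⟶ (JA (Perm ι) MM).obj (TT ι))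
    (φ : X.V ⟶ (Ck ι k).V) (h : φ ≫ (tot ι k).hom = f.hom) : X ⟶ Ck ι k :=
  mkHom φ fun g => by
    rw [← cancel_mono (tot ι k).hom, Category.assoc, Category.assoc, h, act_comm (tot ι k),
      reassoc_of% h, act_comm f]

@[reassoc (attr := simp)]
theorem liftC_tot {X : Action MM (Perm ι)} (f : X ⟶ (JA (Perm ι) MM).obj (TT ι))
    (φ : X.V ⟶ (Ck ι k).V) (h : φ ≫ (tot ι k).hom = f.hom) : liftC f φ h ≫ tot ι k = f :=
  Action.hom_ext _ _ h

variable (ι) in
/-- the inclusions of the stages -/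
noncomputable def ck (h : k ≤ l) : Ck ι k ⟶ Ck ι l :=
  liftC (tot ι k) (FS.map O (𝟙 _) (fun d => (gι ι False (nn_mono h (le_refl d))).hom)
    fun _ => (congrArg Action.Hom.hom (gι_gι _ _)).trans (Category.comp_id _).symm)
    ((FS.map_tot _ _ _).trans (by
      rw [CategoryTheory.Functor.map_id]
      exact Category.comp_id _))

@[reassoc (attr := simp)]
theorem ck_tot (h : k ≤ l) : ck ι h ≫ tot ι l = tot ι k := liftC_tot _ _ _

theorem isIso_ck_app (h : k ≤ l) (x : JG) (h' : 0 ≤ x.deg → nn ι l x.deg ≤ nn ι k x.deg) :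
    IsIso ((ck ι h).hom.app x) :=
  FS.isIso_map_app (F := fs ι k) (F' := fs ι l) (𝟙 _)
    (fun d => (gι ι False (nn_mono h (le_refl d))).hom)
    (fun _ => (congrArg Action.Hom.hom (gι_gι _ _)).trans (Category.comp_id _).symm) x fun h0 =>
      have := isIso_gι (ι := ι) (c := False) (nn_mono h (le_refl x.deg)) (h' h0)
      Functor.map_isIso (Action.forget _ _) (gι ι False _)

theorem ck_refl : ck ι (le_refl k) = 𝟙 _ := by
  rw [← cancel_mono (tot ι k), ck_tot, Category.id_comp]

theorem ck_ck (h : j ≤ k) (h' : k ≤ l) : ck ι h ≫ ck ι h' = ck ι (h.trans h') := by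
  rw [← cancel_mono (tot ι l), Category.assoc, ck_tot, ck_tot, ck_tot]

variable (ι j) in
/-- the unit of degree `j` -/
noncomputable abbrev RT : Action MM (Perm ι) := (triv (Perm ι)).obj (rp (0, (j : ℤ)))

variable (ι j) in
/-- the map to the unit -/
noncomputable def tA : RT ι j ⟶ 𝟙_ _ :=
  (triv (Perm ι)).map (t1 j) ≫ Functor.OplaxMonoidal.η (triv (Perm ι))

omit [Finite ι] in
theorem tA_hom : (tA ι j).hom = t1 j := Category.comp_id _

variable (j) in
/-- the cells -/
noncomputable def cel (h : k ≤ nn ι n (0, (j : ℤ))) :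
    RT ι j ⊗ (JA (Perm ι) MM).obj (FA ι False k) ⟶ Ck ι n :=
  liftC (tA ι j ▷ _ ≫ (λ_ _).hom ≫ (JA _ MM).map (gι ι False (h.trans (nn_le _ _))))
    ((fs ι n).cell O (g := (0, (j : ℤ))) ⟨le_rfl, Int.natCast_nonneg j⟩ (gι ι False h).hom)
    (((fs ι n).cell_tot _ _).trans (by
      rw [Action.comp_hom, Action.comp_hom, Action.whiskerRight_hom, tA_hom,
        Action.leftUnitor_hom_hom]
      rfl))

@[reassoc (attr := simp)]
theorem cel_tot (h : k ≤ nn ι n (0, (j : ℤ))) : cel j h ≫ tot ι n =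
    tA ι j ▷ _ ≫ (λ_ _).hom ≫ (JA _ MM).map (gι ι False (h.trans (nn_le _ _))) := liftC_tot _ _ _

theorem isIso_cel_app (h : k ≤ nn ι n (0, (j : ℤ))) {x : JG} (hx : ((0, (j : ℤ)) : Gam) ≤ x.deg)
    (h' : nn ι n x.deg ≤ k) : IsIso ((cel j h).hom.app x) := by
  have : IsIso ((gι ι False h).hom ≫ (fs ι n).i (0, (j : ℤ)) x.deg) := by
    have := isIso_gι (ι := ι) (c := False) (h.trans (nn_mono le_rfl hx)) h'
    rw [← gι_gι h (nn_mono le_rfl hx), ← finc_eq (nn_mono le_rfl hx)] at this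
    exact Functor.map_isIso (Action.forget _ _) (gι ι False h ≫ finc ι _ _)
  exact (fs ι n).isIso_cell_app _ _ hx

omit [Finite ι] in
theorem le_nn (h1 : k ≤ n) (h2 : k ≤ Nat.card ι) (h3 : k ≤ j) : k ≤ nn ι n (0, (j : ℤ)) :=
  le_min (le_min h1 h2) (by simpa using h3)

omit [Finite ι] in
theorem supp_RT (K : Action LC (Perm ι)) :
    Supp (RT ι j ⊗ (JA (Perm ι) MM).obj K).V (Set.Ici (0, (j : ℤ))) :=
  (Supp.rep (⟨𝟙_ O, (0, (j : ℤ))⟩ : JG)).tensor' (Supp.jC K.V) fun _ hp _ hq _ hr =>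
    ((add_zero _).ge.trans (add_le_add hp hq)).trans hr

/-- the layers -/
theorem isPushout_ck (h : k + 1 ≤ Nat.card ι) :
    IsPushout (RT ι (k + 1) ◁ (JA (Perm ι) MM).map (gι ι False (Nat.le_succ k)))
      (cel (k + 1) (le_nn le_rfl (Nat.le_of_succ_le h) (Nat.le_succ k)))
      (cel (k + 1) (le_nn le_rfl h le_rfl)) (ck ι (Nat.le_succ k)) := by
  have w : RT ι (k + 1) ◁ (JA (Perm ι) MM).map (gι ι False (Nat.le_succ k)) ≫
      cel (k + 1) (le_nn le_rfl h le_rfl) =
      cel (k + 1) (le_nn le_rfl (Nat.le_of_succ_le h) (Nat.le_succ k)) ≫ ck ι (Nat.le_succ k) := by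
    rw [← cancel_mono (tot ι _), Category.assoc, Category.assoc, ck_tot, cel_tot, cel_tot,
      whisker_exchange_assoc, leftUnitor_naturality_assoc, ← Functor.map_comp, gι_gι]
  refine isPushout_of_hom (isPushout_of_ev (congrArg Action.Hom.hom w) fun x => ?_)
  have wx := congrArg (fun f => f.hom.app x) w
  by_cases hx : ((0, ((k + 1 : ℕ) : ℤ)) : Gam) ≤ x.deg
  · have := isIso_cel_app (le_nn le_rfl (Nat.le_of_succ_le h) (Nat.le_succ k)) hx
      ((min_le_left _ _).trans (min_le_left _ _))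
    have := isIso_cel_app (le_nn le_rfl h le_rfl) hx ((min_le_left _ _).trans (min_le_left _ _))
    exact IsPushout.of_vert_isIso ⟨wx⟩
  · have := (supp_RT (FA ι False k) x hx).isIso (supp_RT (FA ι False (k + 1)) x hx)
      ((RT ι (k + 1) ◁ (JA (Perm ι) MM).map (gι ι False (Nat.le_succ k))).hom.app x)
    have := isIso_ck_app (ι := ι) (Nat.le_succ k) x fun h0 => by
      have : x.deg.2 ≤ k := by
        by_contra h1
        exact hx ⟨h0.1, by push_cast; omega⟩
      unfold nn
      omega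
    exact IsPushout.of_horiz_isIso ⟨wx⟩

theorem hCof_ck (h : k + 1 ≤ Nat.card ι) : HCof (ck ι (Nat.le_succ k)) :=
  ((hCof_gι _).whiskerLeft _).of_isPushout (isPushout_ck h)

theorem exists_cok (h : k + 1 ≤ Nat.card ι) : ∃ (Z : Action MM (Perm ι)) (_ : IsZero Z)
    (q : Ck ι (k + 1) ⟶ RT ι (k + 1) ⊗ (JA (Perm ι) MM).obj (SA ι False (k + 1))),
    IsPushout (ck ι (Nat.le_succ k)) (0 : _ ⟶ Z) q 0 := by
  have h0 : IsZero ((J (Action MM (Perm ι))).obj (LC.of Empty)) := isZero_empty
  have h1 := StabInput.isPushout_whiskerLeft (RT ι (k + 1))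
    (isPushout_gπ (ι := ι) (c := False) (j := k) h0 0 0)
  have hZ := (tensorLeft (RT ι (k + 1))).map_isZero h0
  have e : RT ι (k + 1) ◁ (JA (Perm ι) MM).map (gι ι False (Nat.le_succ k)) ≫
      RT ι (k + 1) ◁ (JA (Perm ι) MM).map (gπ ι False (k + 1)) =
      cel (k + 1) (le_nn le_rfl (Nat.le_of_succ_le h) (Nat.le_succ k)) ≫ 0 := by
    rw [h1.w, hZ.eq_of_tgt (_ ◁ 0) 0, zero_comp, comp_zero]
  refine ⟨_, hZ, (isPushout_ck h).desc _ 0 e, IsPushout.of_top ?_ ?_ (isPushout_ck h)⟩
  · rw [IsPushout.inl_desc, comp_zero]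
    rwa [hZ.eq_of_tgt (_ ◁ 0) 0, hZ.eq_of_src (_ ◁ 0) 0] at h1
  · rw [IsPushout.inr_desc, comp_zero]

theorem posT_Ck : PosT (Ck ι k).V 0 := (fs ι k).supp.mono fun _ h => h.2

theorem unt_gι (h : j ≤ k) : unt ι j MM ≫ (JA _ MM).map (gι ι False h) = unt ι k MM := by
  rw [unt, unt, Category.assoc, ← Functor.map_comp, zro_gι]

variable (ι k) in
/-- the unit -/
noncomputable def uC : 𝟙_ _ ⟶ Ck ι k :=
  liftC (unt ι _ MM) ((fs ι k).lift (unt ι _ MM).hom (fun x => (unt ι (nn ι k x.deg) MM).hom.app x)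
    fun x z => congrArg (fun f : 𝟙_ (Action MM (Perm ι)) ⟶ _ => fn f.hom z)
      (unt_gι (nn_le k x.deg))) (FS.lift_tot _ _ _ _)

@[reassoc (attr := simp)]
theorem uC_tot : uC ι k ≫ tot ι k = unt ι _ MM := liftC_tot _ _ _

@[reassoc (attr := simp)]
theorem uC_ck (h : k ≤ l) : uC ι k ≫ ck ι h = uC ι l := by
  rw [← cancel_mono (tot ι l), Category.assoc, ck_tot, uC_tot, uC_tot]

instance : IsIso (uC ι 0) := by
  have key : ∀ (x : JG) (j : ℕ), j = 0 → IsIso ((unt ι j MM).hom.app x) := fun x j h => by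
    subst h
    exact Functor.map_isIso (Action.forget _ _ ⋙ ev x) (unt ι 0 MM)
  have h : ∀ x, IsIso ((uC ι 0).hom.app x) := fun x => key x _ (by simp [nn])
  have : IsIso (uC ι 0).hom :=
    (isoMk (fun x => asIso ((uC ι 0).hom.app x)) fun w => (uC ι 0).hom.naturality w).isIso_hom
  infer_instance

end stages

section mon

variable (ι j k l) in
/-- the addition -/
noncomputable def addD : FA ι False j ⊗ FA ι False k ⟶ FA ι False l :=
  if h : min (Nat.card ι) (j + k) ≤ l then addP h else 0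

variable (ι) in
/-- the total space -/
noncomputable abbrev JM : CommMon (Action MM (Perm ι)) := (JA (Perm ι) MM).mapCommMon.obj (TM ι)

variable (ι) in
/-- the multiplication of the cube -/
noncomputable def mC : Ck ι (Nat.card ι) ⊗ Ck ι (Nat.card ι) ⟶ Ck ι (Nat.card ι) :=
  liftC ((tot ι _ ⊗ₘ tot ι _) ≫ μ[(JM ι).X])
    (FS.mul O (addP (min_le_left _ _)).hom (fun g g' => (addD ι _ _ _).hom) fun g g' h h' => by
      have h1 : min (Nat.card ι) (nn ι (Nat.card ι) g + nn ι (Nat.card ι) g') ≤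
          nn ι (Nat.card ι) (g + g') := by
        have h2 : 0 ≤ g.2 := h.2
        have h3 : 0 ≤ g'.2 := h'.2
        have h4 : (g + g').2 = g.2 + g'.2 := rfl
        unfold nn
        omega
      rw [addD, dif_pos h1]
      exact LC.tensor_ext fun _ _ => rfl)
    (FS.mul_tot _ _ _)

variable (ι) in
/-- **The cube.** -/
@[implicit_reducible] noncomputable def Cb : CommMon (Action MM (Perm ι)) :=
  @subMon _ _ _ _ (Ck ι (Nat.card ι)) (JM ι) (tot ι _) (mono_tot _) (uC ι _) (mC ι) uC_tot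
    (liftC_tot _ _ _)

theorem Cb_X : (Cb ι).X = Ck ι (Nat.card ι) := rfl

theorem Cb_one : η[(Cb ι).X] = uC ι (Nat.card ι) := rfl

theorem posT_Cb : PosT (Cb ι).X.V 0 := posT_Ck

end mon

section cone

variable (ι) in
/-- the source of the fold map -/
noncomputable abbrev QD : Action MM (Perm ι) := RT ι 1 ⊗ (JA (Perm ι) MM).obj (DA ι)

variable (ι) in
/-- the fold map -/
noncomputable def fd : QD ι ⟶ 𝟙_ _ :=
  (tA ι 1 ⊗ₘ (JA _ MM).map (toPt _ (Ds ι)) ≫ Functor.OplaxMonoidal.η (JA _ MM)) ≫ (λ_ _).hom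

variable [Nonempty ι]

theorem one_le_nn : 1 ≤ nn ι 1 (0, ((1 : ℕ) : ℤ)) := le_nn le_rfl Nat.card_pos le_rfl

variable (ι) in
/-- the null homotopy of the fold map in the first stage -/
noncomputable def nul₁ : QD ι ⊗ CI _ ⟶ Ck ι 1 :=
  (α_ _ _ _).hom ≫ RT ι 1 ◁ ((JA _ MM).map (vtx ι).hom ▷ _ ≫ cpol ι 1 MM) ≫ cel 1 one_le_nn

theorem isPushout_nul₁ : IsPushout (coneBase (QD ι)) (fd ι) (nul₁ ι) (uC ι 1) := by
  have h1 := StabInput.isPushout_whiskerLeft (RT ι 1) (isPushout_pol (ι := ι) (j := 1) MM)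
  have h2 : IsPushout (RT ι 1 ◁ unt ι 1 MM) ((ρ_ _).hom ≫ tA ι 1) (cel 1 one_le_nn) (uC ι 1) := by
    refine (isPushout_ck (ι := ι) (k := 0) Nat.card_pos).of_iso
      (whiskerLeftIso _ (asIso (unt ι 0 MM)).symm) (Iso.refl _) (asIso (uC ι 0)).symm (Iso.refl _)
      ?_ ?_ (Category.comp_id _ |>.trans (Category.id_comp _).symm) ?_
    · rw [whiskerLeftIso_hom, ← MonoidalCategory.whiskerLeft_comp, Iso.refl_hom, Category.comp_id]
      congr 1
      rw [Iso.symm_hom, asIso_inv, IsIso.eq_inv_comp, unt_gι]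
    · rw [Iso.symm_hom, asIso_inv, IsIso.comp_inv_eq, ← cancel_epi (RT ι 1 ◁ unt ι 0 MM),
        ← cancel_mono (tot ι 0), whiskerLeftIso_hom, Iso.symm_hom, asIso_inv]
      simp only [Category.assoc]
      rw [← MonoidalCategory.whiskerLeft_comp_assoc _ _ (inv _), IsIso.hom_inv_id,
        MonoidalCategory.whiskerLeft_id, Category.id_comp, uC_tot, cel_tot, whisker_exchange_assoc,
        leftUnitor_naturality_assoc, unt_gι, ← rightUnitor_naturality_assoc, unitors_equal]
    · rw [Iso.symm_hom, asIso_inv, IsIso.eq_inv_comp, Iso.refl_hom, Category.comp_id, uC_ck]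
  refine (h1.paste_vert h2).of_iso (whiskerLeftIso _ ((JA _ MM).mapIso (vtx ι).symm))
    (whiskerLeftIso _ (whiskerRightIso ((JA _ MM).mapIso (vtx ι).symm) _) ≪≫ (α_ _ _ _).symm)
    (Iso.refl _) (Iso.refl _) ?_ ?_ ?_ ?_
  · rw [Iso.trans_hom, Iso.symm_hom, ← Category.assoc, Iso.comp_inv_eq, Category.assoc,
      coneBase_assoc, whiskerLeftIso_hom, whiskerLeftIso_hom, whiskerRightIso_hom,
      ← MonoidalCategory.whiskerLeft_comp, ← MonoidalCategory.whiskerLeft_comp,
      coneBase_naturality]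
  · rw [Iso.refl_hom, Category.comp_id, whiskerLeftIso_hom, fd, whiskerLeft_comp_tensorHom_assoc,
      Functor.mapIso_hom, ← Functor.map_comp_assoc, ← vtx_toPt, Iso.symm_hom, Iso.inv_hom_id_assoc,
      prj, tensorHom_def', Category.assoc, unitors_equal, rightUnitor_naturality]
  · rw [nul₁, Iso.trans_hom, Iso.symm_hom, Category.assoc, Category.assoc, Iso.inv_hom_id_assoc,
      whiskerLeftIso_hom,
      whiskerRightIso_hom, ← MonoidalCategory.whiskerLeft_comp_assoc, ← comp_whiskerRight_assoc,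
      Functor.mapIso_hom, ← Functor.map_comp, Iso.symm_hom, Iso.inv_hom_id,
      CategoryTheory.Functor.map_id, id_whiskerRight, Category.id_comp, Iso.refl_hom,
      Category.comp_id]
  · simp

variable (ι) in
/-- the null homotopy of the fold map -/
noncomputable def nul : QD ι ⊗ CI _ ⟶ (Cb ι).X := nul₁ ι ≫ ck ι Nat.card_pos

theorem coneBase_nul : coneBase (QD ι) ≫ nul ι = fd ι ≫ η[(Cb ι).X] := by
  rw [nul, reassoc_of% isPushout_nul₁.w, Cb_one, uC_ck]

variable (ι) in
/-- the map from the cone of the fold map -/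
noncomputable def cb : cone (fd ι) ⟶ (Cb ι).X := cdesc (nul ι) η[(Cb ι).X] coneBase_nul

variable (ι) in
/-- the first stage is the cone of the fold map -/
noncomputable def coneIso : cone (fd ι) ≅ Ck ι 1 :=
  (isPushout_cone (fd ι)).isoIsPushout _ _ isPushout_nul₁

theorem cb_eq : cb ι = (coneIso ι).hom ≫ ck ι Nat.card_pos := by
  apply cone_ext
  · rw [cb, ck_cdesc, coneIso, IsPushout.inl_isoIsPushout_hom_assoc, nul]
  · rw [cb, ci_cdesc, coneIso, IsPushout.inr_isoIsPushout_hom_assoc, Cb_one, uC_ck]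

end cone

end Vale.Agent.P257.Z
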