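import Vale.Agent.P257.C.Supp
import Vale.Agent.P257.D.BaseL

/-!
# P257, block Z: filtered spaces as graded objects

`FS Λ T`: a family of subspaces of `T` indexed by `Λ`; `F.fil : EF (Gr J Λ)` with the monomorphism
`F.tot : F.fil ⟶ J T`, the maps `FS.map`, `FS.mul`, the cells `FS.cell`.
-/

open CategoryTheory MonoidalCategory Limits OnePoint MonObj

namespace Vale.Agent.P257.Z

open Vale.Agent.P257.D Vale.Agent.P257.D.EF Vale.Agent.P257.C
open Vale.Agent.P251.H (PQ)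
open Vale.Agent.P251.G (LC)
open Vale.Agent.P251.G.LC (app smash)

universe v u

section sub

variable {N : Type u} [Category.{v} N] [MonoidalCategory N] [BraidedCategory N]

/-- a subobject of a commutative monoid closed under the operations -/
@[implicit_reducible] def subMon {X : N} (A : CommMon N) (i : X ⟶ A.X) [Mono i] (e : 𝟙_ N ⟶ X)
    (m : X ⊗ X ⟶ X) (he : e ≫ i = η) (hm : m ≫ i = (i ⊗ₘ i) ≫ μ) : CommMon N where
  X := X
  mon :=
    { one := e
      mul := m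
      one_mul := by
        rw [← cancel_mono i, Category.assoc, hm, ← tensorHom_id, tensorHom_comp_tensorHom_assoc, he,
          Category.id_comp, tensorHom_def', Category.assoc, MonObj.one_mul,
          leftUnitor_naturality]
      mul_one := by
        rw [← cancel_mono i, Category.assoc, hm, ← id_tensorHom, tensorHom_comp_tensorHom_assoc, he,
          Category.id_comp, tensorHom_def, Category.assoc, MonObj.mul_one,
          rightUnitor_naturality]
      mul_assoc := by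
        rw [← cancel_mono i, Category.assoc, Category.assoc, Category.assoc, hm, ← tensorHom_id,
          ← id_tensorHom, tensorHom_comp_tensorHom_assoc, tensorHom_comp_tensorHom_assoc, hm,
          Category.id_comp, ← tensorHom_comp_whiskerRight, ← tensorHom_comp_whiskerLeft,
          Category.assoc, Category.assoc, MonObj.mul_assoc, associator_naturality_assoc] }
  comm := @IsCommMonObj.mk _ _ _ _ _ (_) (by
    change (β_ X X).hom ≫ m = m
    rw [← cancel_mono i, Category.assoc, hm, ← BraidedCategory.braiding_naturality_assoc,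
      IsCommMonObj.mul_comm])

end sub

variable {J : Type} [Idx J]

theorem isPushout_of_ev {A B C D : EF J} {f : A ⟶ B} {g : A ⟶ C} {i : B ⟶ D} {j : C ⟶ D}
    (w : f ≫ i = g ≫ j) (h : ∀ x, IsPushout (f.app x) (g.app x) (i.app x) (j.app x)) :
    IsPushout f g i j :=
  ⟨⟨w⟩, ⟨isColimitOfEv _ fun x =>
    (isColimitMapCoconePushoutCoconeEquiv (ev x) w).symm (h x).isColimit⟩⟩

theorem fn_jC_injective {K L : LC} {f : K ⟶ L} (hf : Function.Injective (app f)) (x : J) :
    Function.Injective fun z : OnePoint (((jC J).obj K).obj x) => fn ((jC J).map f) z := by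
  intro z z' h
  obtain ⟨k, u, rfl⟩ := jm_surjective z
  obtain ⟨k', u', rfl⟩ := jm_surjective z'
  simp only [fn_jC_map] at h
  rcases LC.smash_inj h with ⟨h1, h2⟩ | ⟨h1, h2⟩
  · rw [hf h1, pr_injective h2]
  · have k1 := LC.smash_eq_infty.2 ((LC.smash_eq_infty.1 h1).imp_left
      (LC.app_eq_infty_iff hf k).1)
    have k2 := LC.smash_eq_infty.2 ((LC.smash_eq_infty.1 h2).imp_left
      (LC.app_eq_infty_iff hf k').1)
    exact k1.trans k2.symm

theorem fn_repF {a b : J} {A : PQ} (x : a ⟶ b) (k : OnePoint A) :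
    fn (repF a A).hom (tm (pr x) (fm k (𝟙 (𝟙_ J)))) = sm k (pr (x ≫ (ρ_ b).inv)) := by
  rw [repF, Iso.trans_hom, fn_comp, braiding_tm, fn_act, fn_FTensor_hom, smul_act, rep_act,
    rep_act]
  simp

theorem repF_smulMap {a : J} {A B : PQ} (f : A ⟶ B) (u : 𝟙_ J ⟶ a) :
    (repF a A).hom ≫ (smulMap f (repMap u) : smul A (rep a) ⟶ (F J).obj B) =
      (repMap u : rep a ⟶ 𝟙_ (EF J)) ▷ _ ≫ (λ_ _).hom ≫ (F J).map f := by
  refine FF_ext_right fun k b x => ?_
  obtain ⟨x, rfl⟩ := pr_surjective x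
  refine ((congrArg (fn (smulMap f (repMap u))) (fn_repF x k)).trans
    (fn_smulMap _ _ _ _)).trans ?_
  change _ = fn ((F J).map f) (fn (λ_ ((F J).obj A)).hom
    (fn ((repMap u : rep a ⟶ 𝟙_ (EF J)) ▷ (F J).obj A) (tm (pr x) (fm k (𝟙 _)))))
  rw [whiskerRight_tm, leftUnitor_tm, F_act, fn_F_map, fn_repMap_pr]
  erw [fn_repMap_pr, unpr_pr]
  rw [Category.id_comp, unitors_inv_equal, ← rightUnitor_inv_naturality, Category.assoc]
  rfl

/-- families of subspaces -/
structure FS (Λ : Type) [Preorder Λ] (T : LC) where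
  /-- the subspaces -/
  K : Λ → LC
  /-- the inclusions -/
  c : ∀ l, K l ⟶ T
  inj : ∀ l, Function.Injective (app (c l))
  /-- the transition maps -/
  i : ∀ l m, K l ⟶ K m
  w : ∀ {l m}, l ≤ m → i l m ≫ c m = c l

namespace FS

variable {Λ : Type} [AddCommMonoid Λ] [Preorder Λ] [IsOrderedAddMonoid Λ] {T T' T'' : LC}
  (F : FS Λ T) (F' : FS Λ T') (F'' : FS Λ T'')

omit [AddCommMonoid Λ] [IsOrderedAddMonoid Λ] in
theorem ext_c {A : LC} {l : Λ} {f g : A ⟶ F.K l} (h : f ≫ F.c l = g ≫ F.c l) : f = g :=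
  LC.hom_ext fun a => F.inj l (by rw [← LC.app_comp, h, LC.app_comp])

/-- the transition maps -/
noncomputable def tr {x y : Gr J Λ} (w : x ⟶ y) :
    ((jC (Gr J Λ)).obj (F.K x.deg)).obj x ⟶ ((jC (Gr J Λ)).obj (F.K y.deg)).obj y :=
  ((jC _).map (F.i x.deg y.deg)).app x ≫ ((jC _).obj (F.K y.deg)).map w

theorem fn_tr {x y : Gr J Λ} (w : x ⟶ y) (z : OnePoint (((jC (Gr J Λ)).obj (F.K x.deg)).obj x)) :
    fn ((jC _).map (F.c y.deg)) (PQ.app (F.tr w) z) =
      ((jC _).obj T).act w (fn ((jC _).map (F.c x.deg)) z) := by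
  change fn _ (((jC _).obj (F.K y.deg)).act w (fn ((jC _).map (F.i x.deg y.deg)) z)) = _
  rcases Gr.hom_cases w with rfl | ⟨h, -⟩
  · rw [act_zero, act_zero, fn_infty]
  · rw [fn_act, ← fn_comp, ← Functor.map_comp, F.w h]

variable (J) in
/-- the graded object -/
noncomputable def fil : EF (Gr J Λ) where
  obj x := ((jC (Gr J Λ)).obj (F.K x.deg)).obj x
  map w := F.tr w
  map_id x := PQ.hom_ext' fun z => fn_jC_injective (F.inj _) x ((F.fn_tr _ z).trans (act_id _ _))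
  map_comp {x y z} f g := PQ.hom_ext' fun t => fn_jC_injective (F.inj _) z (by
    beta_reduce
    rw [PQ.app_comp, F.fn_tr, F.fn_tr, F.fn_tr, act_comp])
  map_zero x y := PQ.hom_ext' fun t => fn_jC_injective (F.inj _) y (by
    beta_reduce
    rw [F.fn_tr, act_zero, PQ.app_zero, fn_infty])
  map_plot {x y} K w t hw ht := ((jC _).obj (F.K y.deg)).map_plot K w _ hw
    (fn_plot ((jC _).map (F.i x.deg y.deg)) ht)

variable (J) in
/-- the inclusion in the constant object -/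
noncomputable def tot : F.fil J ⟶ (jC (Gr J Λ)).obj T where
  app x := ((jC _).map (F.c x.deg)).app x
  naturality w := PQ.hom_ext' fun z => F.fn_tr w z

theorem tot_injective (x : Gr J Λ) :
    Function.Injective fun z : OnePoint ((F.fil J).obj x) => fn (F.tot J) z :=
  fn_jC_injective (F.inj _) x

instance : Mono (F.tot J) where
  right_cancellation _ _ h := hom_ext fun x z => F.tot_injective x (congrArg (fun t => fn t z) h)

/-- the points -/
noncomputable def pt {x : Gr J Λ} (k : OnePoint (F.K x.deg)) (u : 𝟙_ (Gr J Λ) ⟶ x) :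
    OnePoint ((F.fil J).obj x) := jm k u

theorem pt_surjective {x : Gr J Λ} (z : OnePoint ((F.fil J).obj x)) : ∃ k u, F.pt k u = z :=
  jm_surjective z

theorem fn_tot {x : Gr J Λ} (k : OnePoint (F.K x.deg)) (u : 𝟙_ (Gr J Λ) ⟶ x) :
    fn (F.tot J) (F.pt k u) = jm (app (F.c x.deg) k) u := fn_jC_map _ k u

theorem supp : Supp (F.fil J) (Set.Ici 0) := fun x hx => Supp.jC (F.K x.deg) x hx

/-- lifting a morphism -/
noncomputable def lift {X : EF (Gr J Λ)} (f : X ⟶ (jC _).obj T) (φ : ∀ x, X.obj x ⟶ (F.fil J).obj x)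
    (h : ∀ x z, fn ((jC _).map (F.c x.deg)) (PQ.app (φ x) z) = fn f z) : X ⟶ F.fil J where
  app := φ
  naturality {x y} w := PQ.hom_ext' fun z => F.tot_injective y (by
    change fn ((jC _).map (F.c y.deg)) (PQ.app (φ y) (X.act w z)) =
      fn ((jC _).map (F.c y.deg)) (PQ.app (F.tr w) (PQ.app (φ x) z))
    rw [F.fn_tr, h, h, fn_act])

@[reassoc (attr := simp)]
theorem lift_tot {X : EF (Gr J Λ)} (f : X ⟶ (jC _).obj T) (φ : ∀ x, X.obj x ⟶ (F.fil J).obj x)
    (h : ∀ x z, fn ((jC _).map (F.c x.deg)) (PQ.app (φ x) z) = fn f z) :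
    F.lift f φ h ≫ F.tot J = f := hom_ext h

section map

variable {F F'} (t : T ⟶ T') (φ : ∀ l, F.K l ⟶ F'.K l) (h : ∀ l, φ l ≫ F'.c l = F.c l ≫ t)

variable (J) in
/-- functoriality -/
noncomputable def map : F.fil J ⟶ F'.fil J :=
  F'.lift (F.tot J ≫ (jC _).map t) (fun x => ((jC _).map (φ x.deg)).app x) fun x z => by
    change fn ((jC _).map (φ x.deg) ≫ (jC _).map (F'.c x.deg)) z =
      fn ((jC _).map (F.c x.deg) ≫ (jC _).map t) z
    rw [← Functor.map_comp, ← Functor.map_comp, h]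

@[reassoc (attr := simp)]
theorem map_tot : map J t φ h ≫ F'.tot J = F.tot J ≫ (jC _).map t := lift_tot _ _ _ _

theorem isIso_map_app (x : Gr J Λ) (k : 0 ≤ x.deg → IsIso (φ x.deg)) :
    IsIso ((map J t φ h).app x) := by
  by_cases hx : 0 ≤ x.deg
  · have := k hx
    exact inferInstanceAs (IsIso ((jC _ ⋙ ev x).map (φ x.deg)))
  · exact (F.supp x hx).isIso (F'.supp x hx) _

end map

section mul

variable {F F' F''} (t : T ⊗ T' ⟶ T'') (m : ∀ l l', F.K l ⊗ F'.K l' ⟶ F''.K (l + l'))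
  (h : ∀ l l', 0 ≤ l → 0 ≤ l' → m l l' ≫ F''.c _ = (F.c l ⊗ₘ F'.c l') ≫ t)

/-- products, on points -/
noncomputable def mulF {x y : Gr J Λ} (z : OnePoint ((F.fil J).obj x))
    (z' : OnePoint ((F'.fil J).obj y)) : OnePoint ((F''.fil J).obj (x ⊗ y)) :=
  fn (Functor.LaxMonoidal.μ (jC (Gr J Λ)) _ _ ≫ (jC _).map (m x.deg y.deg))
    (tm (X := (jC _).obj (F.K x.deg)) (Y := (jC _).obj (F'.K y.deg)) z z')

include h in
theorem tot_mulF {x y : Gr J Λ} (z : OnePoint ((F.fil J).obj x))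
    (z' : OnePoint ((F'.fil J).obj y)) : fn (F''.tot J) (mulF m z z') =
      fn ((F.tot J ⊗ₘ F'.tot J) ≫ Functor.LaxMonoidal.μ (jC (Gr J Λ)) _ _ ≫ (jC _).map t) (tm z z') := by
  obtain ⟨k, u, rfl⟩ := F.pt_surjective z
  obtain ⟨k', u', rfl⟩ := F'.pt_surjective z'
  rw [fn_comp, fn_comp, tensorHom_tm, fn_tot, fn_tot, fn_μ_jC, fn_jC_map]
  change fn ((jC _).map (F''.c (x.deg + y.deg))) (fn (Functor.LaxMonoidal.μ (jC (Gr J Λ)) _ _ ≫ (jC _).map _)
    (tm (jm k u) (jm k' u'))) = _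
  rw [fn_comp, fn_μ_jC, fn_jC_map, fn_jC_map]
  rcases Gr.hom_cases u with rfl | ⟨hu, -⟩
  · rw [smp_zero_left, jm_zero, jm_zero]
  rcases Gr.hom_cases u' with rfl | ⟨hu', -⟩
  · rw [smp_zero_right, jm_zero, jm_zero]
  rw [← LC.app_comp, h _ _ hu hu', LC.app_comp, LC.app_tensorHom_smash]

variable (J) in
/-- products -/
noncomputable def mul : F.fil J ⊗ F'.fil J ⟶ F''.fil J :=
  tensorDesc
    { toFun := mulF m
      infty_left := fun _ => (congrArg _ (tm_infty_left _)).trans (fn_infty _ _)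
      infty_right := fun _ => (congrArg _ (tm_infty_right _)).trans (fn_infty _ _)
      nat := fun u v z z' => F''.tot_injective _ (by
        beta_reduce
        rw [fn_act, tot_mulF t m h, tot_mulF t m h, ← act_tm, fn_act])
      plot := fun {x y _ _ _} hz hz' =>
        fn_plot (Functor.LaxMonoidal.μ (jC (Gr J Λ)) _ _ ≫ (jC _).map (m x.deg y.deg))
          (tm_plot (X := (jC _).obj (F.K x.deg)) (Y := (jC _).obj (F'.K y.deg)) hz hz') }

@[reassoc (attr := simp)]
theorem mul_tot : mul J t m h ≫ F''.tot J =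
    (F.tot J ⊗ₘ F'.tot J) ≫ Functor.LaxMonoidal.μ (jC (Gr J Λ)) _ _ ≫ (jC _).map t :=
  tensor_ext fun _ _ z z' => by
    rw [fn_comp, mul, tensorDesc_tm]
    exact tot_mulF t m h z z'

end mul

section cell

variable {g : Λ} (hg : 0 ≤ g) {A : LC} (φ : A ⟶ F.K g)

variable (J) in
/-- the map from the unit of degree `g` to the unit -/
noncomputable def tu : rep (⟨𝟙_ J, g⟩ : Gr J Λ) ⟶ 𝟙_ (EF (Gr J Λ)) :=
  repMap (Gr.homMk (x := 𝟙_ (Gr J Λ)) (y := ⟨𝟙_ J, g⟩) (𝟙 _) hg)

/-- the cells -/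
noncomputable def cell₀ : smul (PQ.LCPQ.obj A) (rep (⟨𝟙_ J, g⟩ : Gr J Λ)) ⟶ F.fil J :=
  smulYo (PQ.LCPQ.map φ ≫ Funit _ ≫ ((jC (Gr J Λ)).obj (F.K g)).map
    (Gr.homMk (x := 𝟙_ (Gr J Λ)) (y := ⟨𝟙_ J, g⟩) (𝟙 _) hg))

theorem cell₀_tot : F.cell₀ hg φ ≫ F.tot J = smulMap (PQ.LCPQ.map (φ ≫ F.c g)) (tu J hg) :=
  smul_rep_hom_ext fun k => by
    rw [fn_comp, cell₀, fn_smulYo, act_id]
    refine (congrArg _ (jC_act _ (app φ k) _)).trans ((fn_jC_map _ _ _).trans
      (Eq.trans ?_ (fn_smulMap _ _ _ _).symm))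
    rw [tu, fn_repMap_pr, Category.id_comp, Category.comp_id]
    rfl

variable (J) in
/-- the cells -/
noncomputable def cell : rep (⟨𝟙_ J, g⟩ : Gr J Λ) ⊗ (jC (Gr J Λ)).obj A ⟶ F.fil J :=
  (repF _ _).hom ≫ F.cell₀ hg φ

@[reassoc (attr := simp)]
theorem cell_tot : F.cell J hg φ ≫ F.tot J =
    tu J hg ▷ _ ≫ (λ_ _).hom ≫ (jC (Gr J Λ)).map (φ ≫ F.c g) := by
  rw [cell, Category.assoc, cell₀_tot]
  exact repF_smulMap _ _

theorem isIso_tu_app {x : Gr J Λ} (hx : g ≤ x.deg) : IsIso ((tu J hg).app x) := by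
  have e : (tu J hg).app x = (Gr.homIso (x := (⟨𝟙_ J, g⟩ : Gr J Λ)) hx).hom ≫
      (Gr.homIso (x := 𝟙_ (Gr J Λ)) (hg.trans hx)).inv := by
    apply PQ.hom_ext'
    intro u
    obtain ⟨u, rfl⟩ := pr_surjective u
    refine ((fn_repMap_pr _ u).trans ?_).trans (PQ.app_comp _ _ _).symm
    refine Eq.trans ?_ (congrArg _ (Gr.app_homIso_hom (x := (⟨𝟙_ J, g⟩ : Gr J Λ)) hx u)).symm
    exact (congrArg pr (Gr.hom_ext (Category.id_comp _))).trans
      (Gr.app_homIso_inv (x := 𝟙_ (Gr J Λ)) (hg.trans hx) u.hom).symm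
  rw [e]
  infer_instance

theorem isIso_cell_app {x : Gr J Λ} (hx : g ≤ x.deg) [IsIso (φ ≫ F.i g x.deg)] :
    IsIso ((F.cell J hg φ).app x) := by
  have e : (F.cell₀ hg φ).app x = PQ.LCPQ.map (φ ≫ F.i g x.deg) ⊗ₘ (tu J hg).app x := by
    refine PQ.hom_ext₂ fun k u => F.tot_injective x ?_
    refine (congrArg (fun t => fn t (sm k u)) (F.cell₀_tot hg φ)).trans
      ((fn_smulMap _ _ _ _).trans (Eq.symm ?_))
    refine (congrArg (fn (F.tot J)) (PQ.app_tensorHom_smash _ _ k u)).trans ?_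
    refine (fn_smulMap (PQ.LCPQ.map (F.c x.deg)) (𝟙 (sphere (Gr J Λ))) _ _).trans ?_
    rw [← PQ.app_comp, ← Functor.map_comp, Category.assoc, F.w hx]
    rfl
  have := isIso_tu_app hg hx
  have : IsIso ((F.cell₀ hg φ).app x) := by
    rw [e]
    exact tensor_isIso _ _
  exact IsIso.comp_isIso' (Functor.map_isIso (ev x) (repF _ _).hom) this

end cell

end FS

end Vale.Agent.P257.Z
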