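import Vale.Agent.P257.Z.Rb
import Vale.Agent.P257.E.Free
import Mathlib.Analysis.SpecialFunctions.Sigmoid

/-!
# P257, block Z: Pontryagin-Thom collapses for `G`-sets of lattice points

* `GHtpy`: equivariant homotopies of maps of `G`-spaces;
* `grph s`, `gsel s`: for a `G`-space `K` over a finite `G`-set `T`;
* `Cod ι T`: an equivariant embedding of `T` in the lattice `ι → ℤ`; `C.pt : S^ι ⟶ S^ι ⊗ T₊`;
  `C.gHtpy_kap`, `C.homotopic_pt`;
* `Sb ι`: the nonempty proper subsets; `codSb`, `codPerm`, `codPt`.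
-/

open CategoryTheory MonoidalCategory Limits Topology OnePoint Filter
open scoped NNReal

namespace Vale.Agent.P257.Z

open Vale.Agent.P257.E
open Vale.Agent.P251.G (LC)
open Vale.Agent.P251.G.LC (RR II HH app smash incl expHH)
open Equiv (Perm)

section gen

variable {G : Type} [Group G]

/-- equivariant homotopies -/
def GHtpy {X Y : Action LC G} (f f' : X ⟶ Y) : Prop :=
  ∃ K : X.V ⊗ II ⟶ Y.V, (∀ g, act X g ▷ II ≫ K = K ≫ act Y g) ∧ incl 0 X.V ≫ K = f.hom ∧
    incl 1 X.V ≫ K = f'.hom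

variable {T : Type}

theorem isOpenEmbedding_dco (t : T) : IsOpenEmbedding fun _ : Unit => Ds.mk t :=
  IsOpenEmbedding.of_continuous_injective_isOpenMap continuous_const
    (fun _ _ _ => rfl) fun _ _ => isOpen_discrete _

/-- the collapse onto a point of a discrete space -/
noncomputable def dco (t : T) : dsp T ⟶ 𝟙_ LC :=
  LC.ofOpen (X := dsp T) (Y := LC.of Unit) _ (isOpenEmbedding_dco t)

theorem app_dco_self (t : T) : app (dco t) ((Ds.mk t : Ds T) : OnePoint (Ds T)) =
    ((() : Unit) : OnePoint Unit) :=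
  LC.app_ofOpen_coe (X := dsp T) (Y := LC.of Unit) _ (isOpenEmbedding_dco t) ()

theorem app_dco_ne {t t' : T} (h : t ≠ t') :
    app (dco t) ((Ds.mk t' : Ds T) : OnePoint (Ds T)) = ∞ :=
  LC.app_ofOpen_of_notMem (X := dsp T) (Y := LC.of Unit) _ (isOpenEmbedding_dco t)
    fun ⟨_, h'⟩ => h h'

theorem dpt_dco (t : T) : dpt t ≫ dco t = 𝟙 _ := LC.hom_ext fun _ => app_dco_self t

theorem dpt_dco_ne {t t' : T} (h : t ≠ t') : dpt t' ≫ dco t = 0 :=
  LC.hom_ext fun _ => app_dco_ne h

variable [MulAction G T]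

theorem act_dco (g : G) (t : T) : act (gds G T) g ≫ dco (g • t) = dco t := by
  refine LC.hom_ext fun x => ?_
  by_cases h : t = x.val
  · subst h
    exact (app_dco_self _).trans (app_dco_self _).symm
  · exact (app_dco_ne fun h' => h (MulAction.injective g h')).trans (app_dco_ne h).symm

variable {K : Type} [TopologicalSpace K] [LocallyCompactSpace K] [T2Space K] [MulAction G K]
  [ContinuousConstSMul G K] (s : K → Ds T) (hs : Continuous s)
  (he : ∀ (g : G) k, s (g • k) = g • s k)

omit [LocallyCompactSpace K] [MulAction G T] in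
include hs in
theorem isClosedEmbedding_grph : IsClosedEmbedding fun k => (s k, k) :=
  Function.LeftInverse.isClosedEmbedding (f := Prod.snd) (fun _ => rfl) continuous_snd
    (hs.prodMk continuous_id)

omit [LocallyCompactSpace K] [MulAction G T] in
include hs in
theorem isOpenEmbedding_grph : IsOpenEmbedding fun k => (s k, k) := by
  refine ⟨(isClosedEmbedding_grph s hs).isEmbedding, ?_⟩
  have h : (Set.range fun k => (s k, k)) =
      (fun p : Ds T × K => (p.1, s p.2)) ⁻¹' Set.diagonal (Ds T) := by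
    ext p
    exact ⟨by rintro ⟨k, rfl⟩; rfl, fun h => ⟨p.2, Prod.ext (Eq.symm h) rfl⟩⟩
  rw [h]
  exact (isOpen_discrete _).preimage (continuous_fst.prodMk (hs.comp continuous_snd))

/-- the graph -/
def grph : gsp G K ⟶ gds G T ⊗ gsp G K :=
  gClosed (fun k => (s k, k)) (isClosedEmbedding_grph s hs)
    (fun g k => Prod.ext (he g k) rfl) ≫ (gspTensor G (Ds T) K).inv

/-- the collapse onto the graph -/
noncomputable def gsel : gds G T ⊗ gsp G K ⟶ gsp G K :=
  (gspTensor G (Ds T) K).hom ≫ gOpen (fun k => (s k, k)) (isOpenEmbedding_grph s hs)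
    (fun g k => Prod.ext (he g k) rfl)

theorem app_gsel_self (k : K) :
    app (gsel s hs he).hom (smash (s k : OnePoint (Ds T)) (k : OnePoint K)) = k :=
  LC.app_ofOpen_coe (X := dsp T ⊗ LC.of K) (Y := LC.of K) _ (isOpenEmbedding_grph s hs) k

theorem app_gsel_ne {t : Ds T} {k : K} (h : s k ≠ t) :
    app (gsel s hs he).hom (smash (t : OnePoint (Ds T)) (k : OnePoint K)) = ∞ :=
  LC.app_ofOpen_of_notMem (X := dsp T ⊗ LC.of K) (Y := LC.of K) _ (isOpenEmbedding_grph s hs)
    (x := (t, k))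
    fun ⟨_, h'⟩ => h ((congrArg s (congrArg Prod.snd h')).symm.trans (congrArg Prod.fst h'))

theorem grph_gaug [Finite T] : grph s hs he ≫ gaug G T ▷ gsp G K ≫ (λ_ _).hom = 𝟙 _ :=
  gsp_hom_ext fun _ => rfl

end gen

variable {ι : Type}

theorem dpr_eq [Finite ι] [Nonempty ι] (i : ι) (K : LC) : dpr i K = dco i ▷ K ≫ (λ_ K).hom := by
  refine LC.tensor_ext fun (a : Ds ι) y => ?_
  rw [LC.app_comp, LC.app_whiskerRight_smash]
  by_cases h : a.val = i
  · subst h
    rw [show app (dco (Ds.val a)) (a : OnePoint (Ds ι)) = _ from app_dco_self _,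
      LC.app_leftUnitor_smash]
    exact LC.app_ofOpen_coe (X := LC.of (Ds ι) ⊗ K) (Y := K) _ (isOpenEmbedding_dsMk _ K) y
  · rw [show app (dco i) (a : OnePoint (Ds ι)) = _ from app_dco_ne (Ne.symm h),
      LC.smash_infty_left, LC.app_infty]
    exact LC.app_ofOpen_of_notMem (X := LC.of (Ds ι) ⊗ K) (Y := K) _ (isOpenEmbedding_dsMk _ K)
      (x := (a, y)) fun ⟨_, h'⟩ => h (congrArg Prod.fst h').symm

/-- an equivariant embedding in the lattice -/
structure Cod (ι T : Type) [MulAction (Perm ι) T] where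
  /-- the embedding -/
  c : T → Fn ι ℤ
  inj : Function.Injective c
  eqv : ∀ (g : Perm ι) t, c (g • t) = g • c t

namespace Cod

variable {T : Type} [MulAction (Perm ι) T] (C : Cod ι T)

/-- the parametrization of the edges of the unit cubes -/
noncomputable def edge (t : Ds T) (i : ι) (u : ℝ) : ℝ := C.c t.val i + Real.sigmoid u

theorem strictMono_edge (t : Ds T) (i : ι) : StrictMono (C.edge t i) :=
  Real.sigmoid_strictMono.const_add _

theorem continuous_edge {X : Type} [TopologicalSpace X] {a : X → Ds T} {b : X → ℝ} (i : ι)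
    (ha : Continuous a) (hb : Continuous b) : Continuous fun x => C.edge (a x) i (b x) :=
  ((continuous_of_discreteTopology (f := fun t : Ds T => (C.c t.val i : ℝ))).comp ha).add
    (continuous_sigmoid.comp hb)

theorem floor_edge (t : Ds T) (i : ι) (u : ℝ) : ⌊C.edge t i u⌋ = C.c t.val i :=
  Int.floor_eq_iff.2 ⟨le_add_of_nonneg_right (Real.sigmoid_nonneg u),
    add_lt_add_right (Real.sigmoid_lt_one u) _⟩

/-- the parametrization of the unit cubes -/
noncomputable def cube (t : Ds T) (u : Fn ι ℝ) : Fn ι ℝ := fun i => C.edge t i (u i)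

theorem cube_smul (g : Perm ι) (t : Ds T) (u : Fn ι ℝ) :
    C.cube (g • t) (g • u) = g • C.cube t u :=
  Fn.ext fun i => congrArg (fun z : Fn ι ℤ => (z i : ℝ) + Real.sigmoid (u (g.symm i)))
    (C.eqv g t.val)

theorem eq_of_cube_eq {t t' : Ds T} {u u' : Fn ι ℝ} (h : C.cube t u = C.cube t' u') : t = t' :=
  C.inj (Fn.ext fun i => (C.floor_edge t i (u i)).symm.trans
    ((congrArg (fun z : Fn ι ℝ => ⌊z i⌋) h).trans (C.floor_edge t' i (u' i))))

variable [Finite ι]

theorem isOpenEmbedding_cube : IsOpenEmbedding fun q : Fn ι ℝ × Ds T => C.cube q.2 q.1 := by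
  have h := isOpenEmbedding_mono C.edge
    (fun i => C.continuous_edge i continuous_fst continuous_snd) C.strictMono_edge
  refine IsOpenEmbedding.of_continuous_injective_isOpenMap (continuous_fst.comp h.continuous)
    (fun q q' e => h.injective (Prod.ext e (C.eq_of_cube_eq e))) (isOpenMap_fst.comp h.isOpenMap)

/-- the Pontryagin-Thom collapse -/
noncomputable def pt : VA ι ⟶ VA ι ⊗ gds (Perm ι) T :=
  gOpen (fun q : Fn ι ℝ × Ds T => C.cube q.2 q.1) C.isOpenEmbedding_cube
    (fun g q => C.cube_smul g q.2 q.1) ≫ (gspTensor _ (Fn ι ℝ) (Ds T)).inv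

theorem app_pt (t : Ds T) (u : Fn ι ℝ) : app C.pt.hom (C.cube t u : OnePoint (Fn ι ℝ)) =
    smash (u : OnePoint (Fn ι ℝ)) (t : OnePoint (Ds T)) :=
  LC.app_ofOpen_coe (X := LC.of (Fn ι ℝ)) (Y := LC.of (Fn ι ℝ) ⊗ dsp T) _
    C.isOpenEmbedding_cube (u, t)

theorem app_pt_of_notMem {v : Fn ι ℝ} (h : ∀ t u, C.cube t u ≠ v) :
    app C.pt.hom (v : OnePoint (Fn ι ℝ)) = ∞ :=
  (congrArg (app (𝟙 _)) (LC.app_ofOpen_of_notMem (X := LC.of (Fn ι ℝ))
    (Y := LC.of (Fn ι ℝ) ⊗ dsp T) _ C.isOpenEmbedding_cube fun ⟨q, hq⟩ => h q.2 q.1 hq)).trans rfl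

/-- the components of the collapse are homotopic to the identity -/
theorem homotopic_pt (t : T) :
    LC.Homotopic (𝟙 _) (C.pt.hom ≫ (VA ι).V ◁ dco t ≫ (ρ_ _).hom) := by
  refine (homotopic_ofOpen_mono (C.edge (Ds.mk t))
    (fun i => C.continuous_edge i continuous_const continuous_id)
    (C.strictMono_edge _)).trans (LC.Homotopic.of_eq (LC.hom_ext fun (v : Fn ι ℝ) => ?_))
  change _ = app (ρ_ (VA ι).V).hom (app ((VA ι).V ◁ dco t) (app C.pt.hom (v : OnePoint (Fn ι ℝ))))
  by_cases h : ∃ t' u, C.cube t' u = v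
  · obtain ⟨t', u, rfl⟩ := h
    rw [app_pt, LC.app_whiskerLeft_smash]
    by_cases h' : t'.val = t
    · subst h'
      rw [show app (dco (Ds.val t')) (t' : OnePoint (Ds T)) = _ from app_dco_self _,
        LC.app_rightUnitor_smash]
      exact LC.app_ofOpen_coe (X := LC.of (ι → ℝ)) (Y := LC.of (ι → ℝ)) _ _ u
    · rw [show app (dco t) (t' : OnePoint (Ds T)) = _ from app_dco_ne (Ne.symm h'),
        LC.smash_infty_right, LC.app_infty]
      exact LC.app_ofOpen_of_notMem (X := LC.of (ι → ℝ)) (Y := LC.of (ι → ℝ)) _ _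
        fun ⟨u', e⟩ => h' (C.eq_of_cube_eq (t := Ds.mk t) e).symm
  · push Not at h
    rw [C.app_pt_of_notMem h, LC.app_infty, LC.app_infty]
    exact LC.app_ofOpen_of_notMem (X := LC.of (ι → ℝ)) (Y := LC.of (ι → ℝ)) _ _
      fun ⟨u', e⟩ => h (Ds.mk t) u' e

variable {K : Type} [TopologicalSpace K] [LocallyCompactSpace K] [T2Space K]
  [MulAction (Perm ι) K] [ContinuousConstSMul (Perm ι) K] (s : K → Ds T) (hs : Continuous s)
  (he : ∀ (g : Perm ι) k, s (g • k) = g • s k)

/-- the collapse followed by the selection is equivariantly homotopic to the identity -/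
theorem gHtpy_kap : GHtpy (𝟙 _)
    (C.pt ▷ gsp (Perm ι) K ≫ (α_ _ _ _).hom ≫ VA ι ◁ gsel s hs he) := by
  have h1 := isOpenEmbedding_mono (P := K × unitInterval)
    (fun p i => seg (C.edge (s p.1) i) p.2)
    (fun i => continuous_seg (f := fun q : (K × unitInterval) × ℝ => C.edge (s q.1.1) i)
      (C.continuous_edge i (hs.comp (continuous_fst.comp continuous_fst)) continuous_snd)
      (continuous_snd.comp continuous_fst) continuous_snd)
    (fun p i => strictMono_seg (C.strictMono_edge _ i) _)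
  let j : (Fn ι ℝ × K) × unitInterval → Fn ι ℝ × K :=
    fun q => (fun i => seg (C.edge (s q.1.2) i) q.2 (q.1.1 i), q.1.2)
  have hj : IsOpenEmbedding fun q : (Fn ι ℝ × K) × unitInterval => (j q, q.2) :=
    (Homeomorph.prodAssoc (ι → ℝ) K unitInterval).symm.isOpenEmbedding.comp
      (h1.comp (Homeomorph.prodAssoc (ι → ℝ) K unitInterval).isOpenEmbedding)
  have hje : ∀ (g : Perm ι) y t, j (g • y, t) = g • j (y, t) := fun g y t =>
    Prod.ext (Fn.ext fun i => by
      change seg (C.edge (s (g • y.2)) i) t (y.1 (g.symm i)) =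
        seg (C.edge (s y.2) (g.symm i)) t (y.1 (g.symm i))
      rw [he]
      exact congrArg (fun z : Fn ι ℤ => seg (fun u => (z i : ℝ) + Real.sigmoid u) t
        (y.1 (g.symm i))) (C.eqv g (s y.2).val)) rfl
  obtain ⟨H, hH⟩ := exists_htpy_ofOpen (X := LC.of (Fn ι ℝ) ⊗ LC.of K) j hj
  refine ⟨H, fun g => LC.tensor_ext fun (x : Fn ι ℝ × K) t => ?_, LC.hom_ext fun x => ?_,
    LC.hom_ext fun x => ?_⟩
  · rw [LC.app_comp, LC.app_comp]
    change app H (smash ((g • x : Fn ι ℝ × K) : OnePoint (Fn ι ℝ × K))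
      (t : OnePoint unitInterval)) = _
    by_cases h : ∃ y, j (y, t) = x
    · obtain ⟨y, rfl⟩ := h
      rw [(hH t _).1 y rfl]
      exact (hH t _).1 (g • y) (hje g y t)
    · push Not at h
      rw [(hH t _).2 h, LC.app_infty]
      exact (hH t _).2 fun (y : Fn ι ℝ × K) e => h (g⁻¹ • y) (by rw [hje, e, inv_smul_smul])
  · rw [LC.app_comp, LC.app_incl]
    exact (hH 0 x).1 x (Prod.ext (Fn.ext fun i => seg_zero _ _) rfl)
  · obtain ⟨v, k⟩ := x
    have hj1 : ∀ y, j (y, 1) = (C.cube (s y.2) y.1, y.2) := fun y =>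
      Prod.ext (Fn.ext fun i => seg_one _ _) rfl
    rw [LC.app_comp, LC.app_incl, Action.comp_hom, Action.comp_hom, Action.whiskerRight_hom,
      Action.whiskerLeft_hom, Action.associator_hom_hom]
    change _ = app ((VA ι).V ◁ (gsel s hs he).hom) (app (α_ (VA ι).V (dsp T) (LC.of K)).hom
      (app (C.pt.hom ▷ LC.of K) (smash (v : OnePoint (Fn ι ℝ)) (k : OnePoint K))))
    rw [LC.app_whiskerRight_smash]
    by_cases h : ∃ t' u, C.cube t' u = v
    · obtain ⟨t', u, rfl⟩ := h
      rw [app_pt, LC.app_associator_smash, LC.app_whiskerLeft_smash]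
      by_cases h' : s k = t'
      · subst h'
        rw [app_gsel_self]
        exact (hH 1 _).1 (u, k) (hj1 _)
      · rw [app_gsel_ne s hs he h', LC.smash_infty_right]
        refine (hH 1 _).2 fun y e => h' ?_
        rw [hj1] at e
        exact (congrArg s (congrArg Prod.snd e)).symm.trans
          (C.eq_of_cube_eq (congrArg Prod.fst e))
    · push Not at h
      rw [C.app_pt_of_notMem h, LC.smash_infty_left, LC.app_infty, LC.app_infty]
      refine (hH 1 _).2 fun y e => ?_
      rw [hj1] at e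
      exact h _ _ (congrArg Prod.fst e)

end Cod

variable (ι) in
/-- the nonempty proper subsets -/
def Sb : Type := {T : Set ι // T.Nonempty ∧ T ≠ Set.univ}

instance [Finite ι] : Finite (Sb ι) := inferInstanceAs (Finite {T : Set ι // T.Nonempty ∧ T ≠ Set.univ})

instance : MulAction (Perm ι) (Sb ι) where
  smul g T := ⟨g.symm ⁻¹' T.1, T.2.1.preimage g.symm.surjective,
    fun h => T.2.2 (g.symm.surjective.preimage_injective h)⟩
  one_smul _ := rfl
  mul_smul _ _ _ := rfl

theorem Sb.smul_val (g : Perm ι) (T : Sb ι) : (g • T).1 = g.symm ⁻¹' T.1 := rfl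

open scoped Classical in
variable (ι) in
/-- subsets as vertices of the cube -/
noncomputable def codSb : Cod ι (Sb ι) where
  c T i := if i ∈ T.1 then 1 else 0
  inj T T' h := Subtype.ext (Set.ext fun i => by
    have h1 : (if i ∈ T.1 then (1 : ℤ) else 0) = if i ∈ T'.1 then 1 else 0 := congrFun h i
    by_cases a : i ∈ T.1 <;> by_cases b : i ∈ T'.1 <;> simp_all)
  eqv _ _ := rfl

open scoped Classical in
variable (ι) in
/-- points as unit vectors -/
noncomputable def codPt : Cod ι ι where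
  c t i := if i = t then 1 else 0
  inj t t' h := by
    have h1 : (if t = t then (1 : ℤ) else 0) = if t = t' then 1 else 0 := congrFun h t
    by_contra a
    simp [a] at h1
  eqv g t := Fn.ext fun i => if_congr g.symm_apply_eq.symm rfl rfl

variable (ι) in
/-- permutations as numberings -/
noncomputable def codPerm [Finite ι] : Cod ι (Perm ι) where
  c g i := ((Finite.equivFin ι (g.symm i) : ℕ) : ℤ)
  inj g g' h := by
    have h1 : g.symm = g'.symm := Equiv.ext fun i =>
      (Finite.equivFin ι).injective (Fin.ext (Nat.cast_injective (R := ℤ) (congrFun h i)))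
    exact Equiv.symm_bijective.injective h1
  eqv _ _ := rfl

/-- an element which fixes a nonempty proper subset is not transitive -/
theorem Sb.exists_of_fixed {g : Perm ι} {T : Sb ι} (h : g • T = T) :
    ∃ a b : ι, ∀ n : ℕ, (g ^ n) a ≠ b := by
  obtain ⟨a, ha⟩ := T.2.1
  obtain ⟨b, hb⟩ := (Set.ne_univ_iff_exists_notMem _).1 T.2.2
  have key : ∀ n : ℕ, (g ^ n) a ∈ T.1 := fun n => by
    induction n with
    | zero => exact ha
    | succ n ih =>
      rw [← h, Sb.smul_val, pow_succ', Perm.mul_apply, Set.mem_preimage, g.symm_apply_apply]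
      exact ih
  exact ⟨a, b, fun n e => hb (e ▸ key n)⟩

variable [Finite ι] {c : Prop} {j : ℕ}

/-- the support as a nonempty proper subset -/
def sbSt (h1 : 1 ≤ j) (h2 : j ≤ pd ι) (x : St ι c j) : Ds (Sb ι) :=
  Ds.mk ⟨supp x.1, Set.nonempty_of_ncard_ne_zero (x.2.2.trans_ne (by omega)), fun h => by
    have h3 := x.2.2
    rw [ns, h, Set.ncard_univ] at h3
    unfold pd at h2
    omega⟩

theorem continuous_sbSt (h1 : 1 ≤ j) (h2 : j ≤ pd ι) : Continuous (sbSt (c := c) h1 h2) :=
  IsLocallyConstant.continuous ((IsLocallyConstant.iff_eventually_eq _).2 fun x =>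
    (eventually_supp_eq x).mono fun _ hy => Subtype.ext hy)

omit [Finite ι] in
theorem sbSt_smul (h1 : 1 ≤ j) (h2 : j ≤ pd ι) (g : Perm ι) (x : St ι c j) :
    sbSt h1 h2 (g • x) = g • sbSt h1 h2 x := rfl

/-- points as subsets -/
def sbPt [Nontrivial ι] (i : Ds ι) : Ds (Sb ι) :=
  Ds.mk ⟨{i.val}, Set.singleton_nonempty _, fun h => by
    obtain ⟨l, hl⟩ := exists_ne i.val
    exact hl (h ▸ Set.mem_univ l : l ∈ ({i.val} : Set ι))⟩

omit [Finite ι] in
theorem sbPt_smul [Nontrivial ι] (g : Perm ι) (i : Ds ι) : sbPt (g • i) = g • sbPt i :=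
  Subtype.ext (Set.ext fun _ => g.symm_apply_eq.symm)

end Vale.Agent.P257.Z
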