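import Vale.Agent.P257.Z.Ndr

/-!
# P257, block Z: the support filtration of `[0, ∞)^ι`

* `Fn ι X`: functions `ι → X` with the permutation action; `Ds X`: a discrete `G`-set;
* `Fl ι c j`: points of `[0, ∞)^ι` with at most `j` nonzero coordinates (and maximum `1` if `c`),
  `St ι c j`: exactly `j` nonzero coordinates;
* `gι`, `gπ`, `hCof_gι`, `isPushout_gπ`: the cofibre sequences `Fl j ⟶ Fl (j + 1) ⟶ St (j + 1)`;
* `pol`, `isPushout_pol`: `Fl False j` is the mapping cone of `Fl True j ⟶ 𝟙`;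
* `stIso : St True j ⊗ ℝ ≅ St False j`.
-/

open CategoryTheory MonoidalCategory Limits Topology OnePoint Filter
open Functor.LaxMonoidal Functor.OplaxMonoidal
open scoped NNReal

namespace Vale.Agent.P257.Z

open Vale.Agent.P251.H Vale.Agent.P251.H.StabInput Vale.Agent.P257.E
open Vale.Agent.P251.G (LC)
open Vale.Agent.P251.G.LC (RR II HH app smash incl IsRetr tsub expHH)
open Equiv (Perm)

universe v u

/-- functions with the permutation action -/
def Fn (ι X : Type) : Type := ι → X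

namespace Fn

variable {ι X : Type}

instance [TopologicalSpace X] : TopologicalSpace (Fn ι X) :=
  inferInstanceAs (TopologicalSpace (ι → X))

instance [TopologicalSpace X] [T2Space X] : T2Space (Fn ι X) := inferInstanceAs (T2Space (ι → X))

instance [Finite ι] [TopologicalSpace X] [LocallyCompactSpace X] : LocallyCompactSpace (Fn ι X) :=
  inferInstanceAs (LocallyCompactSpace (ι → X))

instance : MulAction (Perm ι) (Fn ι X) where
  smul g x := fun i => x (g.symm i)
  one_smul _ := rfl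
  mul_smul _ _ _ := rfl

theorem smul_apply (g : Perm ι) (x : Fn ι X) (i : ι) : (g • x) i = x (g.symm i) := rfl

theorem ext {x y : Fn ι X} (h : ∀ i, x i = y i) : x = y := funext h

theorem continuous_ap [TopologicalSpace X] (i : ι) : Continuous fun x : Fn ι X => x i :=
  continuous_apply i

theorem continuous_mk [TopologicalSpace X] {Y : Type} [TopologicalSpace Y] {f : Y → Fn ι X}
    (h : ∀ i, Continuous fun y => f y i) : Continuous f := continuous_pi h

instance [TopologicalSpace X] : ContinuousConstSMul (Perm ι) (Fn ι X) :=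
  ⟨fun g => continuous_mk fun i => continuous_ap (g.symm i)⟩

end Fn

/-- a type with the discrete topology -/
def Ds (X : Type) : Type := X

namespace Ds

variable {X : Type}

instance : TopologicalSpace (Ds X) := ⊥

instance : DiscreteTopology (Ds X) := ⟨rfl⟩

instance [h : Finite X] : Finite (Ds X) := h

instance {G : Type} [Group G] [h : MulAction G X] : MulAction G (Ds X) := h

instance {G : Type} [Group G] [MulAction G X] : ContinuousConstSMul G (Ds X) :=
  ⟨fun _ => continuous_of_discreteTopology⟩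

/-- the identity -/
def mk (x : X) : Ds X := x

/-- the identity -/
def val (x : Ds X) : X := x

end Ds

variable {ι : Type}

/-- the support -/
def supp (x : Fn ι ℝ≥0) : Set ι := {i | x i ≠ 0}

/-- the number of nonzero coordinates -/
noncomputable def ns (x : Fn ι ℝ≥0) : ℕ := (supp x).ncard

/-- the maximum of the coordinates -/
noncomputable def top (x : Fn ι ℝ≥0) : ℝ≥0 := ⨆ i, x i

/-- the product of a scalar and a point -/
def sc (t : ℝ≥0) (x : Fn ι ℝ≥0) : Fn ι ℝ≥0 := fun i => t * x i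

/-- the origin -/
def zer : Fn ι ℝ≥0 := fun _ => 0

theorem supp_smul (g : Perm ι) (x : Fn ι ℝ≥0) : supp (g • x) = g.symm ⁻¹' supp x := rfl

theorem ns_smul (g : Perm ι) (x : Fn ι ℝ≥0) : ns (g • x) = ns x := by
  rw [ns, supp_smul, ← Equiv.image_eq_preimage_symm, Set.ncard_image_of_injective _ g.injective,
    ns]

theorem top_smul (g : Perm ι) (x : Fn ι ℝ≥0) : top (g • x) = top x :=
  g.symm.surjective.iSup_comp (fun i => x i)

theorem supp_zer : supp (zer : Fn ι ℝ≥0) = ∅ := Set.eq_empty_of_forall_notMem fun _ h => h rfl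

theorem ns_zer : ns (zer : Fn ι ℝ≥0) = 0 := by rw [ns, supp_zer, Set.ncard_empty]

theorem supp_sc {t : ℝ≥0} (ht : t ≠ 0) (x : Fn ι ℝ≥0) : supp (sc t x) = supp x := by
  ext i
  simp [supp, sc, ht]

theorem ns_sc {t : ℝ≥0} (ht : t ≠ 0) (x : Fn ι ℝ≥0) : ns (sc t x) = ns x := by
  rw [ns, supp_sc ht, ns]

theorem sc_zero (x : Fn ι ℝ≥0) : sc 0 x = zer := Fn.ext fun _ => zero_mul _

theorem sc_sc (s t : ℝ≥0) (x : Fn ι ℝ≥0) : sc s (sc t x) = sc (s * t) x :=
  Fn.ext fun _ => (mul_assoc _ _ _).symm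

theorem sc_one (x : Fn ι ℝ≥0) : sc 1 x = x := Fn.ext fun _ => one_mul _

theorem top_sc (t : ℝ≥0) (x : Fn ι ℝ≥0) : top (sc t x) = t * top x :=
  (NNReal.mul_iSup (fun i => x i) t).symm

theorem continuous_sc {Y : Type} [TopologicalSpace Y] {t : Y → ℝ≥0} {x : Y → Fn ι ℝ≥0}
    (ht : Continuous t) (hx : Continuous x) : Continuous fun y => sc (t y) (x y) :=
  Fn.continuous_mk fun i => ht.mul ((Fn.continuous_ap i).comp hx)

variable [Finite ι]

theorem le_top (x : Fn ι ℝ≥0) (i : ι) : x i ≤ top x :=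
  le_ciSup (f := fun i => x i) (Set.finite_range _).bddAbove i

omit [Finite ι] in
theorem top_le {x : Fn ι ℝ≥0} {t : ℝ≥0} (h : ∀ i, x i ≤ t) : top x ≤ t := ciSup_le' h

theorem exists_eq_top {x : Fn ι ℝ≥0} (h : top x ≠ 0) : ∃ i, x i = top x := by
  cases isEmpty_or_nonempty ι with
  | inl _ => exact absurd (le_antisymm (top_le fun i => isEmptyElim i) zero_le) h
  | inr _ => exact exists_eq_ciSup_of_finite (f := fun i => x i)

theorem top_eq_zero {x : Fn ι ℝ≥0} (h : top x = 0) : x = zer :=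
  Fn.ext fun i => le_antisymm ((le_top x i).trans h.le) zero_le

theorem continuous_top : Continuous (top : Fn ι ℝ≥0 → ℝ≥0) := by
  have := Fintype.ofFinite ι
  have h : (top : Fn ι ℝ≥0 → ℝ≥0) = fun x => Finset.univ.sup fun i => x i :=
    funext fun x => (Finset.sup_univ_eq_ciSup _).symm
  rw [h]
  exact Continuous.finset_sup_apply fun i _ => Fn.continuous_ap i

theorem isCompact_top_le (R : ℝ≥0) : IsCompact {x : Fn ι ℝ≥0 | top x ≤ R} := by
  have h : {x : Fn ι ℝ≥0 | top x ≤ R} = Set.pi Set.univ fun _ : ι => Set.Icc (0 : ℝ≥0) R := by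
    ext x
    exact ⟨fun h i _ => ⟨zero_le, (le_top x i).trans h⟩, fun h => top_le fun i => (h i trivial).2⟩
  rw [h]
  exact isCompact_univ_pi fun _ => isCompact_Icc

theorem exists_top_le {K : Set (Fn ι ℝ≥0)} (hK : IsCompact K) : ∃ R, ∀ x ∈ K, top x ≤ R := by
  obtain ⟨R, hR⟩ := (hK.image continuous_top).bddAbove
  exact ⟨R, fun x hx => hR ⟨x, hx, rfl⟩⟩

theorem eventually_supp_subset (x : Fn ι ℝ≥0) : ∀ᶠ y in 𝓝 x, supp x ⊆ supp y := by
  have h : ∀ i, ∀ᶠ y in 𝓝 x, i ∈ supp x → i ∈ supp y := fun i => by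
    by_cases hi : i ∈ supp x
    · filter_upwards [(isOpen_ne_fun (Fn.continuous_ap i) continuous_const).mem_nhds hi]
        with _ hy _ using hy
    · exact Eventually.of_forall fun _ h => absurd h hi
  exact (eventually_all.2 h).mono fun _ hy i hi => hy i hi

theorem ns_mono {x y : Fn ι ℝ≥0} (h : supp x ⊆ supp y) : ns x ≤ ns y :=
  Set.ncard_le_ncard h (Set.toFinite _)

theorem isOpen_le_ns (j : ℕ) : IsOpen {x : Fn ι ℝ≥0 | j ≤ ns x} :=
  isOpen_iff_mem_nhds.2 fun x hx =>
    (eventually_supp_subset x).mono fun _ hy => le_trans hx (ns_mono hy)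

theorem isClosed_ns_le (j : ℕ) : IsClosed {x : Fn ι ℝ≥0 | ns x ≤ j} := by
  have h : {x : Fn ι ℝ≥0 | ns x ≤ j} = {x : Fn ι ℝ≥0 | j + 1 ≤ ns x}ᶜ := by
    ext x
    simp
  rw [h]
  exact (isOpen_le_ns _).isClosed_compl

theorem ns_eq_zero {x : Fn ι ℝ≥0} (h : ns x = 0) : x = zer := by
  rw [ns, Set.ncard_eq_zero (Set.toFinite _)] at h
  refine Fn.ext fun i => ?_
  by_contra hi
  exact (h ▸ hi : i ∈ (∅ : Set ι))

theorem ns_le_card (x : Fn ι ℝ≥0) : ns x ≤ Nat.card ι := Set.ncard_le_card _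

/-- the distance to the points with at most `j` nonzero coordinates -/
theorem exists_dist (j : ℕ) : ∃ d : Fn ι ℝ≥0 → ℝ≥0, Continuous d ∧ (∀ x, ns x ≤ j → d x = 0) ∧
    (∀ x, {i | d x < x i}.ncard ≤ j) ∧ ∀ (g : Perm ι) x, d (g • x) = d x := by
  have := Fintype.ofFinite ι
  let T : Set (ι → ℝ≥0) := {x : Fn ι ℝ≥0 | ns x ≤ j}
  have hT : IsClosed T := isClosed_ns_le j
  have hne : T.Nonempty := ⟨zer, ns_zer.le.trans (Nat.zero_le j)⟩
  refine ⟨fun x => Metric.infNndist (α := ι → ℝ≥0) x T, Metric.continuous_infNndist_pt T,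
    fun x hx => NNReal.coe_injective (Metric.infDist_zero_of_mem (α := ι → ℝ≥0) hx), fun x => ?_,
    fun g x => NNReal.coe_injective ?_⟩
  · obtain ⟨y, hy, h⟩ := hT.exists_infDist_eq_dist hne x
    refine le_trans (Set.ncard_le_ncard (t := supp y) (fun i hi hy0 => ?_) (Set.toFinite _)) hy
    have h1 : Metric.infDist (α := ι → ℝ≥0) x T < x i := hi
    have h2 := dist_le_pi_dist (X := fun _ : ι => ℝ≥0) x y i
    rw [hy0, NNReal.dist_eq, NNReal.coe_zero, sub_zero] at h2
    linarith [le_abs_self ((x i : ℝ≥0) : ℝ)]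
  · have hg : Isometry (fun x : ι → ℝ≥0 => (fun i => x (g.symm i) : ι → ℝ≥0)) := by
      refine Isometry.of_dist_eq fun a b => le_antisymm ?_ ?_
      · exact (dist_pi_le_iff dist_nonneg).2 fun i => dist_le_pi_dist a b _
      · refine (dist_pi_le_iff dist_nonneg).2 fun i => ?_
        simpa using dist_le_pi_dist (fun i => a (g.symm i)) (fun i => b (g.symm i)) (g i)
    have hT' : (fun x : ι → ℝ≥0 => (fun i => x (g.symm i) : ι → ℝ≥0)) '' T = T := by
      ext y
      constructor
      · rintro ⟨z, hz, rfl⟩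
        exact (ns_smul g z).le.trans hz
      · intro hy
        exact ⟨g⁻¹ • (show Fn ι ℝ≥0 from y), (ns_smul g⁻¹ _).le.trans hy,
          smul_inv_smul g (show Fn ι ℝ≥0 from y)⟩
    have h := Metric.infDist_image (x := x) (t := T) hg
    rwa [hT'] at h

omit [Finite ι] in
variable (ι) in
/-- at most `j` nonzero coordinates (and maximum `1` if `c` holds) -/
def Fl (c : Prop) (j : ℕ) : SubMulAction (Perm ι) (Fn ι ℝ≥0) where
  carrier := {x | (c → top x = 1) ∧ ns x ≤ j}
  smul_mem' g x hx := ⟨fun h => (top_smul g x).trans (hx.1 h), (ns_smul g x).le.trans hx.2⟩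

omit [Finite ι] in
variable (ι) in
/-- exactly `j` nonzero coordinates (and maximum `1` if `c` holds) -/
def St (c : Prop) (j : ℕ) : SubMulAction (Perm ι) (Fn ι ℝ≥0) where
  carrier := {x | (c → top x = 1) ∧ ns x = j}
  smul_mem' g x hx := ⟨fun h => (top_smul g x).trans (hx.1 h), (ns_smul g x).trans hx.2⟩

theorem isClosed_on (c : Prop) : IsClosed {x : Fn ι ℝ≥0 | c → top x = 1} := by
  by_cases h : c
  · simpa [h] using isClosed_eq continuous_top continuous_const
  · simp [h]

theorem isClosed_Fl (c : Prop) (j : ℕ) : IsClosed (Fl ι c j : Set (Fn ι ℝ≥0)) :=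
  (isClosed_on c).inter (isClosed_ns_le j)

theorem isLocallyClosed_St (c : Prop) (j : ℕ) : IsLocallyClosed (St ι c j : Set (Fn ι ℝ≥0)) := by
  have h : (St ι c j : Set (Fn ι ℝ≥0)) = {x | j ≤ ns x} ∩ Fl ι c j := by
    ext x
    exact ⟨fun h => ⟨h.2.ge, h.1, h.2.le⟩, fun h => ⟨h.2.1, le_antisymm h.2.2 h.1⟩⟩
  rw [h]
  exact (isOpen_le_ns j).isLocallyClosed.inter (isClosed_Fl c j).isLocallyClosed

instance (c : Prop) (j : ℕ) : LocallyCompactSpace (Fl ι c j) :=
  (isClosed_Fl c j).isLocallyClosed.locallyCompactSpace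

instance (c : Prop) (j : ℕ) : LocallyCompactSpace (St ι c j) :=
  (isLocallyClosed_St c j).locallyCompactSpace

instance (j : ℕ) : CompactSpace (Fl ι True j) :=
  isCompact_iff_compactSpace.1 ((isCompact_top_le 1).of_isClosed_subset (isClosed_Fl True j)
    fun _ hx => (hx.1 trivial).le)

variable (ι) in
/-- the `G`-space `Fl` -/
abbrev FA (c : Prop) (j : ℕ) : Action LC (Perm ι) := gsp (Perm ι) (Fl ι c j)

variable (ι) in
/-- the `G`-space `St` -/
abbrev SA (c : Prop) (j : ℕ) : Action LC (Perm ι) := gsp (Perm ι) (St ι c j)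

variable {c : Prop} {j k : ℕ}

/-- the inclusions of the filtration -/
def flι (h : j ≤ k) (x : Fl ι c j) : Fl ι c k := ⟨x.1, x.2.1, x.2.2.trans h⟩

theorem isClosedEmbedding_flι (h : j ≤ k) : IsClosedEmbedding (flι (ι := ι) (c := c) h) :=
  IsClosedEmbedding.of_comp (isClosed_Fl c k).isClosedEmbedding_subtypeVal.isEmbedding
    (isClosed_Fl c j).isClosedEmbedding_subtypeVal

/-- the top stratum -/
def stι (x : St ι c j) : Fl ι c j := ⟨x.1, x.2.1, x.2.2.le⟩

omit [Finite ι] in
theorem range_stι : Set.range (stι : St ι c j → Fl ι c j) = {x | j ≤ ns x.1} := by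
  ext x
  constructor
  · rintro ⟨y, rfl⟩
    exact y.2.2.ge
  · intro h
    exact ⟨⟨x.1, x.2.1, le_antisymm x.2.2 h⟩, rfl⟩

omit [Finite ι] in
theorem range_flι (h : j ≤ k) : Set.range (flι h : Fl ι c j → Fl ι c k) = {x | ns x.1 ≤ j} := by
  ext x
  constructor
  · rintro ⟨y, rfl⟩
    exact y.2.2
  · intro h
    exact ⟨⟨x.1, x.2.1, h⟩, rfl⟩

theorem isOpenEmbedding_stι : IsOpenEmbedding (stι : St ι c j → Fl ι c j) := by
  refine ⟨IsEmbedding.of_comp (continuous_subtype_val.subtype_mk _) continuous_subtype_val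
    IsEmbedding.subtypeVal, ?_⟩
  rw [range_stι]
  exact (isOpen_le_ns j).preimage continuous_subtype_val

variable (ι c) in
/-- the inclusions of the filtration -/
def gι (h : j ≤ k) : FA ι c j ⟶ FA ι c k := gClosed (flι h) (isClosedEmbedding_flι h) fun _ _ => rfl

variable (ι c j) in
/-- the collapse onto the top stratum -/
noncomputable def gπ : FA ι c j ⟶ SA ι c j := gOpen stι isOpenEmbedding_stι fun _ _ => rfl

theorem gι_refl : gι ι c (le_refl j) = 𝟙 _ := gsp_hom_ext fun _ => rfl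

theorem gι_gι {l : ℕ} (h : j ≤ k) (h' : k ≤ l) : gι ι c h ≫ gι ι c h' = gι ι c (h.trans h') :=
  gsp_hom_ext fun _ => rfl

/-- the deformation -/
def shr (x : Fn ι ℝ≥0) (s : ℝ≥0) : Fn ι ℝ≥0 := fun i => min (x i) (2 * (x i - s))

omit [Finite ι] in
theorem shr_zero (x : Fn ι ℝ≥0) : shr x 0 = x :=
  Fn.ext fun i => by
    rw [shr, tsub_zero, min_eq_left]
    rw [two_mul]
    exact le_self_add

omit [Finite ι] in
theorem shr_le (x : Fn ι ℝ≥0) (s : ℝ≥0) (i : ι) : shr x s i ≤ x i := min_le_left _ _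

omit [Finite ι] in
theorem shr_of_le {x : Fn ι ℝ≥0} {s : ℝ≥0} {i : ι} (h : 2 * s ≤ x i) : shr x s i = x i := by
  rw [shr, min_eq_left]
  rw [← NNReal.coe_le_coe, NNReal.coe_mul, NNReal.coe_sub (le_trans (by
    rw [two_mul]; exact le_self_add) h)]
  have h' : (2 : ℝ) * s ≤ x i := by exact_mod_cast h
  push_cast
  linarith

omit [Finite ι] in
theorem supp_shr (x : Fn ι ℝ≥0) (s : ℝ≥0) : supp (shr x s) ⊆ {i | s < x i} := by
  intro i hi
  by_contra h
  refine hi (le_antisymm ((min_le_right _ _).trans ?_) zero_le)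
  rw [tsub_eq_zero_of_le (not_lt.1 h), mul_zero]

theorem top_shr {x : Fn ι ℝ≥0} {s : ℝ≥0} (h : 2 * s ≤ top x) : top (shr x s) = top x := by
  refine le_antisymm (top_le fun i => (shr_le x s i).trans (le_top x i)) ?_
  by_cases h0 : top x = 0
  · rw [h0]
    exact zero_le
  · obtain ⟨i, hi⟩ := exists_eq_top h0
    exact hi.ge.trans ((shr_of_le (h.trans hi.ge)).ge.trans (le_top _ i))

omit [Finite ι] in
theorem continuous_shr : Continuous fun p : Fn ι ℝ≥0 × ℝ≥0 => shr p.1 p.2 :=
  Fn.continuous_mk fun i => ((Fn.continuous_ap i).comp continuous_fst).min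
    (continuous_const.mul (((Fn.continuous_ap i).comp continuous_fst).sub continuous_snd))

/-- half of a point of the unit interval -/
noncomputable def hlf (t : unitInterval) : ℝ≥0 := ⟨t.1 / 2, by linarith [t.2.1]⟩

theorem two_mul_hlf (t : unitInterval) : 2 * hlf t ≤ 1 := by
  rw [← NNReal.coe_le_coe]
  change (2 : ℝ) * (t.1 / 2) ≤ 1
  linarith [t.2.2]

theorem continuous_hlf : Continuous hlf := (continuous_subtype_val.div_const 2).subtype_mk _

section M

variable {M : Type u} [Category.{v} M] [MonoidalCategory M] [SymmetricCategory M]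
  [MonoidalClosed M] [HasZeroMorphisms M] [HasColimitsOfSize.{0, 0} M] [StabInput M]

theorem hCof_gι (h : j ≤ k) : HCof ((JA (Perm ι) M).map (gι ι c h)) := by
  obtain ⟨d, hd, hd0, hdj, hde⟩ := exists_dist (ι := ι) j
  let u : Fl ι c k → unitInterval := fun x =>
    ⟨min 1 (2 * (d x.1 : ℝ)), le_min zero_le_one (by positivity), min_le_left _ _⟩
  let H : Fl ι c k × unitInterval → Fl ι c k := fun p => ⟨shr p.1.1 (hlf p.2), fun hc => by
      rw [top_shr ((two_mul_hlf _).trans (p.1.2.1 hc).ge)]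
      exact p.1.2.1 hc,
    (ns_mono fun i hi => (lt_of_le_of_lt zero_le (supp_shr _ _ hi)).ne').trans p.1.2.2⟩
  refine hCof_of_ndr (flι h) (isClosedEmbedding_flι h) _ u ?_ H ?_ ?_ ?_ ?_ ?_ ?_ ?_
  · exact (continuous_const.min (continuous_const.mul (NNReal.continuous_coe.comp
      (hd.comp continuous_subtype_val)))).subtype_mk _
  · exact (continuous_shr.comp ((continuous_subtype_val.comp continuous_fst).prodMk
      (continuous_hlf.comp continuous_snd))).subtype_mk _
  · refine LC.tendsto_cocompact_of_preimage fun K hK => ?_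
    obtain ⟨R, hR⟩ := exists_top_le (hK.image continuous_subtype_val)
    refine ⟨(Subtype.val ⁻¹' {x | top x ≤ max R 1}) ×ˢ Set.univ,
      ((isClosed_Fl c k).isClosedEmbedding_subtypeVal.isCompact_preimage
        (isCompact_top_le _)).prod isCompact_univ, fun p hp => ⟨?_, trivial⟩⟩
    have h1 : top (shr p.1.1 (hlf p.2)) ≤ R := hR _ ⟨_, hp, rfl⟩
    change top p.1.1 ≤ max R 1
    rcases le_total (top p.1.1) 1 with h2 | h2
    · exact h2.trans (le_max_right _ _)
    · rw [top_shr ((two_mul_hlf _).trans h2)] at h1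
      exact h1.trans (le_max_left _ _)
  · intro a
    refine Subtype.ext ?_
    change min 1 (2 * (d a.1 : ℝ)) = 0
    rw [hd0 _ a.2.2]
    simp
  · intro b
    refine Subtype.ext ?_
    change shr b.1 (hlf 0) = b.1
    rw [show hlf 0 = 0 from NNReal.coe_injective (zero_div _), shr_zero]
  · intro b hb
    rw [range_flι]
    have h1 : min 1 (2 * (d b.1 : ℝ)) < 1 := hb
    have h2 : hlf (u b) = d b.1 := NNReal.coe_injective (by
      change min 1 (2 * (d b.1 : ℝ)) / 2 = d b.1
      rw [min_eq_right (le_of_lt ((min_lt_iff.1 h1).resolve_left (lt_irrefl _)))]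
      ring)
    change ns (shr b.1 (hlf (u b))) ≤ j
    rw [h2]
    exact (Set.ncard_le_ncard (supp_shr _ _) (Set.toFinite _)).trans (hdj _)
  · intro g b
    refine Subtype.ext ?_
    change min 1 (2 * (d (g • b.1) : ℝ)) = min 1 (2 * (d b.1 : ℝ))
    rw [hde]
  · intro g b t
    rfl

theorem isPushout_gπ {O : Action M (Perm ι)} (hO : IsZero O)
    (a : (JA (Perm ι) M).obj (FA ι c j) ⟶ O) (b : O ⟶ (JA (Perm ι) M).obj (SA ι c (j + 1))) :
    IsPushout ((JA (Perm ι) M).map (gι ι c (Nat.le_succ j))) a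
      ((JA (Perm ι) M).map (gπ ι c (j + 1))) b := by
  refine isPushout_gClosed_gOpen _ _ _ _ _ _ ?_ hO a b
  rw [range_flι, range_stι]
  have h : {x : Fl ι c (j + 1) | j + 1 ≤ ns x.1} = {x | ns x.1 ≤ j}ᶜ := by
    ext x
    simp
  rw [h]
  exact isCompl_compl

end M

end Vale.Agent.P257.Z
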