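import Vale.Agent.P257.Z.PT
import Vale.Agent.P257.Z.Tr
import Vale.Agent.P257.C.Deg

/-!
# P257, block Z: vanishing by signs

`E` is a preadditive symmetric monoidal category without `2`-torsion, `T : LC ⥤ E` a stable
homotopy invariant functor.  `Sg ε Y`: the transpositions act on `Y` by the sign `ε`.
-/

open CategoryTheory MonoidalCategory Limits Topology OnePoint
open Functor.LaxMonoidal Functor.OplaxMonoidal
open scoped NNReal

namespace Vale.Agent.P257.Z

open Vale.Agent.P257.E Vale.Agent.P257.C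
open Vale.Agent.P251.G (LC)
open Vale.Agent.P251.G.LC (RR II HH app smash incl)
open Vale.Agent.P251.M (IsInv whiskerRight_bijective)
open Equiv (Perm swap)

universe v u

variable {E : Type u} [Category.{v} E] [Preadditive E] {ι : Type} [DecidableEq ι]

/-- the transpositions act by the sign `ε` -/
def Sg (ε : ℤˣ) (Y : Action E (Perm ι)) : Prop :=
  ∀ a b : ι, a ≠ b → act Y (swap a b) = (ε : ℤ) • 𝟙 Y.V

variable (E) in
/-- no `2`-torsion -/
def Two : Prop := ∀ (A B : E) (f : A ⟶ B), f = -f → f = 0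

namespace Sg

variable {ε ε' : ℤˣ} {X Y Y' : Action E (Perm ι)}

theorem of_iso (h : Sg ε Y) (e : Y ≅ Y') : Sg ε Y' := fun a b n => by
  rw [← cancel_epi e.hom.hom, ← act_comm, h a b n, Preadditive.zsmul_comp, Preadditive.comp_zsmul,
    Category.id_comp, Category.comp_id]

theorem of_act (h : ∀ g, act Y g = 𝟙 Y.V) : Sg 1 Y := fun _ _ _ => (h _).trans (one_smul _ _).symm

theorem tensor [MonoidalCategory E] [MonoidalPreadditive E] (h : Sg ε X) (k : Sg ε' Y) :
    Sg (ε * ε') (X ⊗ Y) := fun a b n => by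
  rw [act_tensor, h a b n, k a b n, zsmul_tensorHom, id_tensorHom_id, Units.val_mul]
  rfl

theorem comm [Finite ι] (hY : Sg ε Y) (hX : Sg ε X) (φ : Y.V ⟶ X.V) (g : Perm ι) :
    act Y g ≫ φ = φ ≫ act X g := by
  induction g using Equiv.Perm.swap_induction_on with
  | one => rw [act_one, act_one, Category.id_comp, Category.comp_id]
  | swap_mul f a b n ih =>
    rw [← act_mul, ← act_mul, Category.assoc, hY a b n, hX a b n, Preadditive.zsmul_comp,
      Category.id_comp, Preadditive.comp_zsmul, ih, Preadditive.comp_zsmul, Category.comp_id,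
      Preadditive.comp_zsmul]

end Sg

theorem Two.eq_zero (two : Two E) {A B : E} {f : A ⟶ B} {ε : ℤˣ}
    (h : (ε : ℤ) • f = ((-ε : ℤˣ) : ℤ) • f) : f = 0 := by
  refine two _ _ f ?_
  rcases Int.units_eq_one_or ε with rfl | rfl
  · simpa using h
  · simpa using h.symm

theorem Sg.eq_zero (two : Two E) {ε : ℤˣ} {X Y : Action E (Perm ι)} (hY : Sg ε Y)
    (hX : Sg (-ε) X) {a b : ι} (n : a ≠ b) {φ : Y.V ⟶ X.V}
    (h : act Y (swap a b) ≫ φ = φ ≫ act X (swap a b)) : φ = 0 := by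
  rw [hY a b n, hX a b n, Preadditive.zsmul_comp, Preadditive.comp_zsmul, Category.id_comp,
    Category.comp_id] at h
  exact two.eq_zero h

theorem swap_preimage {a b : ι} {U : Set ι} (h : a ∈ U ↔ b ∈ U) : (swap a b).symm ⁻¹' U = U := by
  ext i
  rw [Equiv.symm_swap, Set.mem_preimage, Equiv.swap_apply_def]
  split_ifs with h1 h2
  · rw [h1, h]
  · rw [h2, h]
  · rfl

omit [DecidableEq ι] in
theorem exists_pair_compl [Finite ι] {U : Set ι} (h : U.ncard + 2 ≤ Nat.card ι) :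
    ∃ a ∉ U, ∃ b ∉ U, a ≠ b :=
  (Set.one_lt_ncard (s := Uᶜ) (Set.toFinite _)).1 (by rw [Set.ncard_compl]; omega)

variable [MonoidalCategory E] [MonoidalPreadditive E] {T : LC ⥤ E} (h : SphFun T) [Finite ι]
  {c : Prop} {j : ℕ}

include h

omit [DecidableEq ι] [MonoidalCategory E] [MonoidalPreadditive E] in
theorem sum_es [Fintype (Set ι)] : ∑ U : Set ι, T.map (es j c U) = 𝟙 _ := by
  rw [← T.map_id]
  exact (h.map_sum (X := LC.of (St ι c j)) Finset.univ (f := 𝟙 _) (g := fun U => es j c U)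
    (U := fun U => {x | supp x.1 = U})
    (fun _ _ _ _ n => Set.disjoint_left.2 fun _ a b => n (a.symm.trans b))
    (fun _ _ _ hx => (app_es_of_eq hx).symm) (fun _ _ _ hx => app_es_of_ne hx)
    fun x hx => absurd rfl (hx (supp x.1) (Finset.mem_univ _))).symm

omit [DecidableEq ι] in
theorem eq_zero_of_es_tgt {W X : E} {f : W ⟶ X ⊗ T.obj (SA ι c j).V}
    (k : ∀ U : Set ι, U.ncard = j → f ≫ X ◁ T.map (es j c U) = 0) : f = 0 := by
  have := Fintype.ofFinite (Set ι)
  rw [← Category.comp_id f, ← MonoidalCategory.whiskerLeft_id, ← sum_es h, whiskerLeft_sum,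
    Preadditive.comp_sum]
  refine Finset.sum_eq_zero fun U _ => ?_
  by_cases hU : U.ncard = j
  · exact k U hU
  · rw [es_eq_zero hU, h.zero, MonoidalPreadditive.whiskerLeft_zero, comp_zero]

omit [DecidableEq ι] in
theorem eq_zero_of_es_src {W X : E} {f : X ⊗ T.obj (SA ι c j).V ⟶ W}
    (k : ∀ U : Set ι, U.ncard = j → X ◁ T.map (es j c U) ≫ f = 0) : f = 0 := by
  have := Fintype.ofFinite (Set ι)
  rw [← Category.id_comp f, ← MonoidalCategory.whiskerLeft_id, ← sum_es h, whiskerLeft_sum,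
    Preadditive.sum_comp]
  refine Finset.sum_eq_zero fun U _ => ?_
  by_cases hU : U.ncard = j
  · exact k U hU
  · rw [es_eq_zero hU, h.zero, MonoidalPreadditive.whiskerLeft_zero, zero_comp]

omit [DecidableEq ι] in
/-- maps out of a stratum vanish if maps out of spheres do -/
theorem zr_St_of_cells {W X : E} (k : ∀ U : Set ι, U.ncard = j → Zr (X ⊗ T.obj (LC.of (U → ℝ))) W) :
    Zr (X ⊗ T.obj (SA ι False j).V) W := fun f => eq_zero_of_es_src h fun U hU => by
  rw [es_eq hU, T.map_comp, MonoidalCategory.whiskerLeft_comp, Category.assoc, k U hU (_ ≫ f),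
    comp_zero]

omit [DecidableEq ι] [MonoidalCategory E] [MonoidalPreadditive E] [Finite ι] in
theorem sum_dco {U : Type} [Fintype U] : ∑ t : U, T.map (dco t ≫ dpt t) = 𝟙 _ := by
  rw [← T.map_id]
  refine (h.map_sum (X := dsp U) (Finset.univ : Finset U) (f := 𝟙 _)
    (g := fun t : U => dco t ≫ dpt t) (U := fun t => {Ds.mk t})
    (fun _ _ _ _ n => Set.disjoint_singleton.2 n) ?_ (fun t _ x hx => ?_)
    fun x hx => absurd rfl (hx x.val (Finset.mem_univ _))).symm
  · intro t _ x hx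
    rw [show x = Ds.mk t from hx]
    exact (congrArg (app (dpt t)) (app_dco_self t)).symm
  · rw [LC.app_comp, show app (dco t) (x : OnePoint (Ds U)) = ∞ from
      app_dco_ne fun e => hx e.symm, LC.app_infty]

variable [SymmetricCategory E] [T.Monoidal] [IsInv (T.obj RR)]

theorem map_permLC_swap {κ : Type} [Finite κ] [DecidableEq κ] {a b : κ} (n : a ≠ b) :
    T.map (permLC (swap a b)) = -𝟙 _ := by
  have := Fintype.ofFinite κ
  rw [h.map_perm (fun _ => whiskerRight_eq_zero) (swap a b) _ (app_permLC _),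
    Equiv.Perm.sign_swap n]
  simp

theorem map_es_swap {U : Set ι} {a b : ι} (ha : a ∈ U) (hb : b ∈ U) (n : a ≠ b) :
    T.map (es j False U ≫ act (SA ι False j) (swap a b)) = -T.map (es j False U) := by
  by_cases hU : U.ncard = j
  · rw [es_eq hU, Category.assoc, chι_swap hU ⟨a, ha⟩ ⟨b, hb⟩, T.map_comp, T.map_comp,
      map_permLC_swap h fun e => n (congrArg Subtype.val e), T.map_comp]
    simp
  · rw [es_eq_zero hU, zero_comp, h.zero, neg_zero]

theorem sg_VA : Sg (-1) ((mapA T (Perm ι)).obj (VA ι)) := fun a b n => by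
  have k := map_permLC_swap h n
  rw [permLC, Equiv.swap_inv] at k
  exact k.trans (neg_one_zsmul _).symm

theorem sg_RA [Nonempty ι] : Sg (-1) ((mapA T (Perm ι)).obj (RA ι)) := fun a b n => by
  have k := ((sg_VA h).of_iso ((mapA T (Perm ι)).mapIso (spl ι).symm ≪≫
    (Functor.Monoidal.μIso (mapA T (Perm ι)) _ _).symm)) a b n
  have k' : T.map (act (RA ι) (swap a b)) ⊗ₘ T.map (𝟙 RR) =
      ((-1 : ℤˣ) : ℤ) • 𝟙 (T.obj (RA ι).V ⊗ T.obj RR) := k
  refine (whiskerRight_bijective (T.obj RR) _ _).1 ?_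
  rw [T.map_id, tensorHom_id] at k'
  dsimp only
  rw [zsmul_whiskerRight, id_whiskerRight]
  exact k'

variable (two : Two E) {ε ε' : ℤˣ} {X Y : Action E (Perm ι)}
include two

omit h [SymmetricCategory E] [T.Monoidal] [IsInv (T.obj RR)] in
theorem tgt_aux (hY : Sg ε Y) (hX : Sg ε' X) (r : Y ⟶ X ⊗ (mapA T _).obj (SA ι False j))
    {U : Set ι} {a b : ι} (n : a ≠ b) (hab : a ∈ U ↔ b ∈ U) {σ : ℤˣ}
    (hσ : T.map (es j False U ≫ act (SA ι False j) (swap a b)) = (σ : ℤ) • T.map (es j False U))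
    (e : ε' * σ = -ε) : r.hom ≫ X.V ◁ T.map (es j False U) = 0 := by
  have k : act Y (swap a b) ≫ r.hom =
      r.hom ≫ (act X (swap a b) ⊗ₘ T.map (act (SA ι False j) (swap a b))) := act_comm r _
  refine two.eq_zero (ε := ε) ?_
  rw [← e, ← Category.id_comp (r.hom ≫ _), ← Preadditive.zsmul_comp, ← hY a b n, reassoc_of% k,
    ← id_tensorHom, tensorHom_comp_tensorHom, ← T.map_comp, act_es (swap_preimage hab), hσ,
    hX a b n, Category.comp_id, zsmul_tensorHom, Category.id_comp, Preadditive.comp_zsmul,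
    Units.val_mul]

omit h [SymmetricCategory E] [T.Monoidal] [IsInv (T.obj RR)] in
theorem src_aux (hY : Sg ε Y) (hX : Sg ε' X) (r : Y ⊗ (mapA T _).obj (SA ι False j) ⟶ X)
    {U : Set ι} {a b : ι} (n : a ≠ b) {σ : ℤˣ}
    (hσ : T.map (es j False U ≫ act (SA ι False j) (swap a b)) = (σ : ℤ) • T.map (es j False U))
    (e : ε * σ = -ε') : Y.V ◁ T.map (es j False U) ≫ r.hom = 0 := by
  have k : (act Y (swap a b) ⊗ₘ T.map (act (SA ι False j) (swap a b))) ≫ r.hom =
      r.hom ≫ act X (swap a b) := act_comm r _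
  refine two.eq_zero (ε := ε') ?_
  rw [← e, ← Category.comp_id (_ ≫ r.hom), ← Preadditive.comp_zsmul, ← hX a b n, Category.assoc,
    ← k, ← id_tensorHom, tensorHom_comp_tensorHom_assoc, ← T.map_comp, hσ, hY a b n,
    Category.id_comp, zsmul_tensorHom, Category.comp_id, Preadditive.zsmul_comp, Units.val_mul]

/-- equivariant maps to a middle stratum vanish -/
theorem van_tgt (h1 : 2 ≤ j) (h2 : j + 2 ≤ Nat.card ι) (hY : Sg ε Y) (hX : Sg ε' X)
    (r : Y ⟶ X ⊗ (mapA T _).obj (SA ι False j)) : r.hom = 0 := by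
  refine eq_zero_of_es_tgt h fun U hU => ?_
  by_cases e : ε' = ε
  · obtain ⟨a, ha, b, hb, n⟩ := (Set.one_lt_ncard (s := U) (Set.toFinite _)).1 (by omega)
    exact tgt_aux two hY hX r n (iff_of_true ha hb) (σ := -1)
      ((map_es_swap h ha hb n).trans (neg_one_zsmul _).symm) (by rw [e, mul_neg_one])
  · obtain ⟨a, ha, b, hb, n⟩ := exists_pair_compl (U := U) (by omega)
    refine tgt_aux two hY hX r n (iff_of_false ha hb) (σ := 1) ?_
      (by rw [mul_one, Int.units_ne_iff_eq_neg.1 e])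
    rw [es_act_of_fix fun i hi => Equiv.swap_apply_of_ne_of_ne
      (fun (e : i = a) => ha (e ▸ hi)) fun (e : i = b) => hb (e ▸ hi), Units.val_one, one_smul]

/-- equivariant maps out of a stratum vanish: equal signs -/
theorem van_src (h1 : 2 ≤ j) (hY : Sg ε Y) (hX : Sg ε X)
    (r : Y ⊗ (mapA T _).obj (SA ι False j) ⟶ X) : r.hom = 0 := by
  refine eq_zero_of_es_src h fun U hU => ?_
  obtain ⟨a, ha, b, hb, n⟩ := (Set.one_lt_ncard (s := U) (Set.toFinite _)).1 (by omega)
  exact src_aux two hY hX r n (σ := -1) ((map_es_swap h ha hb n).trans (neg_one_zsmul _).symm)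
    (mul_neg_one _)

omit [SymmetricCategory E] [T.Monoidal] [IsInv (T.obj RR)] in
/-- equivariant maps out of a stratum vanish: opposite signs -/
theorem van_src' (h2 : j + 2 ≤ Nat.card ι) (hY : Sg ε Y) (hX : Sg (-ε) X)
    (r : Y ⊗ (mapA T _).obj (SA ι False j) ⟶ X) : r.hom = 0 := by
  refine eq_zero_of_es_src h fun U hU => ?_
  obtain ⟨a, ha, b, hb, n⟩ := exists_pair_compl (U := U) (by omega)
  refine src_aux two hY hX r n (σ := 1) ?_ (by rw [mul_one, neg_neg])
  rw [es_act_of_fix fun i hi => Equiv.swap_apply_of_ne_of_ne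
    (fun (e : i = a) => ha (e ▸ hi)) fun (e : i = b) => hb (e ▸ hi), Units.val_one, one_smul]

variable [Nonempty ι]

/-- a map out of the unit sphere which is invariant under a transposition and vanishes at a point
is zero -/
theorem eq_zero_of_cone
    (cone : CoEx (T.map (cq ι (pd ι)).hom ≫ δ T (AA ι).V RR)
      ((T.map (toPt _ (Fl ι True (pd ι))).hom ≫ η T) ▷ T.obj RR))
    (hY : Sg ε Y) (hX : Sg ε X) {a b : ι} (n : a ≠ b) {x : Y.V ⊗ T.obj (AA ι).V ⟶ X.V}
    (hx : (act Y (swap a b) ⊗ₘ T.map (act (AA ι) (swap a b))) ≫ x = x ≫ act X (swap a b))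
    {p : 𝟙_ LC ⟶ (AA ι).V} (hp : p ≫ (toPt _ (Fl ι True (pd ι))).hom = 𝟙 _)
    (h0 : Y.V ◁ (Functor.LaxMonoidal.ε T ≫ T.map p) ≫ x = 0) : x = 0 := by
  have hq : T.map (act (RA ι) (swap a b)) ≫ T.map (cq ι (pd ι)).hom ≫ δ T (AA ι).V RR =
      (T.map (cq ι (pd ι)).hom ≫ δ T (AA ι).V RR) ≫ T.map (act (AA ι) (swap a b)) ▷ T.obj RR := by
    rw [← T.map_comp_assoc, act_comm, Category.assoc, δ_natural_left, T.map_comp_assoc,
      ← tensorHom_id]
    rfl
  have h1 : Y.V ◁ (T.map (cq ι (pd ι)).hom ≫ δ T (AA ι).V RR) ≫ (α_ _ _ _).inv ≫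
      x ▷ T.obj RR = 0 := by
    refine Sg.eq_zero two (Y := Y ⊗ (mapA T _).obj (RA ι)) (X := X ⊗ (triv _).obj (T.obj RR))
      (hY.tensor (sg_RA h)) (by
        rw [mul_neg_one, neg_neg, ← mul_one ε]
        exact hX.tensor (Sg.of_act fun _ => rfl)) n ?_
    change (act Y (swap a b) ⊗ₘ T.map (act (RA ι) (swap a b))) ≫ _ =
      _ ≫ (act X (swap a b) ⊗ₘ 𝟙 (T.obj RR))
    rw [tensorHom_id, Category.assoc, Category.assoc, ← comp_whiskerRight, ← hx,
      comp_whiskerRight, ← id_tensorHom, tensorHom_comp_tensorHom_assoc, hq, ← tensorHom_id,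
      ← tensorHom_id (_ ⊗ₘ _), ← associator_inv_naturality_assoc,
      tensorHom_comp_tensorHom_assoc, Category.comp_id, Category.id_comp]
  obtain ⟨z, hz⟩ := cone _ _ _ h1
  have h2 : z = 0 := by
    have h3 := congrArg (Y.V ◁ (Functor.LaxMonoidal.ε T ≫ T.map p) ▷ T.obj RR ≫ ·) hz
    rwa [associator_inv_naturality_middle_assoc, ← comp_whiskerRight, h0,
      MonoidalPreadditive.zero_whiskerRight, comp_zero, ← MonoidalCategory.whiskerLeft_comp_assoc,
      ← comp_whiskerRight, Category.assoc, ← T.map_comp_assoc, hp, T.map_id, Category.id_comp,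
      Functor.Monoidal.ε_η, id_whiskerRight, MonoidalCategory.whiskerLeft_id,
      Category.id_comp] at h3
  rw [h2, comp_zero] at hz
  refine whiskerRight_eq_zero (S := T.obj RR) ?_
  rw [← cancel_epi (α_ _ _ _).inv, ← hz, comp_zero]

/-- an equivariant map from the unit sphere to `ι₊` is determined by one component at one point -/
theorem eq_zero_of_comp (h3 : 3 ≤ Nat.card ι)
    (cone : CoEx (T.map (cq ι (pd ι)).hom ≫ δ T (AA ι).V RR)
      ((T.map (toPt _ (Fl ι True (pd ι))).hom ≫ η T) ▷ T.obj RR))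
    (hY : Sg ε Y) (hX : Sg ε X) (r : Y ⊗ (mapA T _).obj (AA ι) ⟶ X ⊗ (mapA T _).obj (DA ι))
    {p : 𝟙_ LC ⟶ (AA ι).V} (hp : p ≫ (toPt _ (Fl ι True (pd ι))).hom = 𝟙 _) (i : ι)
    (h0 : Y.V ◁ (Functor.LaxMonoidal.ε T ≫ T.map p) ≫ r.hom ≫ X.V ◁ (T.map (dco i) ≫ η T) = 0) :
    r.hom = 0 := by
  have key : ∀ (g : Perm ι) (l : ι), (act Y g ⊗ₘ T.map (act (AA ι) g)) ≫ r.hom ≫
      X.V ◁ (T.map (dco (g l)) ≫ η T) ≫ (ρ_ _).hom =
      (r.hom ≫ X.V ◁ (T.map (dco l) ≫ η T) ≫ (ρ_ _).hom) ≫ act X g := fun g l => by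
    have k : (act Y g ⊗ₘ T.map (act (AA ι) g)) ≫ r.hom =
      r.hom ≫ (act X g ⊗ₘ T.map (act (DA ι) g)) := act_comm r g
    have k' : T.map (act (DA ι) g) ≫ T.map (dco (g l)) = T.map (dco l) :=
      (T.map_comp _ _).symm.trans (congrArg T.map (act_dco g l))
    rw [reassoc_of% k, Category.assoc, Category.assoc, ← rightUnitor_naturality,
      ← tensorHom_def'_assoc, tensorHom_def_assoc, ← MonoidalCategory.whiskerLeft_comp_assoc,
      reassoc_of% k', ← tensorHom_def_assoc]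
  have h1 : r.hom ≫ X.V ◁ (T.map (dco i) ≫ η T) ≫ (ρ_ _).hom = 0 := by
    obtain ⟨a, ha, b, hb, n⟩ := exists_pair_compl (U := {i}) (by rw [Set.ncard_singleton]; omega)
    have k := key (swap a b) i
    rw [Equiv.swap_apply_of_ne_of_ne (Ne.symm ha) (Ne.symm hb)] at k
    exact eq_zero_of_cone h two cone hY hX n k hp (by rw [reassoc_of% h0, zero_comp])
  have h2 : ∀ l, r.hom ≫ X.V ◁ T.map (dco l) = 0 := fun l => by
    have k := key (swap i l) i
    rw [h1, zero_comp, Equiv.swap_apply_left] at k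
    have k' : act (Y ⊗ (mapA T _).obj (AA ι)) (swap i l) ≫ r.hom ≫
        X.V ◁ (T.map (dco l) ≫ η T) ≫ (ρ_ _).hom = 0 := k
    rw [← cancel_mono (X.V ◁ η T), ← cancel_mono (ρ_ _).hom,
      ← cancel_epi (act (Y ⊗ (mapA T _).obj (AA ι)) (swap i l))]
    simpa using k'
  have := Fintype.ofFinite ι
  rw [← Category.comp_id r.hom]
  change r.hom ≫ 𝟙 (X.V ⊗ T.obj (dsp ι)) = 0
  rw [← MonoidalCategory.whiskerLeft_id, ← sum_dco h, whiskerLeft_sum, Preadditive.comp_sum]
  refine Finset.sum_eq_zero fun l _ => ?_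
  rw [T.map_comp, MonoidalCategory.whiskerLeft_comp, reassoc_of% h2 l, zero_comp]

end Vale.Agent.P257.Z
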